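import Vale.Agent.P146.H797.H706_LawT
import Vale.Agent.P146.H712.EnCalc

/-!
Plan R2, row R6: Gaussian integration by parts under a law with a general smooth density on the
coordinates `K4 κ`, for a linear position, and functions which do not depend on the coupling
considered otherwise.
-/

open MeasureTheory ProbabilityTheory Finset

namespace Vale.Agent.P146.H191

open Vale.Agent.P157.Lv Vale.Agent.P146.H425 Vale.Agent.P146.H325 Vale.Agent.P146.H332
  Vale.Agent.P146.H712 Vale.Agent.P146.R1 Vale.Agent.P146.R1C Vale.Agent.P146.H706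

set_option linter.unusedSectionVars false

section gen

variable {κ : Type} [Fintype κ] [DecidableEq κ]

/-- A smooth density `φ` on the coordinates `K4 κ`; `ψ' j` is the derivative of its logarithm. -/
structure Den (φ : (K4 κ → ℝ) → ℝ) (ψ' : K4 κ → (K4 κ → ℝ) → ℝ) : Prop where
  eg : EG φ
  pd : ∀ j, PD j φ (fun w => φ w * ψ' j w)
  eg' : ∀ j, EG (ψ' j)

/-- The mean (not normalized). -/
noncomputable def Im (φ f : (K4 κ → ℝ) → ℝ) : ℝ := ∫ w, φ w * f w ∂(gI (K4 κ))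

variable {φ : (K4 κ → ℝ) → ℝ} {ψ' : K4 κ → (K4 κ → ℝ) → ℝ}

lemma Im_congr {f g : (K4 κ → ℝ) → ℝ} (h : ∀ w, f w = g w) : Im φ f = Im φ g := by
  rw [show f = g from funext h]

lemma Im_add (h : EG φ) {f g : (K4 κ → ℝ) → ℝ} (hf : EG f) (hg : EG g) :
    Im φ (fun w => f w + g w) = Im φ f + Im φ g := by
  unfold Im
  rw [← integral_add (h.mul hf).integrable (h.mul hg).integrable]
  exact integral_congr_ae (Filter.Eventually.of_forall fun w => by simp only; ring)

lemma Im_sub (h : EG φ) {f g : (K4 κ → ℝ) → ℝ} (hf : EG f) (hg : EG g) :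
    Im φ (fun w => f w - g w) = Im φ f - Im φ g := by
  unfold Im
  rw [← integral_sub (h.mul hf).integrable (h.mul hg).integrable]
  exact integral_congr_ae (Filter.Eventually.of_forall fun w => by simp only; ring)

lemma Im_const_mul (c : ℝ) (f : (K4 κ → ℝ) → ℝ) :
    Im φ (fun w => c * f w) = c * Im φ f := by
  unfold Im
  rw [← integral_const_mul]
  exact integral_congr_ae (Filter.Eventually.of_forall fun w => by simp only; ring)

lemma Im_sum (h : EG φ) {α : Type*} (s : Finset α)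
    {f : α → (K4 κ → ℝ) → ℝ} (hf : ∀ i ∈ s, EG (f i)) :
    Im φ (fun w => ∑ i ∈ s, f i w) = ∑ i ∈ s, Im φ (f i) := by
  unfold Im
  rw [← integral_finsetSum _ fun i hi => (h.mul (hf i hi)).integrable]
  exact integral_congr_ae (Filter.Eventually.of_forall fun w => by simp only [Finset.mul_sum])

/-- The drift of the position `lp c`. -/
noncomputable def dr (c : Fin 4 → ℝ) (ψ' : K4 κ → (K4 κ → ℝ) → ℝ) (e : κ) (w : K4 κ → ℝ) : ℝ :=
  c 0 * ψ' (Sum.inl e) w + c 1 * ψ' (Sum.inr (Sum.inl e)) w +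
    c 2 * ψ' (Sum.inr (Sum.inr (Sum.inl e))) w + c 3 * ψ' (Sum.inr (Sum.inr (Sum.inr e))) w

/-- The variance of the position `lp c`. -/
def vr (c : Fin 4 → ℝ) : ℝ := c 0 ^ 2 + c 1 ^ 2 + c 2 ^ 2 + c 3 ^ 2

lemma Den.eg_dr (h : Den φ ψ') (c : Fin 4 → ℝ) (e : κ) : EG (dr c ψ' e) :=
  ((((h.eg' _).const_mul _).add ((h.eg' _).const_mul _)).add ((h.eg' _).const_mul _)).add
    ((h.eg' _).const_mul _)

/-- integration by parts for one coordinate -/
lemma Den.ibp_j (h : Den φ ψ') {j : K4 κ} {Φ Φ' : (K4 κ → ℝ) → ℝ}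
    (hd : PD j Φ Φ') (hΦ : EG Φ) (hΦ' : EG Φ') :
    Im φ (fun w => w j * Φ w) = Im φ (fun w => Φ' w + Φ w * ψ' j w) := by
  have key := ((h.pd j).mul hd).stein (h.eg.mul hΦ)
    (((h.eg.mul (h.eg' j)).mul hΦ).add (h.eg.mul hΦ'))
  unfold Im
  calc ∫ w, φ w * (w j * Φ w) ∂(gI (K4 κ)) = ∫ w, w j * (φ w * Φ w) ∂(gI (K4 κ)) :=
        integral_congr_ae (Filter.Eventually.of_forall fun w => by simp only; ring)
    _ = _ := key
    _ = _ := integral_congr_ae (Filter.Eventually.of_forall fun w => by simp only; ring)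

/-- **Integration by parts under the law with the density `φ`.** -/
theorem Den.ibp (h : Den φ ψ') (a : Fin 4 → ℝ) {e : κ} {c : (K4 κ → ℝ) → ℝ}
    {f f' : (κ → ℝ) → ℝ} (hc : EG c) (hci : ∀ j : K4 κ, bs j = e → PD j c (fun _ => 0))
    (hf : EG f) (hf' : EG f') (hd : PD e f f') :
    Im φ (fun w => c w * (lp a w e * f (lp a w))) =
      Im φ (fun w => c w * (vr a * f' (lp a w) + f (lp a w) * dr a ψ' e w)) := by
  have ef : EG fun w => f (lp a w) := eg_lp _ hf
  have ef' : EG fun w => f' (lp a w) := eg_lp _ hf'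
  have one : ∀ j : K4 κ, bs j = e →
      Im φ (fun w => w j * (c w * f (lp a w))) =
        Im φ (fun w => c w * (a (bl j) * f' (lp a w)) + c w * f (lp a w) * ψ' j w) := by
    intro j hj
    have hdj : PD j (fun w => c w * f (lp a w))
        (fun w => c w * (a (bl j) * f' (lp a w))) := by
      have h1 : PD (bs j) f f' := by rw [hj]; exact hd
      refine ((hci j hj).mul (pd_lp a h1)).congr fun w => ?_
      ring
    exact h.ibp_j hdj (hc.mul ef) (hc.mul (ef'.const_mul _))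
  have eg1 : ∀ j : K4 κ, EG fun w : K4 κ → ℝ => w j * (c w * f (lp a w)) := fun j =>
    (EG.coord j).mul (hc.mul ef)
  have eg2 : ∀ j : K4 κ, EG fun w => c w * (a (bl j) * f' (lp a w)) +
      c w * f (lp a w) * ψ' j w := fun j =>
    (hc.mul (ef'.const_mul _)).add ((hc.mul ef).mul (h.eg' j))
  have o0 := one (Sum.inl e) rfl
  have o1 := one (Sum.inr (Sum.inl e)) rfl
  have o2 := one (Sum.inr (Sum.inr (Sum.inl e))) rfl
  have o3 := one (Sum.inr (Sum.inr (Sum.inr e))) rfl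
  have hL : Im φ (fun w => c w * (lp a w e * f (lp a w))) =
      a 0 * Im φ (fun w => w (Sum.inl e) * (c w * f (lp a w))) +
      a 1 * Im φ (fun w => w (Sum.inr (Sum.inl e)) * (c w * f (lp a w))) +
      a 2 * Im φ (fun w => w (Sum.inr (Sum.inr (Sum.inl e))) * (c w * f (lp a w))) +
      a 3 * Im φ (fun w => w (Sum.inr (Sum.inr (Sum.inr e))) * (c w * f (lp a w))) := by
    rw [← Im_const_mul, ← Im_const_mul, ← Im_const_mul, ← Im_const_mul,
      ← Im_add h.eg ((eg1 _).const_mul _) ((eg1 _).const_mul _),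
      ← Im_add h.eg (((eg1 _).const_mul _).add ((eg1 _).const_mul _)) ((eg1 _).const_mul _),
      ← Im_add h.eg ((((eg1 _).const_mul _).add ((eg1 _).const_mul _)).add
        ((eg1 _).const_mul _)) ((eg1 _).const_mul _)]
    refine Im_congr fun w => ?_
    simp only [H712.lp]
    ring
  rw [hL, o0, o1, o2, o3, ← Im_const_mul, ← Im_const_mul, ← Im_const_mul, ← Im_const_mul,
      ← Im_add h.eg ((eg2 _).const_mul _) ((eg2 _).const_mul _),
      ← Im_add h.eg (((eg2 _).const_mul _).add ((eg2 _).const_mul _)) ((eg2 _).const_mul _),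
      ← Im_add h.eg ((((eg2 _).const_mul _).add ((eg2 _).const_mul _)).add
        ((eg2 _).const_mul _)) ((eg2 _).const_mul _)]
  refine Im_congr fun w => ?_
  simp only [dr, vr, bl]
  ring

end gen

section law

variable {κ : Type} [Fintype κ] [DecidableEq κ] {F : (κ → ℝ) → ℝ} {D : κ → (κ → ℝ) → ℝ}
  {B L : ℝ} {q : Par}

/-- the density of `P_θ` -/
lemma den_dens (h : C11 F D B L) (hx : 0 < q.x) : Den (dens q F) (psi' q F D) where
  eg := eg_dens h hx
  pd j := (pd_psi h hx j).exp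
  eg' j := eg_psi' h hx j

lemma Im_dens (f : (K4 κ → ℝ) → ℝ) : Im (dens q F) f = Ew q F f := rfl

/-- the drift of the position at the time `s2` under `P_θ` -/
lemma dr_dens (hq : q.OkS) (e : κ) (w : K4 κ → ℝ) :
    dr (k3 q) (psi' q F D) e w = q.x * (q.s2 * dd q.x q.s2 F D e (P3 q w) +
      q.θ * (q.t1 * dd q.x q.t1 F D e (P1 q w) - q.t0 * dd q.x q.t0 F D e (P0 q w))) := by
  have a0 : √q.t0 ^ 2 = q.t0 := Real.sq_sqrt hq.h0
  have a1 : √(q.t1 - q.t0) ^ 2 = q.t1 - q.t0 := Real.sq_sqrt (sub_nonneg.2 hq.h01)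
  have a2 : √(q.s1 - q.t1) ^ 2 = q.s1 - q.t1 := Real.sq_sqrt (sub_nonneg.2 hq.h1)
  have a3 : √(q.s2 - q.s1) ^ 2 = q.s2 - q.s1 := Real.sq_sqrt (sub_nonneg.2 hq.h12)
  simp only [dr, psi', bs, bl, k3, k1, k0, H712.q3, H712.q1, H712.q0, Matrix.cons_val]
  set r0 := √q.t0
  set r1 := √(q.t1 - q.t0)
  set r2 := √(q.s1 - q.t1)
  set r3 := √(q.s2 - q.s1)
  have s3 : q.s2 = r0 ^ 2 + r1 ^ 2 + r2 ^ 2 + r3 ^ 2 := by rw [a0, a1, a2, a3]; ring
  have s1' : q.t1 = r0 ^ 2 + r1 ^ 2 := by rw [a0, a1]; ring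
  have g3 : ∀ X : ℝ, q.s2 * X = (r0 ^ 2 + r1 ^ 2 + r2 ^ 2 + r3 ^ 2) * X := fun X => by rw [← s3]
  have g1 : ∀ X : ℝ, q.t1 * X = (r0 ^ 2 + r1 ^ 2) * X := fun X => by rw [← s1']
  have g0 : ∀ X : ℝ, q.t0 * X = r0 ^ 2 * X := fun X => by rw [a0]
  rw [g3 (dd q.x q.s2 F D e (P3 q w)), g1, g0]
  ring

/-- the variance of the position at the time `s2` -/
lemma vr_k3 (hq : q.OkS) : vr (k3 q) = q.s2 := by
  have a0 : √q.t0 ^ 2 = q.t0 := Real.sq_sqrt hq.h0
  have a1 : √(q.t1 - q.t0) ^ 2 = q.t1 - q.t0 := Real.sq_sqrt (sub_nonneg.2 hq.h01)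
  have a2 : √(q.s1 - q.t1) ^ 2 = q.s1 - q.t1 := Real.sq_sqrt (sub_nonneg.2 hq.h1)
  have a3 : √(q.s2 - q.s1) ^ 2 = q.s2 - q.s1 := Real.sq_sqrt (sub_nonneg.2 hq.h12)
  simp only [vr, k3, H712.q3, Matrix.cons_val]
  rw [a0, a1, a2, a3]
  ring

end law

end Vale.Agent.P146.H191
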