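import Vale.Agent.P146.H191.F1Ibp

/-!
Plan R2, row R6: **the one-row identity (F1)**. For the column `U` of a row `b`, the row `y` of the
position, matrices `Y`, `L` which do not depend on the row, and the rest `N = U - k L y`,
`E |N|²_Y + k E <N, L V>_Y = E |U|²_Y - 2 k² σ E tr (Y L H) + k² σ E tr_b (L Y L) - k E <U, L V>_Y`
where `V` is the drift of the row. No law change, no chaos expansion: two integrations by parts.
-/

open MeasureTheory ProbabilityTheory Finset

namespace Vale.Agent.P146.H191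

open Vale.Agent.P157.Lv Vale.Agent.P146.H425 Vale.Agent.P146.H325 Vale.Agent.P146.H332
  Vale.Agent.P146.H712 Vale.Agent.P146.R1 Vale.Agent.P146.R1C Vale.Agent.P146.H706

set_option linter.unusedSectionVars false

variable {n : ℕ}

/-- The row `b` of the couplings `Q` is not seen by `f`. -/
def Fr (b : Fin n) (f : (K4 (Pair n) → ℝ) → ℝ) : Prop :=
  ∀ j : K4 (Pair n), bs j ∈ row b → PD j f (fun _ => 0)

lemma Fr.of_ind {b : Fin n} {f : (K4 (Pair n) → ℝ) → ℝ} (h : Ind (lf (row b)) f) : Fr b f := by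
  intro j hj
  refine PD.of_indep fun w t => ?_
  have h1 : Function.update w j t = sw (lf (row b)) w (Function.update w j t) := by
    funext i
    unfold sw
    by_cases hi : i ∈ lf (row b)
    · rw [if_pos hi]
    · rw [if_neg hi, Function.update_of_ne]
      rintro rfl
      exact hi (mem_lf_bs.2 hj)
  rw [h1]
  exact h w _

lemma Fr.mul {b : Fin n} {f g : (K4 (Pair n) → ℝ) → ℝ} (hf : Fr b f) (hg : Fr b g) :
    Fr b fun w => f w * g w := fun j hj =>
  ((hf j hj).mul (hg j hj)).congr fun w => by ring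

lemma Fr.sum {b : Fin n} {ι : Type} (s : Finset ι) {f : ι → (K4 (Pair n) → ℝ) → ℝ}
    (hf : ∀ i ∈ s, Fr b (f i)) : Fr b fun w => ∑ i ∈ s, f i w := fun j hj =>
  (PD.sum s fun i hi => hf i hi j hj).congr fun w => by simp

lemma Fr.const_mul {b : Fin n} {f : (K4 (Pair n) → ℝ) → ℝ} (hf : Fr b f) (c : ℝ) :
    Fr b fun w => c * f w := fun j hj => ((hf j hj).const_mul c).congr fun w => by ring

/-- Matrices seen from the coordinates. -/
abbrev MF (n : ℕ) : Type := (K4 (Pair n) → ℝ) → Fin n → Fin n → ℝ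

/-- A symmetric matrix, of exponential growth, which does not see the row `b`. -/
structure Frz (b : Fin n) (Y : MF n) : Prop where
  eg : ∀ i l, EG fun w => Y w i l
  fr : ∀ i l, Fr b fun w => Y w i l
  sy : ∀ w i l, Y w i l = Y w l i

variable (a : Fin 4 → ℝ) (k : ℝ) (b : Fin n)

/-- `(L y)_i`, `y` the row of the position. -/
noncomputable def Ly (L : MF n) (i : Fin n) (w : K4 (Pair n) → ℝ) : ℝ :=
  ∑ e ∈ row b, L w i (oth b e) * H712.lp a w e

/-- `(L V)_i`, `V` the drift. -/
noncomputable def LV (ψ' : K4 (Pair n) → (K4 (Pair n) → ℝ) → ℝ) (L : MF n) (i : Fin n)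
    (w : K4 (Pair n) → ℝ) : ℝ := ∑ e ∈ row b, L w i (oth b e) * dr a ψ' e w

/-- `<f, g>_Y` -/
noncomputable def qY (Y : MF n) (f g : Fin n → (K4 (Pair n) → ℝ) → ℝ) (w : K4 (Pair n) → ℝ) : ℝ :=
  ∑ i, ∑ l, Y w i l * (f i w * g l w)

variable {a k b} {φ : (K4 (Pair n) → ℝ) → ℝ} {ψ' : K4 (Pair n) → (K4 (Pair n) → ℝ) → ℝ}
  {Y L : MF n}

lemma eg_Ly (hL : ∀ i l, EG fun w => L w i l) (i : Fin n) : EG (Ly a b L i) :=
  EG.sum _ fun e _ => (hL _ _).mul (eg_lp a (EG.coord e))

lemma eg_LV (h : Den φ ψ') (hL : ∀ i l, EG fun w => L w i l) (i : Fin n) :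
    EG (LV a b ψ' L i) := EG.sum _ fun e _ => (hL _ _).mul (h.eg_dr a e)

lemma eg_qY (hY : ∀ i l, EG fun w => Y w i l) {f g : Fin n → (K4 (Pair n) → ℝ) → ℝ}
    (hf : ∀ i, EG (f i)) (hg : ∀ i, EG (g i)) : EG (qY Y f g) :=
  EG.sum _ fun i _ => EG.sum _ fun l _ => (hY i l).mul ((hf i).mul (hg l))

lemma qY_comm (hs : ∀ w i l, Y w i l = Y w l i) (f g : Fin n → (K4 (Pair n) → ℝ) → ℝ)
    (w : K4 (Pair n) → ℝ) : qY Y f g w = qY Y g f w := by
  unfold qY
  rw [Finset.sum_comm]
  refine Finset.sum_congr rfl fun i _ => Finset.sum_congr rfl fun l _ => ?_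
  rw [hs w l i]
  ring

/-- **the mixed term**: `E <U, L y>_Y = σ k E tr (Y L H) + E <U, L V>_Y` -/
theorem mix_ibp (h : Den φ ψ') (hY : Frz b Y) (hL : Frz b L) {U : Fin n → (Pair n → ℝ) → ℝ}
    {H : (Pair n → ℝ) → Fin n → Fin n → ℝ} (hU : ∀ i, EG (U i)) (hH : ∀ i l, EG fun z => H z i l)
    (hd : ∀ i, ∀ e ∈ row b, PD e (U i) (fun z => k * H z i (oth b e))) :
    Im φ (qY Y (fun i w => U i (H712.lp a w)) (Ly a b L)) =
      k * vr a * Im φ (fun w => ∑ i, ∑ l, Y w i l *
        ∑ e ∈ row b, L w l (oth b e) * H (H712.lp a w) i (oth b e)) +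
      Im φ (qY Y (fun i w => U i (H712.lp a w)) (LV a b ψ' L)) := by
  have eU : ∀ i, EG fun w : K4 (Pair n) → ℝ => U i (H712.lp a w) := fun i => eg_lp a (hU i)
  have eH : ∀ i l, EG fun w : K4 (Pair n) → ℝ => H (H712.lp a w) i l := fun i l =>
    eg_lp a (hH i l)
  have one : ∀ i l, ∀ e ∈ row b,
      Im φ (fun w => (Y w i l * L w l (oth b e)) * (H712.lp a w e * U i (H712.lp a w))) =
        Im φ (fun w => (Y w i l * L w l (oth b e)) * (vr a * (k * H (H712.lp a w) i (oth b e)) +
          U i (H712.lp a w) * dr a ψ' e w)) := fun i l e he =>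
    h.ibp a (c := fun w => Y w i l * L w l (oth b e)) (f := U i)
      (f' := fun z => k * H z i (oth b e)) ((hY.eg i l).mul (hL.eg _ _))
      (fun j hj => ((hY.fr i l).mul (hL.fr l (oth b e))) j (by rw [hj]; exact he)) (hU i)
      ((hH i (oth b e)).const_mul k) (hd i e he)
  have e1 : ∀ i l e, EG fun w => (Y w i l * L w l (oth b e)) *
      (H712.lp a w e * U i (H712.lp a w)) := fun i l e =>
    ((hY.eg i l).mul (hL.eg _ _)).mul ((eg_lp a (EG.coord e)).mul (eU i))
  have e2 : ∀ i l e, EG fun w => (Y w i l * L w l (oth b e)) *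
      (vr a * (k * H (H712.lp a w) i (oth b e)) + U i (H712.lp a w) * dr a ψ' e w) :=
    fun i l e => ((hY.eg i l).mul (hL.eg _ _)).mul
      ((((eH i _).const_mul k).const_mul _).add ((eU i).mul (h.eg_dr a e)))
  have e3 : EG fun w => ∑ i, ∑ l, Y w i l *
      ∑ e ∈ row b, L w l (oth b e) * H (H712.lp a w) i (oth b e) :=
    EG.sum _ fun i _ => EG.sum _ fun l _ => (hY.eg i l).mul
      (EG.sum _ fun e _ => (hL.eg _ _).mul (eH _ _))
  have e4 : EG (qY Y (fun i w => U i (H712.lp a w)) (LV a b ψ' L)) :=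
    eg_qY hY.eg eU fun i => eg_LV h hL.eg i
  calc Im φ (qY Y (fun i w => U i (H712.lp a w)) (Ly a b L))
      = Im φ (fun w => ∑ i, ∑ l, ∑ e ∈ row b, (Y w i l * L w l (oth b e)) *
          (H712.lp a w e * U i (H712.lp a w))) := by
        refine Im_congr fun w => ?_
        unfold qY Ly
        refine Finset.sum_congr rfl fun i _ => Finset.sum_congr rfl fun l _ => ?_
        rw [Finset.mul_sum, Finset.mul_sum]
        exact Finset.sum_congr rfl fun e _ => by ring
    _ = ∑ i, ∑ l, ∑ e ∈ row b, Im φ (fun w => (Y w i l * L w l (oth b e)) *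
          (H712.lp a w e * U i (H712.lp a w))) := by
        rw [Im_sum h.eg _ fun i _ => EG.sum _ fun l _ => EG.sum _ fun e _ => e1 i l e]
        refine Finset.sum_congr rfl fun i _ => ?_
        rw [Im_sum h.eg _ fun l _ => EG.sum _ fun e _ => e1 i l e]
        refine Finset.sum_congr rfl fun l _ => ?_
        exact Im_sum h.eg _ fun e _ => e1 i l e
    _ = ∑ i, ∑ l, ∑ e ∈ row b, Im φ (fun w => (Y w i l * L w l (oth b e)) *
          (vr a * (k * H (H712.lp a w) i (oth b e)) + U i (H712.lp a w) * dr a ψ' e w)) :=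
        Finset.sum_congr rfl fun i _ => Finset.sum_congr rfl fun l _ =>
          Finset.sum_congr rfl fun e he => one i l e he
    _ = Im φ (fun w => ∑ i, ∑ l, ∑ e ∈ row b, (Y w i l * L w l (oth b e)) *
          (vr a * (k * H (H712.lp a w) i (oth b e)) + U i (H712.lp a w) * dr a ψ' e w)) := by
        rw [Im_sum h.eg _ fun i _ => EG.sum _ fun l _ => EG.sum _ fun e _ => e2 i l e]
        refine Finset.sum_congr rfl fun i _ => ?_
        rw [Im_sum h.eg _ fun l _ => EG.sum _ fun e _ => e2 i l e]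
        refine Finset.sum_congr rfl fun l _ => ?_
        exact (Im_sum h.eg _ fun e _ => e2 i l e).symm
    _ = Im φ (fun w => k * vr a * (∑ i, ∑ l, Y w i l *
          ∑ e ∈ row b, L w l (oth b e) * H (H712.lp a w) i (oth b e)) +
          qY Y (fun i w => U i (H712.lp a w)) (LV a b ψ' L) w) := by
        refine Im_congr fun w => ?_
        unfold qY LV
        rw [Finset.mul_sum, ← Finset.sum_add_distrib]
        refine Finset.sum_congr rfl fun i _ => ?_
        rw [Finset.mul_sum, ← Finset.sum_add_distrib]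
        refine Finset.sum_congr rfl fun l _ => ?_
        rw [Finset.mul_sum, Finset.mul_sum, Finset.mul_sum, Finset.mul_sum,
          ← Finset.sum_add_distrib]
        exact Finset.sum_congr rfl fun e _ => by ring
    _ = _ := by rw [Im_add h.eg (e3.const_mul _) e4, Im_const_mul]

/-- **the quadratic term**: `E <L y, L y>_Y = σ E tr_b (L Y L) + E <L y, L V>_Y` -/
theorem quad_ibp (h : Den φ ψ') (hY : Frz b Y) (hL : Frz b L) :
    Im φ (qY Y (Ly a b L) (Ly a b L)) =
      vr a * Im φ (fun w => ∑ i, ∑ l, Y w i l *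
        ∑ e ∈ row b, L w l (oth b e) * L w i (oth b e)) +
      Im φ (qY Y (Ly a b L) (LV a b ψ' L)) := by
  have ec : ∀ e : Pair n, EG fun w : K4 (Pair n) → ℝ => H712.lp a w e := fun e =>
    eg_lp a (EG.coord e)
  have one : ∀ i l, ∀ e ∈ row b, ∀ e' ∈ row b,
      Im φ (fun w => (Y w i l * L w l (oth b e) * L w i (oth b e')) *
        (H712.lp a w e * H712.lp a w e')) =
      Im φ (fun w => (Y w i l * L w l (oth b e) * L w i (oth b e')) *
        (vr a * (if e' = e then 1 else 0) + H712.lp a w e' * dr a ψ' e w)) :=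
    fun i l e he e' _ =>
    h.ibp a (c := fun w => Y w i l * L w l (oth b e) * L w i (oth b e'))
      (f := fun z => z e') (f' := fun _ => if e' = e then 1 else 0)
      (((hY.eg i l).mul (hL.eg _ _)).mul (hL.eg _ _))
      (fun j hj => (((hY.fr i l).mul (hL.fr l (oth b e))).mul (hL.fr i (oth b e'))) j
        (by rw [hj]; exact he)) (EG.coord e') (EG.const _) (PD.coord e')
  have e1 : ∀ i l e e', EG fun w => (Y w i l * L w l (oth b e) * L w i (oth b e')) *
      (H712.lp a w e * H712.lp a w e') := fun i l e e' =>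
    (((hY.eg i l).mul (hL.eg _ _)).mul (hL.eg _ _)).mul ((ec e).mul (ec e'))
  have e2 : ∀ i l e e', EG fun w => (Y w i l * L w l (oth b e) * L w i (oth b e')) *
      (vr a * (if e' = e then 1 else 0) + H712.lp a w e' * dr a ψ' e w) := fun i l e e' =>
    (((hY.eg i l).mul (hL.eg _ _)).mul (hL.eg _ _)).mul
      ((EG.const _).add ((ec e').mul (h.eg_dr a e)))
  have e3 : EG fun w => ∑ i, ∑ l, Y w i l *
      ∑ e ∈ row b, L w l (oth b e) * L w i (oth b e) :=
    EG.sum _ fun i _ => EG.sum _ fun l _ => (hY.eg i l).mul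
      (EG.sum _ fun e _ => (hL.eg _ _).mul (hL.eg _ _))
  have e4 : EG (qY Y (Ly a b L) (LV a b ψ' L)) :=
    eg_qY hY.eg (fun i => eg_Ly hL.eg i) fun i => eg_LV h hL.eg i
  calc Im φ (qY Y (Ly a b L) (Ly a b L))
      = Im φ (fun w => ∑ i, ∑ l, ∑ e ∈ row b, ∑ e' ∈ row b,
          (Y w i l * L w l (oth b e) * L w i (oth b e')) *
            (H712.lp a w e * H712.lp a w e')) := by
        refine Im_congr fun w => ?_
        unfold qY Ly
        refine Finset.sum_congr rfl fun i _ => Finset.sum_congr rfl fun l _ => ?_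
        rw [mul_comm (∑ e ∈ row b, L w i (oth b e) * H712.lp a w e), Finset.sum_mul_sum,
          Finset.mul_sum]
        refine Finset.sum_congr rfl fun e _ => ?_
        rw [Finset.mul_sum]
        exact Finset.sum_congr rfl fun e' _ => by ring
    _ = ∑ i, ∑ l, ∑ e ∈ row b, ∑ e' ∈ row b,
          Im φ (fun w => (Y w i l * L w l (oth b e) * L w i (oth b e')) *
            (H712.lp a w e * H712.lp a w e')) := by
        rw [Im_sum h.eg _ fun i _ => EG.sum _ fun l _ => EG.sum _ fun e _ =>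
          EG.sum _ fun e' _ => e1 i l e e']
        refine Finset.sum_congr rfl fun i _ => ?_
        rw [Im_sum h.eg _ fun l _ => EG.sum _ fun e _ => EG.sum _ fun e' _ => e1 i l e e']
        refine Finset.sum_congr rfl fun l _ => ?_
        rw [Im_sum h.eg _ fun e _ => EG.sum _ fun e' _ => e1 i l e e']
        refine Finset.sum_congr rfl fun e _ => ?_
        exact Im_sum h.eg _ fun e' _ => e1 i l e e'
    _ = ∑ i, ∑ l, ∑ e ∈ row b, ∑ e' ∈ row b,
          Im φ (fun w => (Y w i l * L w l (oth b e) * L w i (oth b e')) *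
            (vr a * (if e' = e then 1 else 0) + H712.lp a w e' * dr a ψ' e w)) :=
        Finset.sum_congr rfl fun i _ => Finset.sum_congr rfl fun l _ =>
          Finset.sum_congr rfl fun e he => Finset.sum_congr rfl fun e' he' =>
            one i l e he e' he'
    _ = Im φ (fun w => ∑ i, ∑ l, ∑ e ∈ row b, ∑ e' ∈ row b,
          (Y w i l * L w l (oth b e) * L w i (oth b e')) *
            (vr a * (if e' = e then 1 else 0) + H712.lp a w e' * dr a ψ' e w)) := by
        rw [Im_sum h.eg _ fun i _ => EG.sum _ fun l _ => EG.sum _ fun e _ =>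
          EG.sum _ fun e' _ => e2 i l e e']
        refine Finset.sum_congr rfl fun i _ => ?_
        rw [Im_sum h.eg _ fun l _ => EG.sum _ fun e _ => EG.sum _ fun e' _ => e2 i l e e']
        refine Finset.sum_congr rfl fun l _ => ?_
        rw [Im_sum h.eg _ fun e _ => EG.sum _ fun e' _ => e2 i l e e']
        refine Finset.sum_congr rfl fun e _ => ?_
        exact (Im_sum h.eg _ fun e' _ => e2 i l e e').symm
    _ = Im φ (fun w => vr a * (∑ i, ∑ l, Y w i l *
          ∑ e ∈ row b, L w l (oth b e) * L w i (oth b e)) +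
          qY Y (Ly a b L) (LV a b ψ' L) w) := by
        refine Im_congr fun w => ?_
        unfold qY LV Ly
        rw [Finset.mul_sum, ← Finset.sum_add_distrib]
        refine Finset.sum_congr rfl fun i _ => ?_
        rw [Finset.mul_sum, ← Finset.sum_add_distrib]
        refine Finset.sum_congr rfl fun l _ => ?_
        rw [mul_comm (∑ e ∈ row b, L w i (oth b e) * H712.lp a w e), Finset.sum_mul_sum,
          Finset.mul_sum, Finset.mul_sum, Finset.mul_sum, ← Finset.sum_add_distrib]
        refine Finset.sum_congr rfl fun e he => ?_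
        have e5 : ∑ e' ∈ row b, (Y w i l * L w l (oth b e) * L w i (oth b e')) *
            (vr a * (if e' = e then 1 else 0)) =
            vr a * (Y w i l * (L w l (oth b e) * L w i (oth b e))) := by
          rw [Finset.sum_eq_single e]
          · simp only [if_true]
            ring
          · intro e' _ hne
            rw [if_neg hne]
            ring
          · intro hn
            exact absurd he hn
        rw [← e5, Finset.mul_sum, ← Finset.sum_add_distrib]
        exact Finset.sum_congr rfl fun e' _ => by ring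
    _ = _ := by rw [Im_add h.eg (e3.const_mul _) e4, Im_const_mul]

/-- The rest `N = U - k L y`. -/
noncomputable def Nr (a : Fin 4 → ℝ) (k : ℝ) (b : Fin n) (L : MF n)
    (U : Fin n → (Pair n → ℝ) → ℝ) (i : Fin n) (w : K4 (Pair n) → ℝ) : ℝ :=
  U i (H712.lp a w) - k * Ly a b L i w

/-- **(F1), one row.** -/
theorem f1_row (h : Den φ ψ') (hY : Frz b Y) (hL : Frz b L) {U : Fin n → (Pair n → ℝ) → ℝ}
    {H : (Pair n → ℝ) → Fin n → Fin n → ℝ} (hU : ∀ i, EG (U i)) (hH : ∀ i l, EG fun z => H z i l)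
    (hd : ∀ i, ∀ e ∈ row b, PD e (U i) (fun z => k * H z i (oth b e))) :
    Im φ (qY Y (Nr a k b L U) (Nr a k b L U)) + k * Im φ (qY Y (Nr a k b L U) (LV a b ψ' L)) =
      Im φ (qY Y (fun i w => U i (H712.lp a w)) fun i w => U i (H712.lp a w)) -
      2 * (k ^ 2 * vr a) * Im φ (fun w => ∑ i, ∑ l, Y w i l *
        ∑ e ∈ row b, L w l (oth b e) * H (H712.lp a w) i (oth b e)) +
      k ^ 2 * vr a * Im φ (fun w => ∑ i, ∑ l, Y w i l *
        ∑ e ∈ row b, L w l (oth b e) * L w i (oth b e)) -
      k * Im φ (qY Y (fun i w => U i (H712.lp a w)) (LV a b ψ' L)) := by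
  have hm := mix_ibp (a := a) h hY hL hU hH hd
  have hq := quad_ibp (a := a) h hY hL
  have eU : ∀ i, EG fun w : K4 (Pair n) → ℝ => U i (H712.lp a w) := fun i => eg_lp a (hU i)
  have eL : ∀ i, EG (Ly a b L i) := fun i => eg_Ly hL.eg i
  have eV : ∀ i, EG (LV a b ψ' L i) := fun i => eg_LV h hL.eg i
  have g1 := eg_qY hY.eg eU eU
  have g2 := eg_qY hY.eg eU eL
  have g3 := eg_qY hY.eg eL eL
  have g4 := eg_qY hY.eg eU eV
  have g5 := eg_qY hY.eg eL eV
  have h1 : Im φ (qY Y (Nr a k b L U) (Nr a k b L U)) =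
      Im φ (qY Y (fun i w => U i (H712.lp a w)) fun i w => U i (H712.lp a w)) -
      2 * k * Im φ (qY Y (fun i w => U i (H712.lp a w)) (Ly a b L)) +
      k ^ 2 * Im φ (qY Y (Ly a b L) (Ly a b L)) := by
    rw [← Im_const_mul, ← Im_const_mul, ← Im_sub h.eg g1 (g2.const_mul _),
      ← Im_add h.eg (g1.sub (g2.const_mul _)) (g3.const_mul _)]
    refine Im_congr fun w => ?_
    have e1 : qY Y (Nr a k b L U) (Nr a k b L U) w =
        qY Y (fun i w => U i (H712.lp a w)) (fun i w => U i (H712.lp a w)) w -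
        k * qY Y (fun i w => U i (H712.lp a w)) (Ly a b L) w -
        k * qY Y (Ly a b L) (fun i w => U i (H712.lp a w)) w +
        k ^ 2 * qY Y (Ly a b L) (Ly a b L) w := by
      unfold qY Nr
      simp only [Finset.mul_sum, ← Finset.sum_sub_distrib, ← Finset.sum_add_distrib]
      exact Finset.sum_congr rfl fun i _ => Finset.sum_congr rfl fun l _ => by ring
    rw [e1, qY_comm hY.sy (Ly a b L) (fun i w => U i (H712.lp a w)) w]
    ring
  have h2 : Im φ (qY Y (Nr a k b L U) (LV a b ψ' L)) =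
      Im φ (qY Y (fun i w => U i (H712.lp a w)) (LV a b ψ' L)) -
      k * Im φ (qY Y (Ly a b L) (LV a b ψ' L)) := by
    rw [← Im_const_mul, ← Im_sub h.eg g4 (g5.const_mul _)]
    refine Im_congr fun w => ?_
    unfold qY Nr
    simp only [Finset.mul_sum, ← Finset.sum_sub_distrib]
    exact Finset.sum_congr rfl fun i _ => Finset.sum_congr rfl fun l _ => by ring
  rw [h1, h2, hm, hq]
  ring

end Vale.Agent.P146.H191
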