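import Vale.Agent.P146.H191.F1
import Vale.Agent.P146.H645.CSys

/-!
Plan R2, row R6: the one-row identity (F1) for a position system `S : CS n k x`, and the drift of a
row under `P_θ`.
-/

open MeasureTheory ProbabilityTheory Finset

namespace Vale.Agent.P146.H191

open Vale.Agent.P157.Lv Vale.Agent.P146.H425 Vale.Agent.P146.H325 Vale.Agent.P146.H332
  Vale.Agent.P146.H712 Vale.Agent.P146.R1 Vale.Agent.P146.R1C Vale.Agent.P146.H706
  Vale.Agent.P146.R1S

set_option linter.unusedSectionVars false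

variable {n : ℕ} {k x : ℝ} (S : CS n k x) (s : ℝ)

/-- The column `b` without the diagonal element. -/
noncomputable def Uz (b i : Fin n) (z : Pair n → ℝ) : ℝ := if i = b then 0 else S.A s z i b

lemma eg_Uz (b i : Fin n) : EG (Uz S s b i) := by
  unfold Uz
  by_cases h : i = b
  · simp only [h, if_true]
    exact EG.const 0
  · simp only [h, if_false]
    exact S.eg_A s i b

/-- the gradient of the column in its own row -/
lemma pd_Uz {s : ℝ} (hs : 0 < s) (b i : Fin n) {e : Pair n} (he : e ∈ row b) :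
    PD e (Uz S s b i) (fun z => k * S.H s b z i (oth b e)) := by
  unfold Uz
  by_cases h : i = b
  · subst h
    simp only [if_true]
    refine (PD.const 0).congr fun z => ?_
    rw [S.H_comm, S.H_row hs, mul_zero]
  · simp only [h, if_false]
    exact (S.pd_A s e i b).congr fun z => S.DA_row hs he z i

lemma Uz_self (b : Fin n) (z : Pair n → ℝ) : Uz S s b b z = 0 := by
  unfold Uz
  rw [if_pos rfl]

lemma Uz_oth {b : Fin n} {e : Pair n} (he : e ∈ row b) (z : Pair n → ℝ) :
    S.A s z e.1.1 e.1.2 = Uz S s b (oth b e) z := by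
  unfold Uz
  rw [if_neg (oth_ne he)]
  rw [mem_row] at he
  unfold oth
  split_ifs with h1
  · rw [h1]; exact S.A_comm s z _ _
  · rw [he.resolve_left h1]

variable {S s} {φ : (K4 (Pair n) → ℝ) → ℝ} {ψ' : K4 (Pair n) → (K4 (Pair n) → ℝ) → ℝ}
  {a : Fin 4 → ℝ} {b : Fin n} {Y L : MF n}

/-- **(F1), one row, for a position system.** `N = U - k L y`. -/
theorem f1_S (hs : 0 < s) (h : Den φ ψ') (hY : Frz b Y) (hL : Frz b L)
    (hLb : ∀ w i, L w i b = 0) :
    Im φ (qY Y (Nr a k b L (Uz S s b)) (Nr a k b L (Uz S s b))) +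
      k * Im φ (qY Y (Nr a k b L (Uz S s b)) (LV a b ψ' L)) =
      Im φ (qY Y (fun i w => Uz S s b i (H712.lp a w)) fun i w => Uz S s b i (H712.lp a w)) -
      2 * (k ^ 2 * vr a) * Im φ (fun w => ∑ i, ∑ l, Y w i l *
        ∑ j, L w l j * S.H s b (H712.lp a w) i j) +
      k ^ 2 * vr a * Im φ (fun w => ∑ i, ∑ l, Y w i l * ∑ j, L w l j * L w i j) -
      k * Im φ (qY Y (fun i w => Uz S s b i (H712.lp a w)) (LV a b ψ' L)) := by
  have key := f1_row (a := a) (k := k) (H := fun z i l => S.H s b z i l) h hY hL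
    (fun i => eg_Uz S s b i) (fun i l => S.eg_H hs b i l) (fun i e he => pd_Uz S hs b i he)
  have e1 : ∀ w l i, ∑ e ∈ row b, L w l (oth b e) * S.H s b (H712.lp a w) i (oth b e) =
      ∑ j, L w l j * S.H s b (H712.lp a w) i j := fun w l i =>
    sum_row_all b (G := fun j => L w l j * S.H s b (H712.lp a w) i j)
      (by simp only [hLb, zero_mul])
  have e2 : ∀ w l i, ∑ e ∈ row b, L w l (oth b e) * L w i (oth b e) =
      ∑ j, L w l j * L w i j := fun w l i =>
    sum_row_all b (G := fun j => L w l j * L w i j) (by simp only [hLb, zero_mul])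
  simp only [e1, e2] at key
  exact key

/-! ### the drift under `P_θ` -/

variable {q : Par} {S' : CS n k q.x}

/-- The drift of the row `b` under `P_θ`, divided by `x k`. -/
noncomputable def Vz (S' : CS n k q.x) (b i : Fin n) (w : K4 (Pair n) → ℝ) : ℝ :=
  q.s2 * Uz S' q.s2 b i (P3 q w) + q.θ * (q.t1 * Uz S' q.t1 b i (P1 q w) -
    q.t0 * Uz S' q.t0 b i (P0 q w))

lemma eg_Vz (b i : Fin n) : EG (Vz S' b i) :=
  ((eg_P3 (eg_Uz S' _ b i)).const_mul _).add
    ((((eg_P1 (eg_Uz S' _ b i)).const_mul _).sub ((eg_P0 (eg_Uz S' _ b i)).const_mul _)).const_mul _)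

lemma LV_eq (hq : q.OkS) (hLb : ∀ w i, L w i b = 0) (i : Fin n) (w : K4 (Pair n) → ℝ) :
    LV (k3 q) b (psi' q S'.F S'.D) L i w = q.x * k * ∑ j, L w i j * Vz S' b j w := by
  unfold LV
  have e1 : ∀ e ∈ row b, L w i (oth b e) * dr (k3 q) (psi' q S'.F S'.D) e w =
      (fun j => q.x * k * (L w i j * Vz S' b j w)) (oth b e) := by
    intro e he
    rw [dr_dens hq, S'.dd_eq, S'.dd_eq, S'.dd_eq, Uz_oth S' _ he, Uz_oth S' _ he, Uz_oth S' _ he]
    simp only [Vz]
    ring
  rw [Finset.sum_congr rfl e1, sum_row_all b (G := fun j => q.x * k * (L w i j * Vz S' b j w))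
    (by simp only [hLb, zero_mul, mul_zero]), Finset.mul_sum]

end Vale.Agent.P146.H191
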