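import Vale.Agent.P146.H191.Fro

/-!
Plan R2, row R6: the sum over the rows of the identity (F1); the frozen matrices are replaced by
the matrices themselves, with an explicit error (Frobenius norms).
-/

open MeasureTheory ProbabilityTheory Finset

namespace Vale.Agent.P146.H191

open Vale.Agent.P157.Lv Vale.Agent.P146.H425 Vale.Agent.P146.H325 Vale.Agent.P146.H332
  Vale.Agent.P146.H712 Vale.Agent.P146.R1 Vale.Agent.P146.R1C Vale.Agent.P146.H706
  Vale.Agent.P146.R1S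

set_option linter.unusedSectionVars false

variable {n : ℕ}

/-! ### the row of a function of the couplings -/

/-- The row `b` of a function of the couplings. -/
noncomputable def rw' (g : Pair n → ℝ) (b j : Fin n) : ℝ :=
  if h : j = b then 0 else g (cp b j h)

lemma rw'_self (g : Pair n → ℝ) (b : Fin n) : rw' g b b = 0 := dif_pos rfl

lemma rw'_oth (g : Pair n → ℝ) {b : Fin n} {e : Pair n} (he : e ∈ row b) :
    rw' g b (oth b e) = g e := by
  unfold rw'
  rw [dif_neg (oth_ne he), cp_oth he]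

lemma sum_rw' (g : Pair n → ℝ) (b : Fin n) (f : Fin n → ℝ) :
    ∑ e ∈ row b, f (oth b e) * g e = ∑ j, f j * rw' g b j := by
  rw [← sum_row_all b (G := fun j => f j * rw' g b j) (by simp only [rw'_self, mul_zero])]
  exact Finset.sum_congr rfl fun e he => by rw [rw'_oth g he]

lemma eg_rw' {κ : Type} [Fintype κ] {g : Pair n → (κ → ℝ) → ℝ} (hg : ∀ e, EG (g e))
    (b j : Fin n) : EG fun w => rw' (fun e => g e w) b j := by
  unfold rw'
  by_cases h : j = b
  · simp only [h, dif_pos]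
    exact EG.const 0
  · simp only [h, dif_neg, not_false_eq_true]
    exact hg _

variable {k x : ℝ} {S : CS n k x} {s : ℝ} {φ : (K4 (Pair n) → ℝ) → ℝ}
  {ψ' : K4 (Pair n) → (K4 (Pair n) → ℝ) → ℝ} {a : Fin 4 → ℝ}

/-- The column without the diagonal, as a vector. -/
noncomputable def Uv (S : CS n k x) (s : ℝ) (a : Fin 4 → ℝ) (b : Fin n) (w : K4 (Pair n) → ℝ)
    (i : Fin n) : ℝ := Uz S s b i (H712.lp a w)

/-- The drift of the row `b`. -/
noncomputable def dv (a : Fin 4 → ℝ) (ψ' : K4 (Pair n) → (K4 (Pair n) → ℝ) → ℝ) (b : Fin n)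
    (w : K4 (Pair n) → ℝ) (j : Fin n) : ℝ := rw' (fun e => dr a ψ' e w) b j

/-- The main term of the row `b`. -/
noncomputable def mrow (S : CS n k x) (s : ℝ) (a : Fin 4 → ℝ)
    (ψ' : K4 (Pair n) → (K4 (Pair n) → ℝ) → ℝ) (b : Fin n) (Y L : MF n)
    (w : K4 (Pair n) → ℝ) : ℝ :=
  (∑ i, ∑ l, Y w i l * (Uv S s a b w i * Uv S s a b w l)) -
    2 * (k ^ 2 * vr a) * (∑ i, ∑ l, Y w i l * ∑ j, L w l j * S.H s b (H712.lp a w) i j) +
    k ^ 2 * vr a * (∑ i, ∑ l, Y w i l * ∑ j, L w l j * L w i j) -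
    k * ∑ i, ∑ l, Y w i l * (Uv S s a b w i * ∑ j, L w l j * dv a ψ' b w j)

/-- The left side of the row `b`: `<N, N>_Y + k <N, L V>_Y`. -/
noncomputable def nrow (S : CS n k x) (s : ℝ) (a : Fin 4 → ℝ)
    (ψ' : K4 (Pair n) → (K4 (Pair n) → ℝ) → ℝ) (b : Fin n) (Y L : MF n)
    (w : K4 (Pair n) → ℝ) : ℝ :=
  qY Y (Nr a k b L (Uz S s b)) (Nr a k b L (Uz S s b)) w +
    k * qY Y (Nr a k b L (Uz S s b)) (LV a b ψ' L) w

lemma eg_Uv (b i : Fin n) : EG fun w => Uv S s a b w i := eg_lp a (eg_Uz S s b i)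

lemma eg_dv (h : Den φ ψ') (b j : Fin n) : EG fun w => dv a ψ' b w j :=
  eg_rw' (fun e => h.eg_dr a e) b j

lemma eg_mrow (hs : 0 < s) (h : Den φ ψ') {b : Fin n} {Y L : MF n}
    (hY : ∀ i l, EG fun w => Y w i l) (hL : ∀ i l, EG fun w => L w i l) :
    EG (mrow S s a ψ' b Y L) := by
  have eH : ∀ i l, EG fun w : K4 (Pair n) → ℝ => S.H s b (H712.lp a w) i l := fun i l =>
    eg_lp a (S.eg_H hs b i l)
  refine (((EG.sum _ fun i _ => EG.sum _ fun l _ => (hY i l).mul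
    ((eg_Uv b i).mul (eg_Uv b l))).sub ((EG.sum _ fun i _ => EG.sum _ fun l _ =>
      (hY i l).mul (EG.sum _ fun j _ => (hL l j).mul (eH i j))).const_mul _)).add
      ((EG.sum _ fun i _ => EG.sum _ fun l _ =>
      (hY i l).mul (EG.sum _ fun j _ => (hL l j).mul (hL i j))).const_mul _)).sub
      ((EG.sum _ fun i _ => EG.sum _ fun l _ => (hY i l).mul
      ((eg_Uv b i).mul (EG.sum _ fun j _ => (hL l j).mul (eg_dv h b j)))).const_mul _)

lemma eg_nrow (h : Den φ ψ') {b : Fin n} {Y L : MF n}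
    (hY : ∀ i l, EG fun w => Y w i l) (hL : ∀ i l, EG fun w => L w i l) :
    EG (nrow S s a ψ' b Y L) := by
  have eN : ∀ i, EG (Nr a k b L (Uz S s b) i) := fun i =>
    (eg_lp a (eg_Uz S s b i)).sub ((eg_Ly hL i).const_mul _)
  exact (eg_qY hY eN eN).add ((eg_qY hY eN fun i => eg_LV h hL i).const_mul _)

/-- (F1) in this notation -/
theorem f1_mrow (hs : 0 < s) (h : Den φ ψ') {b : Fin n} {Y L : MF n} (hY : Frz b Y)
    (hL : Frz b L) (hLb : ∀ w i, L w i b = 0) :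
    Im φ (nrow S s a ψ' b Y L) = Im φ (mrow S s a ψ' b Y L) := by
  have key := f1_S (S := S) (a := a) hs h hY hL hLb
  have eN : ∀ i, EG (Nr a k b L (Uz S s b) i) := fun i =>
    (eg_lp a (eg_Uz S s b i)).sub ((eg_Ly hL.eg i).const_mul _)
  have eV : ∀ i, EG (LV a b ψ' L i) := fun i => eg_LV h hL.eg i
  have eU : ∀ i, EG fun w : K4 (Pair n) → ℝ => Uz S s b i (H712.lp a w) := fun i =>
    eg_lp a (eg_Uz S s b i)
  have eH : ∀ i l, EG fun w : K4 (Pair n) → ℝ => S.H s b (H712.lp a w) i l := fun i l =>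
    eg_lp a (S.eg_H hs b i l)
  have g1 := eg_qY hY.eg eU eU
  have g2 : EG fun w => ∑ i, ∑ l, Y w i l * ∑ j, L w l j * S.H s b (H712.lp a w) i j :=
    EG.sum _ fun i _ => EG.sum _ fun l _ =>
      (hY.eg i l).mul (EG.sum _ fun j _ => (hL.eg l j).mul (eH i j))
  have g3 : EG fun w => ∑ i, ∑ l, Y w i l * ∑ j, L w l j * L w i j :=
    EG.sum _ fun i _ => EG.sum _ fun l _ =>
      (hY.eg i l).mul (EG.sum _ fun j _ => (hL.eg l j).mul (hL.eg i j))
  have g4 := eg_qY hY.eg eU eV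
  unfold nrow
  rw [Im_add h.eg (eg_qY hY.eg eN eN) ((eg_qY hY.eg eN eV).const_mul _), Im_const_mul, key,
    ← Im_const_mul, ← Im_const_mul, ← Im_const_mul, ← Im_sub h.eg g1 (g2.const_mul _),
    ← Im_add h.eg (g1.sub (g2.const_mul _)) (g3.const_mul _),
    ← Im_sub h.eg ((g1.sub (g2.const_mul _)).add (g3.const_mul _)) (g4.const_mul _)]
  refine Im_congr fun w => ?_
  have e4 : qY Y (fun i w => Uz S s b i (H712.lp a w)) (LV a b ψ' L) w =
      ∑ i, ∑ l, Y w i l * (Uv S s a b w i * ∑ j, L w l j * dv a ψ' b w j) := by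
    unfold qY
    refine Finset.sum_congr rfl fun i _ => Finset.sum_congr rfl fun l _ => ?_
    unfold LV Uv dv
    rw [sum_rw' (fun e => dr a ψ' e w) b fun j => L w l j]
  rw [e4]
  rfl

/-! ### unfreezing -/

/-- the error of the row `b` -/
noncomputable def erow (S : CS n k x) (s : ℝ) (a : Fin 4 → ℝ)
    (ψ' : K4 (Pair n) → (K4 (Pair n) → ℝ) → ℝ) (b : Fin n) (Y L Y' L' : MF n)
    (w : K4 (Pair n) → ℝ) : ℝ :=
  fro (fun i l => Y' w i l - Y w i l) * ven (Uv S s a b w) ^ 2 +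
    (fro (Y' w) * fro (fun i l => L' w i l - L w i l) +
      fro (fun i l => Y' w i l - Y w i l) * fro (L w)) *
      (2 * (k ^ 2 * vr a) * fro (S.H s b (H712.lp a w)) + k ^ 2 * vr a * fro (L' w) +
        |k| * (ven (Uv S s a b w) * ven (dv a ψ' b w))) +
    k ^ 2 * vr a * (fro (Y w) * fro (L w) * fro (fun i l => L' w i l - L w i l))

lemma vr_nonneg (a : Fin 4 → ℝ) : 0 ≤ vr a := by unfold vr; positivity

/-- frozen against not frozen, one row, one point -/
lemma mrow_sub {b : Fin n} {Y L Y' L' : MF n} {w : K4 (Pair n) → ℝ} :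
    |mrow S s a ψ' b Y' L' w - mrow S s a ψ' b Y L w| ≤ erow S s a ψ' b Y L Y' L' w := by
  set U := Uv S s a b w with hU
  set V := dv a ψ' b w with hV
  set H := S.H s b (H712.lp a w) with hH
  set P' : Fin n → Fin n → ℝ := fun i j => ∑ l, Y' w i l * L' w l j with hP'
  set P : Fin n → Fin n → ℝ := fun i j => ∑ l, Y w i l * L w l j with hP
  have hD := fro_mul_sub (Y' w) (Y w) (L' w) (L w)
  set D := fro (fun i j => P' i j - P i j) with hDd
  change D ≤ fro (Y' w) * fro (fun i l => L' w i l - L w i l) +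
    fro (fun i l => Y' w i l - Y w i l) * fro (L w) at hD
  have m2 : ∀ (Y L : MF n) (X : Fin n → Fin n → ℝ), ∑ i, ∑ l, Y w i l * ∑ j, L w l j * X i j =
      ∑ i, ∑ j, (∑ l, Y w i l * L w l j) * X i j := by
    intro Y L X
    refine Finset.sum_congr rfl fun i _ => ?_
    simp only [Finset.mul_sum, Finset.sum_mul]
    rw [Finset.sum_comm]
    exact Finset.sum_congr rfl fun j _ => Finset.sum_congr rfl fun l _ => by ring
  have t1 : |(∑ i, ∑ l, Y' w i l * (U i * U l)) - ∑ i, ∑ l, Y w i l * (U i * U l)| ≤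
      fro (fun i l => Y' w i l - Y w i l) * ven U ^ 2 := by
    have e : (∑ i, ∑ l, Y' w i l * (U i * U l)) - ∑ i, ∑ l, Y w i l * (U i * U l) =
        ∑ i, ∑ l, (Y' w i l - Y w i l) * (U i * U l) := by
      rw [← Finset.sum_sub_distrib]
      refine Finset.sum_congr rfl fun i _ => ?_
      rw [← Finset.sum_sub_distrib]
      exact Finset.sum_congr rfl fun l _ => by ring
    rw [e]
    refine (cs_fro _ _).trans ?_
    rw [fro_outer, pow_two]
  have t2 : |(∑ i, ∑ l, Y' w i l * ∑ j, L' w l j * H i j) -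
      ∑ i, ∑ l, Y w i l * ∑ j, L w l j * H i j| ≤ D * fro H := by
    rw [m2 Y' L' H, m2 Y L H]
    have e : (∑ i, ∑ j, (∑ l, Y' w i l * L' w l j) * H i j) -
        ∑ i, ∑ j, (∑ l, Y w i l * L w l j) * H i j = ∑ i, ∑ j, (P' i j - P i j) * H i j := by
      rw [← Finset.sum_sub_distrib]
      refine Finset.sum_congr rfl fun i _ => ?_
      rw [← Finset.sum_sub_distrib]
      exact Finset.sum_congr rfl fun j _ => by simp only [hP, hP']; ring
    rw [e]
    exact cs_fro _ _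
  have t3 : |(∑ i, ∑ l, Y' w i l * ∑ j, L' w l j * L' w i j) -
      ∑ i, ∑ l, Y w i l * ∑ j, L w l j * L w i j| ≤
      D * fro (L' w) + fro (Y w) * fro (L w) * fro (fun i l => L' w i l - L w i l) := by
    rw [m2 Y' L' (L' w), m2 Y L (L w)]
    have e : (∑ i, ∑ j, (∑ l, Y' w i l * L' w l j) * L' w i j) -
        ∑ i, ∑ j, (∑ l, Y w i l * L w l j) * L w i j =
        (∑ i, ∑ j, (P' i j - P i j) * L' w i j) + ∑ i, ∑ j, P i j * (L' w i j - L w i j) := by
      rw [← Finset.sum_sub_distrib, ← Finset.sum_add_distrib]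
      refine Finset.sum_congr rfl fun i _ => ?_
      rw [← Finset.sum_sub_distrib, ← Finset.sum_add_distrib]
      exact Finset.sum_congr rfl fun j _ => by simp only [hP, hP']; ring
    rw [e]
    refine (abs_add_le _ _).trans (add_le_add (cs_fro _ _) ?_)
    refine (cs_fro _ _).trans (mul_le_mul_of_nonneg_right (fro_mul _ _) (fro_nonneg _))
  have t4 : |(∑ i, ∑ l, Y' w i l * (U i * ∑ j, L' w l j * V j)) -
      ∑ i, ∑ l, Y w i l * (U i * ∑ j, L w l j * V j)| ≤ D * (ven U * ven V) := by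
    have m4 : ∀ Y L : MF n, ∑ i, ∑ l, Y w i l * (U i * ∑ j, L w l j * V j) =
        ∑ i, ∑ j, (∑ l, Y w i l * L w l j) * (U i * V j) := by
      intro Y L
      rw [← m2 Y L fun i j => U i * V j]
      refine Finset.sum_congr rfl fun i _ => Finset.sum_congr rfl fun l _ => ?_
      rw [Finset.mul_sum]
      congr 1
      exact Finset.sum_congr rfl fun j _ => by ring
    rw [m4 Y' L', m4 Y L]
    have e : (∑ i, ∑ j, (∑ l, Y' w i l * L' w l j) * (U i * V j)) -
        ∑ i, ∑ j, (∑ l, Y w i l * L w l j) * (U i * V j) =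
        ∑ i, ∑ j, (P' i j - P i j) * (U i * V j) := by
      rw [← Finset.sum_sub_distrib]
      refine Finset.sum_congr rfl fun i _ => ?_
      rw [← Finset.sum_sub_distrib]
      exact Finset.sum_congr rfl fun j _ => by simp only [hP, hP']; ring
    rw [e, ← fro_outer]
    exact cs_fro _ _
  have hkv : 0 ≤ k ^ 2 * vr a := mul_nonneg (sq_nonneg k) (vr_nonneg a)
  set a1' := ∑ i, ∑ l, Y' w i l * (U i * U l)
  set a1 := ∑ i, ∑ l, Y w i l * (U i * U l)
  set a2' := ∑ i, ∑ l, Y' w i l * ∑ j, L' w l j * H i j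
  set a2 := ∑ i, ∑ l, Y w i l * ∑ j, L w l j * H i j
  set a3' := ∑ i, ∑ l, Y' w i l * ∑ j, L' w l j * L' w i j
  set a3 := ∑ i, ∑ l, Y w i l * ∑ j, L w l j * L w i j
  set a4' := ∑ i, ∑ l, Y' w i l * (U i * ∑ j, L' w l j * V j)
  set a4 := ∑ i, ∑ l, Y w i l * (U i * ∑ j, L w l j * V j)
  have hm : mrow S s a ψ' b Y' L' w - mrow S s a ψ' b Y L w =
      (a1' - a1) - 2 * (k ^ 2 * vr a) * (a2' - a2) + k ^ 2 * vr a * (a3' - a3) -
        k * (a4' - a4) := by
    have e1 : mrow S s a ψ' b Y' L' w = a1' - 2 * (k ^ 2 * vr a) * a2' + k ^ 2 * vr a * a3' -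
      k * a4' := rfl
    have e2 : mrow S s a ψ' b Y L w = a1 - 2 * (k ^ 2 * vr a) * a2 + k ^ 2 * vr a * a3 -
      k * a4 := rfl
    rw [e1, e2]
    ring
  rw [hm]
  have b1 := t1
  have b2 : |2 * (k ^ 2 * vr a) * (a2' - a2)| ≤ 2 * (k ^ 2 * vr a) * (D * fro H) := by
    rw [abs_mul, abs_of_nonneg (by linarith : 0 ≤ 2 * (k ^ 2 * vr a))]
    exact mul_le_mul_of_nonneg_left t2 (by linarith)
  have b3 : |k ^ 2 * vr a * (a3' - a3)| ≤ k ^ 2 * vr a * (D * fro (L' w) +
      fro (Y w) * fro (L w) * fro (fun i l => L' w i l - L w i l)) := by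
    rw [abs_mul, abs_of_nonneg hkv]
    exact mul_le_mul_of_nonneg_left t3 hkv
  have b4 : |k * (a4' - a4)| ≤ |k| * (D * (ven U * ven V)) := by
    rw [abs_mul]
    exact mul_le_mul_of_nonneg_left t4 (abs_nonneg k)
  have h5 : |(a1' - a1) - 2 * (k ^ 2 * vr a) * (a2' - a2) + k ^ 2 * vr a * (a3' - a3) -
      k * (a4' - a4)| ≤ |a1' - a1| + |2 * (k ^ 2 * vr a) * (a2' - a2)| +
      |k ^ 2 * vr a * (a3' - a3)| + |k * (a4' - a4)| := by
    refine (abs_sub _ _).trans (add_le_add ?_ le_rfl)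
    refine (abs_add_le _ _).trans (add_le_add ?_ le_rfl)
    exact abs_sub _ _
  have hK : 0 ≤ 2 * (k ^ 2 * vr a) * fro H + k ^ 2 * vr a * fro (L' w) +
      |k| * (ven U * ven V) := by
    have := fro_nonneg H
    have := fro_nonneg (L' w)
    have := ven_nonneg U
    have := ven_nonneg V
    positivity
  have h6 := mul_le_mul_of_nonneg_right hD hK
  have h7 : erow S s a ψ' b Y L Y' L' w =
      fro (fun i l => Y' w i l - Y w i l) * ven U ^ 2 +
      (fro (Y' w) * fro (fun i l => L' w i l - L w i l) +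
        fro (fun i l => Y' w i l - Y w i l) * fro (L w)) *
      (2 * (k ^ 2 * vr a) * fro H + k ^ 2 * vr a * fro (L' w) + |k| * (ven U * ven V)) +
      k ^ 2 * vr a * (fro (Y w) * fro (L w) * fro (fun i l => L' w i l - L w i l)) := rfl
  rw [h7]
  linarith

lemma eg_erow (hs : 0 < s) (h : Den φ ψ') {b : Fin n} {Y L Y' L' : MF n}
    (hY : ∀ i l, EG fun w => Y w i l) (hL : ∀ i l, EG fun w => L w i l)
    (hY' : ∀ i l, EG fun w => Y' w i l) (hL' : ∀ i l, EG fun w => L' w i l) :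
    EG (erow S s a ψ' b Y L Y' L') := by
  have eH : EG fun w : K4 (Pair n) → ℝ => fro (S.H s b (H712.lp a w)) :=
    eg_fro fun i l => eg_lp a (S.eg_H hs b i l)
  have eU : EG fun w => ven (Uv S s a b w) := eg_ven fun i => eg_Uv b i
  have eV : EG fun w => ven (dv a ψ' b w) := eg_ven fun i => eg_dv h b i
  have dY : EG fun w => fro (fun i l => Y' w i l - Y w i l) :=
    eg_fro fun i l => (hY' i l).sub (hY i l)
  have dL : EG fun w => fro (fun i l => L' w i l - L w i l) :=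
    eg_fro fun i l => (hL' i l).sub (hL i l)
  have fY := eg_fro hY
  have fY' := eg_fro hY'
  have fL := eg_fro hL
  have fL' := eg_fro hL'
  exact ((dY.mul (eU.pow 2)).add (((fY'.mul dL).add (dY.mul fL)).mul
    (((eH.const_mul _).add (fL'.const_mul _)).add ((eU.mul eV).const_mul _)))).add
    (((fY.mul fL).mul dL).const_mul _)

lemma Im_mono (hφ : ∀ w, 0 ≤ φ w) (h : EG φ) {f g : (K4 (Pair n) → ℝ) → ℝ} (hf : EG f)
    (hg : EG g) (hle : ∀ w, f w ≤ g w) : Im φ f ≤ Im φ g :=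
  integral_mono (h.mul hf).integrable (h.mul hg).integrable fun w =>
    mul_le_mul_of_nonneg_left (hle w) (hφ w)

lemma Im_abs_le (hφ : ∀ w, 0 ≤ φ w) (h : EG φ) {f g : (K4 (Pair n) → ℝ) → ℝ} (hf : EG f)
    (hg : EG g) (hle : ∀ w, |f w| ≤ g w) : |Im φ f| ≤ Im φ g := by
  rw [abs_le]
  constructor
  · have h1 := Im_mono (f := fun w => -1 * g w) (g := f) hφ h (hg.const_mul (-1)) hf fun w => by
      have := (abs_le.1 (hle w)).1
      linarith
    rw [Im_const_mul] at h1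
    linarith
  · exact Im_mono hφ h hf hg fun w => (abs_le.1 (hle w)).2

/-- **The sum over the rows of (F1).** -/
theorem f1_sum (hs : 0 < s) (h : Den φ ψ') (hφ : ∀ w, 0 ≤ φ w) {Y L : MF n}
    {Y' L' : Fin n → MF n} (hY : ∀ i l, EG fun w => Y w i l) (hL : ∀ i l, EG fun w => L w i l)
    (hY' : ∀ b, Frz b (Y' b)) (hL' : ∀ b, Frz b (L' b))
    (hLb : ∀ b w i, L' b w i b = 0) :
    |∑ b, Im φ (nrow S s a ψ' b (Y' b) (L' b)) - Im φ (fun w => ∑ b, mrow S s a ψ' b Y L w)| ≤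
      Im φ (fun w => ∑ b, erow S s a ψ' b Y L (Y' b) (L' b) w) := by
  have e1 : ∀ b, EG (mrow S s a ψ' b (Y' b) (L' b)) := fun b =>
    eg_mrow hs h (hY' b).eg (hL' b).eg
  have e2 : ∀ b, EG (mrow S s a ψ' b Y L) := fun b => eg_mrow hs h hY hL
  have e3 : ∀ b, EG (erow S s a ψ' b Y L (Y' b) (L' b)) := fun b =>
    eg_erow hs h hY hL (hY' b).eg (hL' b).eg
  have h1 : ∑ b, Im φ (nrow S s a ψ' b (Y' b) (L' b)) =
      Im φ (fun w => ∑ b, mrow S s a ψ' b (Y' b) (L' b) w) := by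
    rw [Im_sum h.eg _ fun b _ => e1 b]
    exact Finset.sum_congr rfl fun b _ => f1_mrow hs h (hY' b) (hL' b) (hLb b)
  rw [h1, ← Im_sub h.eg (EG.sum _ fun b _ => e1 b) (EG.sum _ fun b _ => e2 b)]
  refine Im_abs_le hφ h.eg ((EG.sum _ fun b _ => e1 b).sub (EG.sum _ fun b _ => e2 b))
    (EG.sum _ fun b _ => e3 b) fun w => ?_
  show |∑ b, mrow S s a ψ' b (Y' b) (L' b) w - ∑ b, mrow S s a ψ' b Y L w| ≤
    ∑ b, erow S s a ψ' b Y L (Y' b) (L' b) w
  rw [← Finset.sum_sub_distrib]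
  exact (Finset.abs_sum_le_sum_abs _ _).trans (Finset.sum_le_sum fun b _ => mrow_sub)

end Vale.Agent.P146.H191
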