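import Vale.Agent.P146.H191.P2

/-!
Plan R2, row B9: the one-row identity (F1) when the weight `Y` is a function of another position
and is not frozen; only `L` does not see the row. The extra term is the derivative of `Y`.
-/

open MeasureTheory ProbabilityTheory Finset

namespace Vale.Agent.P146.H191

open Vale.Agent.P157.Lv Vale.Agent.P146.H425 Vale.Agent.P146.H325 Vale.Agent.P146.H332
  Vale.Agent.P146.H712 Vale.Agent.P146.R1 Vale.Agent.P146.R1C Vale.Agent.P146.H706
  Vale.Agent.P146.R1S

set_option linter.unusedSectionVars false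

variable {n : ℕ}

/-- A matrix, of exponential growth, which does not see the row `b`. -/
structure Frl (b : Fin n) (L : MF n) : Prop where
  eg : ∀ i l, EG fun w => L w i l
  fr : ∀ i l, Fr b fun w => L w i l

lemma Frz.frl {b : Fin n} {L : MF n} (h : Frz b L) : Frl b L := ⟨h.eg, h.fr⟩

/-- The weight: a symmetric matrix function of one position, with its derivatives. -/
structure Wt (G : Fin n → Fin n → (Pair n → ℝ) → ℝ)
    (DG : Pair n → Fin n → Fin n → (Pair n → ℝ) → ℝ) : Prop where
  eg : ∀ i l, EG (G i l)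
  eg' : ∀ e i l, EG (DG e i l)
  pd : ∀ e i l, PD e (G i l) (DG e i l)
  sy : ∀ i l z, G i l z = G l i z

variable {a a0 : Fin 4 → ℝ} {k : ℝ} {b : Fin n} {φ : (K4 (Pair n) → ℝ) → ℝ}
  {ψ' : K4 (Pair n) → (K4 (Pair n) → ℝ) → ℝ} {L : MF n}
  {G : Fin n → Fin n → (Pair n → ℝ) → ℝ} {DG : Pair n → Fin n → Fin n → (Pair n → ℝ) → ℝ}

/-- The weight at the position `a0`. -/
noncomputable def Yg (G : Fin n → Fin n → (Pair n → ℝ) → ℝ) (a0 : Fin 4 → ℝ) : MF n :=
  fun w i l => G i l (H712.lp a0 w)

/-- Its derivative. -/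
noncomputable def DYg (DG : Pair n → Fin n → Fin n → (Pair n → ℝ) → ℝ) (a0 : Fin 4 → ℝ) : Pair n → MF n :=
  fun e w i l => DG e i l (H712.lp a0 w)

lemma Wt.egY (hG : Wt G DG) (a0 : Fin 4 → ℝ) (i l : Fin n) : EG fun w => Yg G a0 w i l :=
  eg_lp a0 (hG.eg i l)

lemma Wt.egD (hG : Wt G DG) (a0 : Fin 4 → ℝ) (e : Pair n) (i l : Fin n) :
    EG fun w => DYg DG a0 e w i l := eg_lp a0 (hG.eg' e i l)

lemma Wt.syY (hG : Wt G DG) (a0 : Fin 4 → ℝ) (w : K4 (Pair n) → ℝ) (i l : Fin n) :
    Yg G a0 w i l = Yg G a0 w l i := hG.sy i l _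

/-- The derivative of the weight in the row `b`: `∑_e ∑_il (∂_e Y)_il f_i L_(l,e)`. -/
noncomputable def tx (b : Fin n) (DY : Pair n → MF n) (f : Fin n → (K4 (Pair n) → ℝ) → ℝ)
    (L : MF n) (w : K4 (Pair n) → ℝ) : ℝ :=
  ∑ i, ∑ l, ∑ e ∈ row b, DY e w i l * (f i w * L w l (oth b e))

lemma eg_tx {DY : Pair n → MF n} (hD : ∀ e i l, EG fun w => DY e w i l)
    {f : Fin n → (K4 (Pair n) → ℝ) → ℝ} (hf : ∀ i, EG (f i)) (hL : ∀ i l, EG fun w => L w i l) :
    EG (tx b DY f L) :=
  EG.sum _ fun i _ => EG.sum _ fun l _ => EG.sum _ fun e _ =>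
    (hD e i l).mul ((hf i).mul (hL l _))

lemma tx_lin {DY : Pair n → MF n} (f g : Fin n → (K4 (Pair n) → ℝ) → ℝ) (c : ℝ)
    (w : K4 (Pair n) → ℝ) :
    tx b DY (fun i w => f i w + c * g i w) L w = tx b DY f L w + c * tx b DY g L w := by
  unfold tx
  simp only [Finset.mul_sum, ← Finset.sum_add_distrib]
  exact Finset.sum_congr rfl fun i _ => Finset.sum_congr rfl fun l _ =>
    Finset.sum_congr rfl fun e _ => by ring

/-- **the mixed term**, `Y` not frozen -/
theorem mix_ibpY (h : Den φ ψ') (hG : Wt G DG) (hL : Frl b L) {U : Fin n → (Pair n → ℝ) → ℝ}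
    {H : (Pair n → ℝ) → Fin n → Fin n → ℝ} (hU : ∀ i, EG (U i)) (hH : ∀ i l, EG fun z => H z i l)
    (hd : ∀ i, ∀ e ∈ row b, PD e (U i) (fun z => k * H z i (oth b e))) :
    Im φ (qY (Yg G a0) (fun i w => U i (H712.lp a w)) (Ly a b L)) =
      k * vr a * Im φ (fun w => ∑ i, ∑ l, Yg G a0 w i l *
        ∑ e ∈ row b, L w l (oth b e) * H (H712.lp a w) i (oth b e)) +
      cv a a0 * Im φ (tx b (DYg DG a0) (fun i w => U i (H712.lp a w)) L) +
      Im φ (qY (Yg G a0) (fun i w => U i (H712.lp a w)) (LV a b ψ' L)) := by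
  have eU : ∀ i, EG fun w : K4 (Pair n) → ℝ => U i (H712.lp a w) := fun i => eg_lp a (hU i)
  have eH : ∀ i l, EG fun w : K4 (Pair n) → ℝ => H (H712.lp a w) i l := fun i l =>
    eg_lp a (hH i l)
  have eY := hG.egY a0
  have eD := hG.egD a0
  have one : ∀ i l, ∀ e ∈ row b,
      Im φ (fun w => L w l (oth b e) * (H712.lp a w e * (U i (H712.lp a w) *
        G i l (H712.lp a0 w)))) =
        Im φ (fun w => L w l (oth b e) * (vr a * ((k * H (H712.lp a w) i (oth b e)) *
          G i l (H712.lp a0 w)) + cv a a0 * (U i (H712.lp a w) * DG e i l (H712.lp a0 w)) +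
          U i (H712.lp a w) * G i l (H712.lp a0 w) * dr a ψ' e w)) := fun i l e he =>
    h.ibp2 a a0 (c := fun w => L w l (oth b e)) (f := U i)
      (f' := fun z => k * H z i (oth b e)) (g := G i l) (hL.eg _ _)
      (fun j hj => (hL.fr l (oth b e)) j (by rw [hj]; exact he)) (hU i)
      ((hH i (oth b e)).const_mul k) (hd i e he) (hG.eg i l) (hG.eg' e i l) (hG.pd e i l)
  have e1 : ∀ i l e, EG fun w => L w l (oth b e) * (H712.lp a w e * (U i (H712.lp a w) *
        G i l (H712.lp a0 w))) := fun i l e =>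
    (hL.eg _ _).mul ((eg_lp a (EG.coord e)).mul ((eU i).mul (eY i l)))
  have e2 : ∀ i l e, EG fun w => L w l (oth b e) * (vr a * ((k * H (H712.lp a w) i (oth b e)) *
          G i l (H712.lp a0 w)) + cv a a0 * (U i (H712.lp a w) * DG e i l (H712.lp a0 w)) +
          U i (H712.lp a w) * G i l (H712.lp a0 w) * dr a ψ' e w) :=
    fun i l e => (hL.eg _ _).mul ((((((eH i _).const_mul k).mul (eY i l)).const_mul _).add
      (((eU i).mul (eD e i l)).const_mul _)).add (((eU i).mul (eY i l)).mul (h.eg_dr a e)))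
  have e3 : EG fun w => ∑ i, ∑ l, Yg G a0 w i l *
      ∑ e ∈ row b, L w l (oth b e) * H (H712.lp a w) i (oth b e) :=
    EG.sum _ fun i _ => EG.sum _ fun l _ => (eY i l).mul
      (EG.sum _ fun e _ => (hL.eg _ _).mul (eH _ _))
  have e4 : EG (qY (Yg G a0) (fun i w => U i (H712.lp a w)) (LV a b ψ' L)) :=
    eg_qY eY eU fun i => eg_LV h hL.eg i
  have e5 : EG (tx b (DYg DG a0) (fun i w => U i (H712.lp a w)) L) := eg_tx eD eU hL.eg
  calc Im φ (qY (Yg G a0) (fun i w => U i (H712.lp a w)) (Ly a b L))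
      = Im φ (fun w => ∑ i, ∑ l, ∑ e ∈ row b, L w l (oth b e) * (H712.lp a w e *
          (U i (H712.lp a w) * G i l (H712.lp a0 w)))) := by
        refine Im_congr fun w => ?_
        unfold qY Ly Yg
        refine Finset.sum_congr rfl fun i _ => Finset.sum_congr rfl fun l _ => ?_
        rw [Finset.mul_sum, Finset.mul_sum]
        exact Finset.sum_congr rfl fun e _ => by ring
    _ = ∑ i, ∑ l, ∑ e ∈ row b, Im φ (fun w => L w l (oth b e) * (H712.lp a w e *
          (U i (H712.lp a w) * G i l (H712.lp a0 w)))) := by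
        rw [Im_sum h.eg _ fun i _ => EG.sum _ fun l _ => EG.sum _ fun e _ => e1 i l e]
        refine Finset.sum_congr rfl fun i _ => ?_
        rw [Im_sum h.eg _ fun l _ => EG.sum _ fun e _ => e1 i l e]
        refine Finset.sum_congr rfl fun l _ => ?_
        exact Im_sum h.eg _ fun e _ => e1 i l e
    _ = ∑ i, ∑ l, ∑ e ∈ row b, Im φ (fun w => L w l (oth b e) *
          (vr a * ((k * H (H712.lp a w) i (oth b e)) * G i l (H712.lp a0 w)) +
          cv a a0 * (U i (H712.lp a w) * DG e i l (H712.lp a0 w)) +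
          U i (H712.lp a w) * G i l (H712.lp a0 w) * dr a ψ' e w)) :=
        Finset.sum_congr rfl fun i _ => Finset.sum_congr rfl fun l _ =>
          Finset.sum_congr rfl fun e he => one i l e he
    _ = Im φ (fun w => ∑ i, ∑ l, ∑ e ∈ row b, L w l (oth b e) *
          (vr a * ((k * H (H712.lp a w) i (oth b e)) * G i l (H712.lp a0 w)) +
          cv a a0 * (U i (H712.lp a w) * DG e i l (H712.lp a0 w)) +
          U i (H712.lp a w) * G i l (H712.lp a0 w) * dr a ψ' e w)) := by
        rw [Im_sum h.eg _ fun i _ => EG.sum _ fun l _ => EG.sum _ fun e _ => e2 i l e]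
        refine Finset.sum_congr rfl fun i _ => ?_
        rw [Im_sum h.eg _ fun l _ => EG.sum _ fun e _ => e2 i l e]
        refine Finset.sum_congr rfl fun l _ => ?_
        exact (Im_sum h.eg _ fun e _ => e2 i l e).symm
    _ = Im φ (fun w => k * vr a * (∑ i, ∑ l, Yg G a0 w i l *
          ∑ e ∈ row b, L w l (oth b e) * H (H712.lp a w) i (oth b e)) +
          cv a a0 * tx b (DYg DG a0) (fun i w => U i (H712.lp a w)) L w +
          qY (Yg G a0) (fun i w => U i (H712.lp a w)) (LV a b ψ' L) w) := by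
        refine Im_congr fun w => ?_
        unfold qY LV tx Yg DYg
        simp only [Finset.mul_sum, ← Finset.sum_add_distrib]
        exact Finset.sum_congr rfl fun i _ => Finset.sum_congr rfl fun l _ =>
          Finset.sum_congr rfl fun e _ => by ring
    _ = _ := by
        rw [Im_add h.eg ((e3.const_mul _).add (e5.const_mul _)) e4,
          Im_add h.eg (e3.const_mul _) (e5.const_mul _), Im_const_mul, Im_const_mul]

/-- **the quadratic term**, `Y` not frozen -/
theorem quad_ibpY (h : Den φ ψ') (hG : Wt G DG) (hL : Frl b L) :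
    Im φ (qY (Yg G a0) (Ly a b L) (Ly a b L)) =
      vr a * Im φ (fun w => ∑ i, ∑ l, Yg G a0 w i l *
        ∑ e ∈ row b, L w l (oth b e) * L w i (oth b e)) +
      cv a a0 * Im φ (tx b (DYg DG a0) (Ly a b L) L) +
      Im φ (qY (Yg G a0) (Ly a b L) (LV a b ψ' L)) := by
  have eY := hG.egY a0
  have eD := hG.egD a0
  have ec : ∀ e : Pair n, EG fun w : K4 (Pair n) → ℝ => H712.lp a w e := fun e =>
    eg_lp a (EG.coord e)
  have one : ∀ i l, ∀ e ∈ row b, ∀ e' ∈ row b,
      Im φ (fun w => (L w l (oth b e) * L w i (oth b e')) *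
        (H712.lp a w e * (H712.lp a w e' * G i l (H712.lp a0 w)))) =
      Im φ (fun w => (L w l (oth b e) * L w i (oth b e')) *
        (vr a * ((if e' = e then 1 else 0) * G i l (H712.lp a0 w)) +
          cv a a0 * (H712.lp a w e' * DG e i l (H712.lp a0 w)) +
          H712.lp a w e' * G i l (H712.lp a0 w) * dr a ψ' e w)) :=
    fun i l e he e' _ =>
    h.ibp2 a a0 (c := fun w => L w l (oth b e) * L w i (oth b e'))
      (f := fun z => z e') (f' := fun _ => if e' = e then 1 else 0) (g := G i l)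
      ((hL.eg _ _).mul (hL.eg _ _))
      (fun j hj => ((hL.fr l (oth b e)).mul (hL.fr i (oth b e'))) j
        (by rw [hj]; exact he)) (EG.coord e') (EG.const _) (PD.coord e')
      (hG.eg i l) (hG.eg' e i l) (hG.pd e i l)
  have e1 : ∀ i l e e', EG fun w => (L w l (oth b e) * L w i (oth b e')) *
        (H712.lp a w e * (H712.lp a w e' * G i l (H712.lp a0 w))) := fun i l e e' =>
    ((hL.eg _ _).mul (hL.eg _ _)).mul ((ec e).mul ((ec e').mul (eY i l)))
  have e2 : ∀ i l e e', EG fun w => (L w l (oth b e) * L w i (oth b e')) *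
        (vr a * ((if e' = e then 1 else 0) * G i l (H712.lp a0 w)) +
          cv a a0 * (H712.lp a w e' * DG e i l (H712.lp a0 w)) +
          H712.lp a w e' * G i l (H712.lp a0 w) * dr a ψ' e w) := fun i l e e' =>
    ((hL.eg _ _).mul (hL.eg _ _)).mul
      (((((EG.const _).mul (eY i l)).const_mul _).add (((ec e').mul (eD e i l)).const_mul _)).add
        (((ec e').mul (eY i l)).mul (h.eg_dr a e)))
  have e3 : EG fun w => ∑ i, ∑ l, Yg G a0 w i l *
      ∑ e ∈ row b, L w l (oth b e) * L w i (oth b e) :=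
    EG.sum _ fun i _ => EG.sum _ fun l _ => (eY i l).mul
      (EG.sum _ fun e _ => (hL.eg _ _).mul (hL.eg _ _))
  have e4 : EG (qY (Yg G a0) (Ly a b L) (LV a b ψ' L)) :=
    eg_qY eY (fun i => eg_Ly hL.eg i) fun i => eg_LV h hL.eg i
  have e5 : EG (tx b (DYg DG a0) (Ly a b L) L) := eg_tx eD (fun i => eg_Ly hL.eg i) hL.eg
  calc Im φ (qY (Yg G a0) (Ly a b L) (Ly a b L))
      = Im φ (fun w => ∑ i, ∑ l, ∑ e ∈ row b, ∑ e' ∈ row b,
          (L w l (oth b e) * L w i (oth b e')) *
            (H712.lp a w e * (H712.lp a w e' * G i l (H712.lp a0 w)))) := by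
        refine Im_congr fun w => ?_
        unfold qY Ly Yg
        refine Finset.sum_congr rfl fun i _ => Finset.sum_congr rfl fun l _ => ?_
        rw [mul_comm (∑ e ∈ row b, L w i (oth b e) * H712.lp a w e), Finset.sum_mul_sum,
          Finset.mul_sum]
        refine Finset.sum_congr rfl fun e _ => ?_
        rw [Finset.mul_sum]
        exact Finset.sum_congr rfl fun e' _ => by ring
    _ = ∑ i, ∑ l, ∑ e ∈ row b, ∑ e' ∈ row b,
          Im φ (fun w => (L w l (oth b e) * L w i (oth b e')) *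
            (H712.lp a w e * (H712.lp a w e' * G i l (H712.lp a0 w)))) := by
        rw [Im_sum h.eg _ fun i _ => EG.sum _ fun l _ => EG.sum _ fun e _ =>
          EG.sum _ fun e' _ => e1 i l e e']
        refine Finset.sum_congr rfl fun i _ => ?_
        rw [Im_sum h.eg _ fun l _ => EG.sum _ fun e _ => EG.sum _ fun e' _ => e1 i l e e']
        refine Finset.sum_congr rfl fun l _ => ?_
        rw [Im_sum h.eg _ fun e _ => EG.sum _ fun e' _ => e1 i l e e']
        refine Finset.sum_congr rfl fun e _ => ?_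
        exact Im_sum h.eg _ fun e' _ => e1 i l e e'
    _ = ∑ i, ∑ l, ∑ e ∈ row b, ∑ e' ∈ row b,
          Im φ (fun w => (L w l (oth b e) * L w i (oth b e')) *
            (vr a * ((if e' = e then 1 else 0) * G i l (H712.lp a0 w)) +
              cv a a0 * (H712.lp a w e' * DG e i l (H712.lp a0 w)) +
              H712.lp a w e' * G i l (H712.lp a0 w) * dr a ψ' e w)) :=
        Finset.sum_congr rfl fun i _ => Finset.sum_congr rfl fun l _ =>
          Finset.sum_congr rfl fun e he => Finset.sum_congr rfl fun e' he' =>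
            one i l e he e' he'
    _ = Im φ (fun w => ∑ i, ∑ l, ∑ e ∈ row b, ∑ e' ∈ row b,
          (L w l (oth b e) * L w i (oth b e')) *
            (vr a * ((if e' = e then 1 else 0) * G i l (H712.lp a0 w)) +
              cv a a0 * (H712.lp a w e' * DG e i l (H712.lp a0 w)) +
              H712.lp a w e' * G i l (H712.lp a0 w) * dr a ψ' e w)) := by
        rw [Im_sum h.eg _ fun i _ => EG.sum _ fun l _ => EG.sum _ fun e _ =>
          EG.sum _ fun e' _ => e2 i l e e']
        refine Finset.sum_congr rfl fun i _ => ?_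
        rw [Im_sum h.eg _ fun l _ => EG.sum _ fun e _ => EG.sum _ fun e' _ => e2 i l e e']
        refine Finset.sum_congr rfl fun l _ => ?_
        rw [Im_sum h.eg _ fun e _ => EG.sum _ fun e' _ => e2 i l e e']
        refine Finset.sum_congr rfl fun e _ => ?_
        exact (Im_sum h.eg _ fun e' _ => e2 i l e e').symm
    _ = Im φ (fun w => vr a * (∑ i, ∑ l, Yg G a0 w i l *
          ∑ e ∈ row b, L w l (oth b e) * L w i (oth b e)) +
          cv a a0 * tx b (DYg DG a0) (Ly a b L) L w +
          qY (Yg G a0) (Ly a b L) (LV a b ψ' L) w) := by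
        refine Im_congr fun w => ?_
        unfold qY LV tx Ly Yg DYg
        rw [Finset.mul_sum, Finset.mul_sum, ← Finset.sum_add_distrib, ← Finset.sum_add_distrib]
        refine Finset.sum_congr rfl fun i _ => ?_
        rw [Finset.mul_sum, Finset.mul_sum, ← Finset.sum_add_distrib, ← Finset.sum_add_distrib]
        refine Finset.sum_congr rfl fun l _ => ?_
        rw [mul_comm (∑ e ∈ row b, L w i (oth b e) * H712.lp a w e)
            (∑ e ∈ row b, L w l (oth b e) * dr a ψ' e w), Finset.sum_mul_sum,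
          Finset.mul_sum, Finset.mul_sum, Finset.mul_sum, Finset.mul_sum,
          ← Finset.sum_add_distrib, ← Finset.sum_add_distrib]
        refine Finset.sum_congr rfl fun e he => ?_
        have e5 : ∑ e' ∈ row b, (L w l (oth b e) * L w i (oth b e')) *
            (vr a * ((if e' = e then 1 else 0) * G i l (H712.lp a0 w))) =
            vr a * (G i l (H712.lp a0 w) * (L w l (oth b e) * L w i (oth b e))) := by
          rw [Finset.sum_eq_single e]
          · simp only [if_true]
            ring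
          · intro e' _ hne
            rw [if_neg hne]
            ring
          · intro hn
            exact absurd he hn
        rw [← e5, Finset.mul_sum, Finset.sum_mul, Finset.mul_sum, Finset.mul_sum,
          ← Finset.sum_add_distrib, ← Finset.sum_add_distrib]
        exact Finset.sum_congr rfl fun e' _ => by ring
    _ = _ := by
        rw [Im_add h.eg ((e3.const_mul _).add (e5.const_mul _)) e4,
          Im_add h.eg (e3.const_mul _) (e5.const_mul _), Im_const_mul, Im_const_mul]

/-- **(F1), one row**, `Y` not frozen. -/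
theorem f1_rowY (h : Den φ ψ') (hG : Wt G DG) (hL : Frl b L) {U : Fin n → (Pair n → ℝ) → ℝ}
    {H : (Pair n → ℝ) → Fin n → Fin n → ℝ} (hU : ∀ i, EG (U i)) (hH : ∀ i l, EG fun z => H z i l)
    (hd : ∀ i, ∀ e ∈ row b, PD e (U i) (fun z => k * H z i (oth b e))) :
    Im φ (qY (Yg G a0) (Nr a k b L U) (Nr a k b L U)) +
      k * Im φ (qY (Yg G a0) (Nr a k b L U) (LV a b ψ' L)) =
      Im φ (qY (Yg G a0) (fun i w => U i (H712.lp a w)) fun i w => U i (H712.lp a w)) -
      2 * (k ^ 2 * vr a) * Im φ (fun w => ∑ i, ∑ l, Yg G a0 w i l *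
        ∑ e ∈ row b, L w l (oth b e) * H (H712.lp a w) i (oth b e)) +
      k ^ 2 * vr a * Im φ (fun w => ∑ i, ∑ l, Yg G a0 w i l *
        ∑ e ∈ row b, L w l (oth b e) * L w i (oth b e)) -
      k * Im φ (qY (Yg G a0) (fun i w => U i (H712.lp a w)) (LV a b ψ' L)) -
      k * cv a a0 * Im φ (tx b (DYg DG a0)
        (fun i w => U i (H712.lp a w) + Nr a k b L U i w) L) := by
  have hm := mix_ibpY (a := a) (a0 := a0) h hG hL hU hH hd
  have hq := quad_ibpY (a := a) (a0 := a0) h hG hL
  have eY := hG.egY a0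
  have eD := hG.egD a0
  have eU : ∀ i, EG fun w : K4 (Pair n) → ℝ => U i (H712.lp a w) := fun i => eg_lp a (hU i)
  have eL : ∀ i, EG (Ly a b L i) := fun i => eg_Ly hL.eg i
  have eV : ∀ i, EG (LV a b ψ' L i) := fun i => eg_LV h hL.eg i
  have g1 := eg_qY eY eU eU
  have g2 := eg_qY eY eU eL
  have g3 := eg_qY eY eL eL
  have g4 := eg_qY eY eU eV
  have g5 := eg_qY eY eL eV
  have g6 : EG (tx b (DYg DG a0) (fun i w => U i (H712.lp a w)) L) := eg_tx eD eU hL.eg
  have g7 : EG (tx b (DYg DG a0) (Ly a b L) L) := eg_tx eD eL hL.eg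
  have h1 : Im φ (qY (Yg G a0) (Nr a k b L U) (Nr a k b L U)) =
      Im φ (qY (Yg G a0) (fun i w => U i (H712.lp a w)) fun i w => U i (H712.lp a w)) -
      2 * k * Im φ (qY (Yg G a0) (fun i w => U i (H712.lp a w)) (Ly a b L)) +
      k ^ 2 * Im φ (qY (Yg G a0) (Ly a b L) (Ly a b L)) := by
    rw [← Im_const_mul, ← Im_const_mul, ← Im_sub h.eg g1 (g2.const_mul _),
      ← Im_add h.eg (g1.sub (g2.const_mul _)) (g3.const_mul _)]
    refine Im_congr fun w => ?_
    have e1 : qY (Yg G a0) (Nr a k b L U) (Nr a k b L U) w =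
        qY (Yg G a0) (fun i w => U i (H712.lp a w)) (fun i w => U i (H712.lp a w)) w -
        k * qY (Yg G a0) (fun i w => U i (H712.lp a w)) (Ly a b L) w -
        k * qY (Yg G a0) (Ly a b L) (fun i w => U i (H712.lp a w)) w +
        k ^ 2 * qY (Yg G a0) (Ly a b L) (Ly a b L) w := by
      unfold qY Nr
      simp only [Finset.mul_sum, ← Finset.sum_sub_distrib, ← Finset.sum_add_distrib]
      exact Finset.sum_congr rfl fun i _ => Finset.sum_congr rfl fun l _ => by ring
    rw [e1, qY_comm (hG.syY a0) (Ly a b L) (fun i w => U i (H712.lp a w)) w]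
    ring
  have h2 : Im φ (qY (Yg G a0) (Nr a k b L U) (LV a b ψ' L)) =
      Im φ (qY (Yg G a0) (fun i w => U i (H712.lp a w)) (LV a b ψ' L)) -
      k * Im φ (qY (Yg G a0) (Ly a b L) (LV a b ψ' L)) := by
    rw [← Im_const_mul, ← Im_sub h.eg g4 (g5.const_mul _)]
    refine Im_congr fun w => ?_
    unfold qY Nr
    simp only [Finset.mul_sum, ← Finset.sum_sub_distrib]
    exact Finset.sum_congr rfl fun i _ => Finset.sum_congr rfl fun l _ => by ring
  have h3 : Im φ (tx b (DYg DG a0) (fun i w => U i (H712.lp a w) + Nr a k b L U i w) L) =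
      2 * Im φ (tx b (DYg DG a0) (fun i w => U i (H712.lp a w)) L) -
      k * Im φ (tx b (DYg DG a0) (Ly a b L) L) := by
    rw [← Im_const_mul, ← Im_const_mul, ← Im_sub h.eg (g6.const_mul _) (g7.const_mul _)]
    refine Im_congr fun w => ?_
    unfold tx Nr
    simp only [Finset.mul_sum, ← Finset.sum_sub_distrib]
    exact Finset.sum_congr rfl fun i _ => Finset.sum_congr rfl fun l _ =>
      Finset.sum_congr rfl fun e _ => by ring
  rw [h1, h2, h3, hm, hq]
  ring

end Vale.Agent.P146.H191
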