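import Vale.Agent.P146.H191.FYZ

/-!
Plan R2, row B9: `f1y_num` with all sizes put in; only the terms with `Y' b - Y` and the touch
number `QL` of `L` are left.
-/

open MeasureTheory ProbabilityTheory Finset Matrix

namespace Vale.Agent.P146.H191

open Vale.Agent.P157.Lv Vale.Agent.P146.H425 Vale.Agent.P146.H325 Vale.Agent.P146.H332
  Vale.Agent.P146.H712 Vale.Agent.P146.R1 Vale.Agent.P146.R1C Vale.Agent.P146.H706
  Vale.Agent.P146.R1S
open Vale.Agent.P146.H941 (od mx mx_apply tr_two tr_mul_nonneg Cm Cm_T Cm_comm od_Cm dv_eq eg_Cm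
  eg_od eg_mulm eg_tr sum_mrow qY_cross nl eg_nl)

set_option linter.unusedSectionVars false

variable {n : ℕ} {k x : ℝ} {S : CS n k x} {s : ℝ} {φ : (K4 (Pair n) → ℝ) → ℝ}
  {ψ' : K4 (Pair n) → (K4 (Pair n) → ℝ) → ℝ} {a : Fin 4 → ℝ}

/-- Cauchy-Schwarz for means. -/
lemma Im_cs1 (hφ : ∀ w, 0 ≤ φ w) (h : EG φ) {f g : (K4 (Pair n) → ℝ) → ℝ}
    (hf : EG f) (hg : EG g) :
    Im φ (fun w => f w * g w) ≤ √(Im φ fun w => f w ^ 2) * √(Im φ fun w => g w ^ 2) := by
  set P := Im φ fun w => f w ^ 2 with hP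
  set Q := Im φ fun w => g w ^ 2 with hQ
  set R := Im φ (fun w => f w * g w) with hR
  have hP0 : 0 ≤ P := Im_nonneg hφ fun w => sq_nonneg _
  have key : ∀ t : ℝ, 0 ≤ Q * (t * t) + (-2 * R) * t + P := by
    intro t
    have h1 : 0 ≤ Im φ (fun w => (f w - t * g w) ^ 2) := Im_nonneg hφ fun w => sq_nonneg _
    have e : Im φ (fun w => (f w - t * g w) ^ 2) = P - 2 * t * R + t ^ 2 * Q := by
      rw [hP, hQ, hR, ← Im_const_mul, ← Im_const_mul,
        ← Im_sub h (hf.pow 2) ((hf.mul hg).const_mul _),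
        ← Im_add h ((hf.pow 2).sub ((hf.mul hg).const_mul _)) ((hg.pow 2).const_mul _)]
      exact Im_congr fun w => by ring
    rw [e] at h1
    linarith [h1, show t ^ 2 * Q = Q * (t * t) by ring]
  have hd := discrim_le_zero key
  unfold discrim at hd
  have h2 : R ^ 2 ≤ P * Q := by nlinarith
  rw [← Real.sqrt_mul hP0]
  exact (le_abs_self _).trans (Real.abs_le_sqrt h2)

section det

variable {Y D : Fin n → Fin n → ℝ}

/-- `tr (D Y D) ≤ |D|² tr Y` -/
lemma Pf.bM_fro (hY : Pf Y) (D : Fin n → Fin n → ℝ) :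
    bM Y D D ≤ (mx Y).trace * fro D ^ 2 := by
  have h := hY.bM_mul_le (fun i j => if i = j then 1 else 0) D
  have e1 : (fun i b => ∑ j, (if i = j then (1 : ℝ) else 0) * D j b) = D := by
    funext i b
    simp
  have e2 : bM Y (fun i j => if i = j then (1 : ℝ) else 0) (fun i j => if i = j then 1 else 0) =
      (mx Y).trace := by
    unfold bM bY
    simp only [Matrix.trace, Matrix.diag_apply, mx_apply, mul_ite, mul_one, mul_zero,
      Finset.sum_ite_eq', Finset.mem_univ, if_true]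
  rw [e1, e2] at h
  exact h

end det

/-- the diagonal term with `B` -/
lemma tr_CB_le {Y : Fin n → Fin n → ℝ} (hY : Pf Y) {m : ℝ} (hm : 0 ≤ m)
    {B : MF n} (hB : ∀ w i j, B w i j = B w j i) (hBm : ∀ w i j, |B w i j| ≤ m)
    (w : K4 (Pair n) → ℝ) :
    |(mx Y * (Cm S s a w * od (B w))).trace| ≤
      m * n * (√(mx Y * (Cm S s a w * Cm S s a w)).trace * √(mx Y).trace) := by
  have hos : ∀ i j, od (B w) i j = od (B w) j i := fun i j => by
    unfold od
    by_cases h : i = j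
    · rw [if_pos h, if_pos h.symm]
    · rw [if_neg h, if_neg fun h' => h h'.symm]; exact hB w i j
  have e1 : (mx Y * (Cm S s a w * od (B w))).trace = bM Y (od (B w)) (Cm S s a w) := by
    rw [tr_two]
    unfold bM bY
    rw [Finset.sum_comm (s := Finset.univ) (t := Finset.univ)
      (f := fun j i => ∑ l, Y i l * (od (B w) i j * Cm S s a w l j))]
    refine Finset.sum_congr rfl fun i _ => ?_
    rw [Finset.sum_comm]
    refine Finset.sum_congr rfl fun l _ => ?_
    rw [mx_apply, Matrix.mul_apply, Finset.mul_sum]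
    exact Finset.sum_congr rfl fun j _ => by rw [hos j i]; ring
  have h1 := hY.csM (od (B w)) (Cm S s a w)
  have h2 : sn Y (Cm S s a w) = √(mx Y * (Cm S s a w * Cm S s a w)).trace := by
    have h := bM_lC (S := S) (s := s) (a := a) Y 1 w
    simp only [one_mul, one_pow] at h
    unfold sn
    rw [← h]
    rfl
  have h3 : fro (od (B w)) ≤ m * n := by
    have h4 : fro (od (B w)) ^ 2 ≤ (m * n) ^ 2 := by
      refine (fro_sq (od (B w))).le.trans ?_
      have h5 : ∀ i j, od (B w) i j ^ 2 ≤ m ^ 2 := by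
        intro i j
        rw [← sq_abs]
        refine pow_le_pow_left₀ (abs_nonneg _) ?_ 2
        unfold od
        split_ifs
        · simpa using hm
        · exact hBm w i j
      refine (Finset.sum_le_sum fun i _ => Finset.sum_le_sum fun j _ => h5 i j).trans
        (le_of_eq ?_)
      simp only [Finset.sum_const, Finset.card_univ, Fintype.card_fin, nsmul_eq_mul]
      ring
    exact (abs_le_of_sq_le_sq' h4 (by positivity)).2
  have hT : 0 ≤ (mx Y).trace := hY.pos.trace_nonneg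
  have h5 : sn Y (od (B w)) ≤ m * n * √(mx Y).trace := by
    have h6 := hY.bM_fro (od (B w))
    unfold sn
    have h7 : (mx Y).trace * fro (od (B w)) ^ 2 ≤ (m * n * √(mx Y).trace) ^ 2 := by
      rw [mul_pow, Real.sq_sqrt hT, mul_comm]
      exact mul_le_mul_of_nonneg_right (pow_le_pow_left₀ (fro_nonneg _) h3 2) hT
    exact Real.sqrt_le_iff.2 ⟨by positivity, h6.trans h7⟩
  rw [e1]
  refine h1.trans ?_
  rw [h2]
  have h8 := mul_le_mul_of_nonneg_right h5
    (Real.sqrt_nonneg (mx Y * (Cm S s a w * Cm S s a w)).trace)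
  linarith [h8, show m * n * √(mx Y).trace * √(mx Y * (Cm S s a w * Cm S s a w)).trace =
    m * n * (√(mx Y * (Cm S s a w * Cm S s a w)).trace * √(mx Y).trace) by ring]

/-- the drift matrix `xt C - B` without the diagonal -/
noncomputable def Wd (S : CS n k x) (s : ℝ) (a : Fin 4 → ℝ) (xt : ℝ) (B : MF n) : MF n :=
  fun w j b => xt * od (Cm S s a w) j b - od (B w) j b

lemma dv_Wd {xt : ℝ} {B : MF n} (hB : ∀ w i j, B w i j = B w j i)
    (hdr : ∀ e w, dr a ψ' e w =
      k * (xt * S.A s (H712.lp a w) e.1.1 e.1.2 - B w e.1.1 e.1.2)) (b j : Fin n)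
    (w : K4 (Pair n) → ℝ) : dv a ψ' b w j = k * Wd S s a xt B w j b := dv_eq hB hdr b j w

/-- the drift part of a row, as a form in `Y`, with the touch of `L` -/
lemma drift_row {Y : Fin n → Fin n → ℝ} (hY : Pf Y) (L L' : Fin n → Fin n → ℝ)
    (v : Fin n → ℝ) :
    bY Y (fun i => ∑ j, L' i j * v j) (fun i => ∑ j, L' i j * v j) ≤
      2 * bY Y (fun i => ∑ j, L i j * v j) (fun i => ∑ j, L i j * v j) +
      2 * (bM Y (fun i j => L' i j - L i j) (fun i j => L' i j - L i j) * ven v ^ 2) := by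
  set f : Fin n → ℝ := fun i => ∑ j, L i j * v j with hf
  set g : Fin n → ℝ := fun i => ∑ j, (L' i j - L i j) * v j with hg
  have e : (fun i => ∑ j, L' i j * v j) = fun i => f i + g i := by
    funext i
    simp only [hf, hg, ← Finset.sum_add_distrib]
    exact Finset.sum_congr rfl fun j _ => by ring
  have h1 : bY Y (fun i => f i + g i) (fun i => f i + g i) =
      2 * bY Y f f + 2 * bY Y g g - bY Y (fun i => f i - g i) (fun i => f i - g i) := by
    unfold bY
    simp only [Finset.mul_sum, ← Finset.sum_sub_distrib, ← Finset.sum_add_distrib]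
    rw [← sub_eq_zero, ← Finset.sum_sub_distrib]
    have h2 : ∀ i, ∑ l, Y i l * ((f i + g i) * (f l + g l)) -
        ∑ l, (2 * (Y i l * (f i * f l)) + 2 * (Y i l * (g i * g l)) -
          Y i l * ((f i - g i) * (f l - g l))) = 0 := by
      intro i
      rw [← Finset.sum_sub_distrib]
      exact Finset.sum_eq_zero fun l _ => by ring
    exact Finset.sum_eq_zero fun i _ => h2 i
  have h3 := hY.bY_nonneg fun i => f i - g i
  have h4 := hY.vn_mulVec (fun i j => L' i j - L i j) v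
  have h5 := pow_le_pow_left₀ (vn_nonneg _ _) h4 2
  rw [mul_pow, hY.vn_sq, hY.sn_sq] at h5
  rw [e, h1]
  have h6 : bY Y g g ≤ bM Y (fun i j => L' i j - L i j) (fun i j => L' i j - L i j) *
    ven v ^ 2 := h5
  linarith

/-- the drift of all rows, `L = l C` -/
lemma drift_sum {Y : Fin n → Fin n → ℝ} (hY : Pf Y) {l xt : ℝ} {B : MF n}
    (hB : ∀ w i j, B w i j = B w j i)
    (hdr : ∀ e w, dr a ψ' e w =
      k * (xt * S.A s (H712.lp a w) e.1.1 e.1.2 - B w e.1.1 e.1.2)) (w : K4 (Pair n) → ℝ) :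
    ∑ b, bY Y (fun i => ∑ j, (l * S.A s (H712.lp a w) i j) * dv a ψ' b w j)
      (fun i => ∑ j, (l * S.A s (H712.lp a w) i j) * dv a ψ' b w j) ≤
      l ^ 2 * k ^ 2 * (fro (Wd S s a xt B w) ^ 2 *
        (mx Y * (Cm S s a w * Cm S s a w)).trace) := by
  have h := hY.bM_mul_le (fun i j => l * S.A s (H712.lp a w) i j)
    fun j b => k * Wd S s a xt B w j b
  rw [bM_lC, fro_const_mul, mul_pow, sq_abs] at h
  have e : ∑ b, bY Y (fun i => ∑ j, (l * S.A s (H712.lp a w) i j) * dv a ψ' b w j)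
      (fun i => ∑ j, (l * S.A s (H712.lp a w) i j) * dv a ψ' b w j) =
      bM Y (fun i b => ∑ j, l * S.A s (H712.lp a w) i j * (k * Wd S s a xt B w j b))
        fun i b => ∑ j, l * S.A s (H712.lp a w) i j * (k * Wd S s a xt B w j b) := by
    unfold bM
    refine Finset.sum_congr rfl fun b _ => ?_
    have e2 : (fun i => ∑ j, (l * S.A s (H712.lp a w) i j) * dv a ψ' b w j) =
        fun i => ∑ j, l * S.A s (H712.lp a w) i j * (k * Wd S s a xt B w j b) := by
      funext i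
      exact Finset.sum_congr rfl fun j _ => by rw [dv_Wd hB hdr]
    rw [e2]
  rw [e]
  refine h.trans (le_of_eq ?_)
  ring

/-- The terms with the touch `Y' - Y` of the weight in the row `b`. -/
noncomputable def drow (S : CS n k x) (s : ℝ) (a : Fin 4 → ℝ)
    (ψ' : K4 (Pair n) → (K4 (Pair n) → ℝ) → ℝ) (η : ℝ) (b : Fin n) (Y Y' L' : MF n)
    (w : K4 (Pair n) → ℝ) : ℝ :=
  mrow S s a ψ' b (fun w i l => Y' w i l - Y w i l) L' w -
    1 / (2 * η) * (k ^ 2 * ∑ i, ∑ l, (Y' w i l - Y w i l) *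
      ((∑ j, L' w i j * dv a ψ' b w j) * ∑ j, L' w l j * dv a ψ' b w j))

lemma qY_LV_eq (Y L : MF n) (b : Fin n) (w : K4 (Pair n) → ℝ) :
    qY Y (LV a b ψ' L) (LV a b ψ' L) w =
      bY (Y w) (fun i => ∑ j, L w i j * dv a ψ' b w j)
        fun i => ∑ j, L w i j * dv a ψ' b w j := by
  unfold qY bY
  simp only [H941.LV_dv]

/-- **(F1) in numbers**, all sizes put in. `A = E tr (Y C²)`, `T0 = E tr Y`,
`B1 = E |C| tr (Y C)`, `QL` the touch of `L` in the form `Y`. -/
theorem f1y_fin (hs : 0 < s) (h : Den φ ψ') (hφ : ∀ w, 0 ≤ φ w) {l xt η m : ℝ} (hk : 0 ≤ k)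
    (hl : k ^ 2 * l ^ 2 * n = 1) (hl0 : 0 ≤ l) (hxt : 0 ≤ xt) (hη : 0 < η) (hm : 0 ≤ m)
    {Y B : MF n} {Y' L' : Fin n → MF n} (hY : ∀ i l, EG fun w => Y w i l)
    (hBe : ∀ i l, EG fun w => B w i l) (hYf : ∀ w, Pf (Y w)) (hB : ∀ w i j, B w i j = B w j i)
    (hBm : ∀ w i j, |B w i j| ≤ m)
    (hdr : ∀ e w, dr a ψ' e w =
      k * (xt * S.A s (H712.lp a w) e.1.1 e.1.2 - B w e.1.1 e.1.2))
    (hY' : ∀ b, Frz b (Y' b)) (hL' : ∀ b, Frz b (L' b)) (hLb : ∀ b w i, L' b w i b = 0)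
    (hYp' : ∀ b w, Pf (Y' b w)) {A T0 B1 QL : ℝ}
    (hA : A = Im φ fun w => (mx (Y w) * (Cm S s a w * Cm S s a w)).trace)
    (hT0 : T0 = Im φ fun w => (mx (Y w)).trace)
    (hB1 : B1 = Im φ fun w => fro (Cm S s a w) * (mx (Y w) * Cm S s a w).trace)
    (hQL : QL = Im φ fun w => ∑ b, bM (Y w)
      (fun i j => L' b w i j - l * S.A s (H712.lp a w) i j)
      fun i j => L' b w i j - l * S.A s (H712.lp a w) i j) :
    (1 + vr a) * A - 2 * (k ^ 2 * l * vr a) * Im φ (fun w => ∑ b, (mx (Y w) *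
        (Cm S s a w * S.H s b (H712.lp a w))).trace) -
      k ^ 2 * l * (xt * Im φ (fun w => (mx (Y w) *
        (Cm S s a w * (Cm S s a w * Cm S s a w))).trace) -
        Im φ (fun w => (mx (Y w) * (Cm S s a w * (od (B w) * Cm S s a w))).trace)) +
      Im φ (fun w => ∑ b, drow S s a ψ' η b Y (Y' b) (L' b) w) ≤
      (1 + η / 2) * ∑ b, Im φ (nl k S s a b (Y' b) (L' b)) +
        1 / η * (k ^ 2 / n * Im φ (fun w => fro (Wd S s a xt B w) ^ 2 *
          (mx (Y w) * (Cm S s a w * Cm S s a w)).trace) +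
          k ^ 2 * (n * (k * (xt + m)) ^ 2) * QL) +
        ((2 + k ^ 2 * l * xt) * Im φ (fun w => (mx (Y w) * Cm S s a w).trace) +
          k ^ 2 * l * (m * n * (√A * √T0))) +
        (√QL * (2 * (k ^ 2 * vr a) * √(n * B1) + 2 * (k ^ 2 * vr a) * √(n * l ^ 2 * A) +
           k * √(n * (k * (xt + m)) ^ 2 * (A + T0))) + k ^ 2 * vr a * QL) := by
  have key := f1y_num (S := S) (a := a) hs h hφ hl hl0 hxt hη hY hBe (fun w => (hYf w).pos) hYf hB
    hdr hY' hL' hLb fun b w => (hYp' b w).ps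
  have eC : ∀ i j, EG fun w : K4 (Pair n) → ℝ => Cm S s a w i j := fun i j => eg_Cm i j
  have eY : ∀ i j, EG fun w : K4 (Pair n) → ℝ => mx (Y w) i j := hY
  have eT : EG fun w => (mx (Y w)).trace := eg_tr eY
  have eA : EG fun w => (mx (Y w) * (Cm S s a w * Cm S s a w)).trace :=
    eg_tr (eg_mulm eY (eg_mulm eC eC))
  have eYC : EG fun w => (mx (Y w) * Cm S s a w).trace := eg_tr (eg_mulm eY eC)
  have eU : ∀ b, EG fun w => bY (Y w) (Uv S s a b w) (Uv S s a b w) := fun b =>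
    EG.sum _ fun i _ => EG.sum _ fun l _ => (hY i l).mul ((eg_Uv b i).mul (eg_Uv b l))
  have eV : ∀ b, EG fun w => ven (dv a ψ' b w) ^ 2 := fun b =>
    (eg_ven fun i => eg_dv h b i).pow 2
  have eD : ∀ b, EG fun w => bM (Y w) (fun i j => L' b w i j - l * S.A s (H712.lp a w) i j)
      fun i j => L' b w i j - l * S.A s (H712.lp a w) i j := fun b =>
    EG.sum _ fun j _ => EG.sum _ fun i _ => EG.sum _ fun m' _ =>
      (hY i m').mul ((((hL' b).eg i j).sub ((eg_lp a (S.eg_A s i j)).const_mul l)).mul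
        (((hL' b).eg m' j).sub ((eg_lp a (S.eg_A s m' j)).const_mul l)))
  have hPA : ∀ w, 0 ≤ (mx (Y w) * (Cm S s a w * Cm S s a w)).trace := fun w => by
    have h1 := (hYf w).bM_nonneg fun i j => 1 * S.A s (H712.lp a w) i j
    rw [bM_lC] at h1
    simpa using h1
  have hPT : ∀ w, 0 ≤ (mx (Y w)).trace := fun w => (hYf w).pos.trace_nonneg
  have hkv : 0 ≤ k ^ 2 * vr a := mul_nonneg (sq_nonneg k) (vr_nonneg a)
  have hn0 : (n : ℝ) ≠ 0 := by
    intro h0
    rw [h0, mul_zero] at hl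
    exact zero_ne_one hl
  have hn : 0 < (n : ℝ) := lt_of_le_of_ne (Nat.cast_nonneg n) hn0.symm
  -- the numbers
  have n1 := HB_le (S := S) (a := a) hs h hφ hY hYf
  rw [← hB1] at n1
  have n2 := L0_eq (φ := φ) (S := S) (s := s) (a := a) Y l
  rw [← hA] at n2
  have n3 : Im φ (fun w => ∑ b, bY (Y w) (Uv S s a b w) (Uv S s a b w) *
      ven (dv a ψ' b w) ^ 2) ≤ n * (k * (xt + m)) ^ 2 * (A + T0) := by
    rw [hA, hT0, ← Im_add h.eg eA eT, ← Im_const_mul]
    refine Im_mono hφ h.eg (EG.sum _ fun b _ => (eU b).mul (eV b)) ((eA.add eT).const_mul _)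
      fun w => ?_
    have h1 : ∀ b, bY (Y w) (Uv S s a b w) (Uv S s a b w) * ven (dv a ψ' b w) ^ 2 ≤
        bY (Y w) (Uv S s a b w) (Uv S s a b w) * (n * (k * (xt + m)) ^ 2) := fun b =>
      mul_le_mul_of_nonneg_left (dv_sq_le hxt hm hB hBm hdr b w) ((hYf w).bY_nonneg _)
    refine (Finset.sum_le_sum fun b _ => h1 b).trans ?_
    rw [← Finset.sum_mul, mul_comm]
    exact mul_le_mul_of_nonneg_left (UU_le (hYf w) w) (by positivity)
  -- the diagonal
  have n4 : Im φ (dgY S s a l xt Y B) ≤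
      (2 + k ^ 2 * l * xt) * Im φ (fun w => (mx (Y w) * Cm S s a w).trace) +
        k ^ 2 * l * (m * n * (√A * √T0)) := by
    have h1 := Im_cs1 hφ h.eg (eg_sqrt eA) (eg_sqrt eT)
    have e1 : Im φ (fun w => √((mx (Y w) * (Cm S s a w * Cm S s a w)).trace) ^ 2) = A := by
      rw [hA]
      exact Im_congr fun w => Real.sq_sqrt (hPA w)
    have e2 : Im φ (fun w => √((mx (Y w)).trace) ^ 2) = T0 := by
      rw [hT0]
      exact Im_congr fun w => Real.sq_sqrt (hPT w)
    rw [e1, e2] at h1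
    have h2 := Im_mono hφ h.eg (f := dgY S s a l xt Y B)
      (g := fun w => (2 + k ^ 2 * l * xt) * (mx (Y w) * Cm S s a w).trace +
        k ^ 2 * l * (m * n) * (√(mx (Y w) * (Cm S s a w * Cm S s a w)).trace *
          √(mx (Y w)).trace))
      (eg_dgY hY hBe) ((eYC.const_mul _).add (((eg_sqrt eA).mul (eg_sqrt eT)).const_mul _))
      fun w => by
        unfold dgY
        have h3 := mul_le_mul_of_nonneg_left
          (tr_CB_le (S := S) (s := s) (a := a) (hYf w) hm hB hBm w)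
          (mul_nonneg (sq_nonneg k) hl0)
        linarith
    rw [Im_add h.eg (eYC.const_mul _) (((eg_sqrt eA).mul (eg_sqrt eT)).const_mul _),
      Im_const_mul, Im_const_mul] at h2
    have h4 := mul_le_mul_of_nonneg_left h1
      (show 0 ≤ k ^ 2 * l * (m * n) by positivity)
    linarith
  -- the drift
  have eW : ∀ i j, EG fun w => Wd S s a xt B w i j := fun i j =>
    ((eg_od (fun i j => eg_Cm i j) i j).const_mul _).sub (eg_od hBe i j)
  have eR : EG fun w => fro (Wd S s a xt B w) ^ 2 *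
      (mx (Y w) * (Cm S s a w * Cm S s a w)).trace := ((eg_fro eW).pow 2).mul eA
  have eG : ∀ b, EG fun w => k ^ 2 * ∑ i, ∑ l, (Y' b w i l - Y w i l) *
      ((∑ j, L' b w i j * dv a ψ' b w j) * ∑ j, L' b w l j * dv a ψ' b w j) := fun b =>
    (EG.sum _ fun i _ => EG.sum _ fun l' _ => (((hY' b).eg i l').sub (hY i l')).mul
      ((EG.sum _ fun j _ => ((hL' b).eg i j).mul (eg_dv h b j)).mul
        (EG.sum _ fun j _ => ((hL' b).eg l' j).mul (eg_dv h b j)))).const_mul _
  have eDr : ∀ b, EG (mrow S s a ψ' b (fun w i l => Y' b w i l - Y w i l) (L' b)) := fun b =>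
    eg_mrow hs h (fun i l => ((hY' b).eg i l).sub (hY i l)) (hL' b).eg
  have n5 : ∑ b, Im φ (vroY k a ψ' b (Y' b) (L' b)) ≤
      Im φ (fun w => ∑ b, k ^ 2 * ∑ i, ∑ l, (Y' b w i l - Y w i l) *
      ((∑ j, L' b w i j * dv a ψ' b w j) * ∑ j, L' b w l j * dv a ψ' b w j)) +
      2 * (k ^ 2 / n * Im φ (fun w => fro (Wd S s a xt B w) ^ 2 *
          (mx (Y w) * (Cm S s a w * Cm S s a w)).trace) +
          k ^ 2 * (n * (k * (xt + m)) ^ 2) * QL) := by
    rw [← Im_sum h.eg _ fun b _ => eg_vroY h (hY' b).eg (hL' b).eg, hQL, ← Im_const_mul,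
      ← Im_const_mul, ← Im_add h.eg (eR.const_mul _) ((EG.sum _ fun b _ => eD b).const_mul _),
      ← Im_const_mul, ← Im_add h.eg (EG.sum _ fun b _ => eG b)
        (((eR.const_mul _).add ((EG.sum _ fun b _ => eD b).const_mul _)).const_mul _)]
    refine Im_mono hφ h.eg (EG.sum _ fun b _ => eg_vroY h (hY' b).eg (hL' b).eg)
      ((EG.sum _ fun b _ => eG b).add
        (((eR.const_mul _).add ((EG.sum _ fun b _ => eD b).const_mul _)).const_mul _))
      fun w => ?_
    have h1 : ∀ b, vroY k a ψ' b (Y' b) (L' b) w ≤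
        k ^ 2 * ∑ i, ∑ l, (Y' b w i l - Y w i l) *
          ((∑ j, L' b w i j * dv a ψ' b w j) * ∑ j, L' b w l j * dv a ψ' b w j) +
        2 * k ^ 2 * bY (Y w) (fun i => ∑ j, (l * S.A s (H712.lp a w) i j) * dv a ψ' b w j)
          (fun i => ∑ j, (l * S.A s (H712.lp a w) i j) * dv a ψ' b w j) +
        2 * k ^ 2 * (n * (k * (xt + m)) ^ 2) *
          bM (Y w) (fun i j => L' b w i j - l * S.A s (H712.lp a w) i j)
            fun i j => L' b w i j - l * S.A s (H712.lp a w) i j := by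
      intro b
      unfold vroY
      rw [qY_LV_eq]
      have h2 := drift_row (hYf w) (fun i j => l * S.A s (H712.lp a w) i j) (L' b w)
        (dv a ψ' b w)
      have h3 := mul_le_mul_of_nonneg_left (dv_sq_le (b := b) (w := w) hxt hm hB hBm hdr)
        ((hYf w).bM_nonneg fun i j => L' b w i j - l * S.A s (H712.lp a w) i j)
      have e1 : bY (Y' b w) (fun i => ∑ j, L' b w i j * dv a ψ' b w j)
          (fun i => ∑ j, L' b w i j * dv a ψ' b w j) =
          (∑ i, ∑ l, (Y' b w i l - Y w i l) *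
          ((∑ j, L' b w i j * dv a ψ' b w j) * ∑ j, L' b w l j * dv a ψ' b w j)) +
          bY (Y w) (fun i => ∑ j, L' b w i j * dv a ψ' b w j)
            (fun i => ∑ j, L' b w i j * dv a ψ' b w j) := by
        unfold bY
        rw [← Finset.sum_add_distrib]
        refine Finset.sum_congr rfl fun i _ => ?_
        rw [← Finset.sum_add_distrib]
        exact Finset.sum_congr rfl fun l' _ => by ring
      rw [e1]
      have hk2 : 0 ≤ k ^ 2 := sq_nonneg k
      have h4 := mul_le_mul_of_nonneg_left h2 hk2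
      have h5 := mul_le_mul_of_nonneg_left h3 (show 0 ≤ 2 * k ^ 2 by linarith)
      linarith
    refine (Finset.sum_le_sum fun b _ => h1 b).trans ?_
    rw [Finset.sum_add_distrib, Finset.sum_add_distrib, ← Finset.mul_sum (f := fun b =>
      bY (Y w) (fun i => ∑ j, (l * S.A s (H712.lp a w) i j) * dv a ψ' b w j)
        (fun i => ∑ j, (l * S.A s (H712.lp a w) i j) * dv a ψ' b w j)),
      ← Finset.mul_sum (f := fun b =>
        bM (Y w) (fun i j => L' b w i j - l * S.A s (H712.lp a w) i j)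
            fun i j => L' b w i j - l * S.A s (H712.lp a w) i j)]
    have h6 := mul_le_mul_of_nonneg_left (drift_sum (l := l) (S := S) (s := s) (a := a)
      (ψ' := ψ') (hYf w) hB hdr w) (show 0 ≤ 2 * k ^ 2 by positivity)
    have e7 : l ^ 2 * k ^ 2 = 1 / n := by
      field_simp
      linarith [hl]
    rw [e7] at h6
    have e8 : 2 * k ^ 2 * (1 / (n : ℝ) * (fro (Wd S s a xt B w) ^ 2 *
        (mx (Y w) * (Cm S s a w * Cm S s a w)).trace)) =
        2 * (k ^ 2 / n * (fro (Wd S s a xt B w) ^ 2 *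
          (mx (Y w) * (Cm S s a w * Cm S s a w)).trace)) := by ring
    rw [e8] at h6
    linarith
  have n6 : Im φ (fun w => ∑ b, drow S s a ψ' η b Y (Y' b) (L' b) w) =
      Im φ (fun w => ∑ b, mrow S s a ψ' b (fun w i l => Y' b w i l - Y w i l) (L' b) w) -
      1 / (2 * η) * Im φ (fun w => ∑ b, k ^ 2 * ∑ i, ∑ l, (Y' b w i l - Y w i l) *
      ((∑ j, L' b w i j * dv a ψ' b w j) * ∑ j, L' b w l j * dv a ψ' b w j)) := by
    rw [← Im_const_mul, ← Im_sub h.eg (EG.sum _ fun b _ => eDr b)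
      ((EG.sum _ fun b _ => eG b).const_mul _)]
    refine Im_congr fun w => ?_
    unfold drow
    rw [Finset.sum_sub_distrib, Finset.mul_sum]
  rw [← hA, ← hQL, n2, abs_of_nonneg hk] at key
  rw [n6]
  have hQ0 := Real.sqrt_nonneg QL
  have s1 := Real.sqrt_le_sqrt n1
  have s3 := Real.sqrt_le_sqrt n3
  have t1 := mul_le_mul_of_nonneg_left s1 (show 0 ≤ 2 * (k ^ 2 * vr a) by linarith)
  have t3 := mul_le_mul_of_nonneg_left s3 hk
  have t4 := mul_le_mul_of_nonneg_left (add_le_add (add_le_add t1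
    (le_refl (2 * (k ^ 2 * vr a) * √(n * l ^ 2 * A)))) t3) hQ0
  have t5 := mul_le_mul_of_nonneg_left n5 (show 0 ≤ 1 / (2 * η) by positivity)
  have e9 : 1 / (2 * η) * (Im φ (fun w => ∑ b, k ^ 2 * ∑ i, ∑ l, (Y' b w i l - Y w i l) *
      ((∑ j, L' b w i j * dv a ψ' b w j) * ∑ j, L' b w l j * dv a ψ' b w j)) +
      2 * (k ^ 2 / n * Im φ (fun w => fro (Wd S s a xt B w) ^ 2 *
          (mx (Y w) * (Cm S s a w * Cm S s a w)).trace) +
          k ^ 2 * (n * (k * (xt + m)) ^ 2) * QL)) =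
      1 / (2 * η) * Im φ (fun w => ∑ b, k ^ 2 * ∑ i, ∑ l, (Y' b w i l - Y w i l) *
      ((∑ j, L' b w i j * dv a ψ' b w j) * ∑ j, L' b w l j * dv a ψ' b w j)) +
      1 / η * (k ^ 2 / n * Im φ (fun w => fro (Wd S s a xt B w) ^ 2 *
          (mx (Y w) * (Cm S s a w * Cm S s a w)).trace) +
          k ^ 2 * (n * (k * (xt + m)) ^ 2) * QL) := by
    field_simp
  rw [e9] at t5
  linarith

end Vale.Agent.P146.H191
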