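import Vale.Agent.P146.H191.FYF

/-!
Plan R2, row B9: (F1) in numbers, second order of unfreezing: first `L` with the frozen weights
`Y' b`, then the weight with `L = l C` not frozen.
-/

open MeasureTheory ProbabilityTheory Finset Matrix

namespace Vale.Agent.P146.H191

open Vale.Agent.P157.Lv Vale.Agent.P146.H425 Vale.Agent.P146.H325 Vale.Agent.P146.H332
  Vale.Agent.P146.H712 Vale.Agent.P146.R1 Vale.Agent.P146.R1C Vale.Agent.P146.H706
  Vale.Agent.P146.R1S
open Vale.Agent.P146.H941 (od mx mx_apply tr_two tr_mul_nonneg Cm Cm_T Cm_comm od_Cm dv_eq eg_Cm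
  eg_od eg_mulm eg_tr sum_mrow qY_cross nl eg_nl)

set_option linter.unusedSectionVars false

section det

variable {n : ℕ} {Y C : Fin n → Fin n → ℝ}

/-- `(C v)(C v)' ≤ <v, C v> C` in the form `Y` -/
lemma Pf.vec_form (hY : Pf Y) (hC : Pf C) (v : Fin n → ℝ) :
    bY Y (fun i => ∑ j, C i j * v j) (fun i => ∑ j, C i j * v j) ≤
      bY C v v * ∑ i, ∑ l, Y i l * C i l := by
  set u : Fin n → ℝ := fun i => ∑ j, C i j * v j with hu
  have hM : Pf fun i l => bY C v v * C i l - u i * u l := by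
    refine ⟨fun i l => ?_, fun f => ?_⟩
    · rw [hC.sy i l]; ring
    · have h1 : bY C f v = ∑ i, f i * u i := by
        unfold bY
        refine Finset.sum_congr rfl fun i _ => ?_
        rw [hu]
        simp only
        rw [Finset.mul_sum]
        exact Finset.sum_congr rfl fun l _ => by ring
      have h2 : bY C f v ^ 2 ≤ bY C f f * bY C v v := by
        have h := hC.cs f v
        have h3 := pow_le_pow_left₀ (abs_nonneg _) h 2
        rw [sq_abs, mul_pow, hC.vn_sq, hC.vn_sq] at h3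
        exact h3
      have e : ∑ i, ∑ l, (bY C v v * C i l - u i * u l) * (f i * f l) =
          bY C v v * bY C f f - (∑ i, f i * u i) ^ 2 := by
        rw [pow_two, Finset.sum_mul_sum]
        conv_rhs => unfold bY
        rw [Finset.mul_sum, ← Finset.sum_sub_distrib]
        refine Finset.sum_congr rfl fun i _ => ?_
        rw [Finset.mul_sum, ← Finset.sum_sub_distrib]
        refine Finset.sum_congr rfl fun l _ => ?_
        unfold bY
        ring
      rw [e, ← h1]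
      linarith
  have h := hY.tr_nonneg hM
  have e : ∑ i, ∑ l, Y i l * (bY C v v * C i l - u i * u l) =
      bY C v v * (∑ i, ∑ l, Y i l * C i l) - bY Y u u := by
    rw [Finset.mul_sum]
    have e1 : bY Y u u = ∑ i, ∑ l, Y i l * (u i * u l) := rfl
    rw [e1, ← Finset.sum_sub_distrib]
    refine Finset.sum_congr rfl fun i _ => ?_
    rw [Finset.mul_sum, ← Finset.sum_sub_distrib]
    exact Finset.sum_congr rfl fun l _ => by ring
  rw [e] at h
  linarith

/-- `(C²)_bb ≤ |C| C_bb` -/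
lemma Pf.col_sq (hC : Pf C) (b : Fin n) : ∑ j, C j b ^ 2 ≤ fro C * C b b := by
  have h := hC.mulVec_sq (fun _ => le_rfl) fun i => if i = b then (1 : ℝ) else 0
  have e1 : ∀ j, ∑ i, C i j * (if i = b then (1 : ℝ) else 0) = C j b := by
    intro j
    simp only [mul_ite, mul_one, mul_zero, Finset.sum_ite_eq', Finset.mem_univ, if_true]
    exact hC.sy b j
  have e2 : bY C (fun i => if i = b then (1 : ℝ) else 0) (fun i => if i = b then 1 else 0) =
      C b b := by
    unfold bY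
    simp
  simp only [e1] at h
  rw [e2] at h
  exact h

end det

variable {n : ℕ} {k x : ℝ} {S : CS n k x} {s : ℝ} {φ : (K4 (Pair n) → ℝ) → ℝ}
  {ψ' : K4 (Pair n) → (K4 (Pair n) → ℝ) → ℝ} {a : Fin 4 → ℝ}

lemma od_sq_le (M : Matrix (Fin n) (Fin n) ℝ) (b : Fin n) :
    ∑ j, od M j b ^ 2 ≤ ∑ j, M j b ^ 2 := by
  refine Finset.sum_le_sum fun j _ => ?_
  unfold od
  split_ifs
  · rw [zero_pow two_ne_zero]
    exact sq_nonneg _
  · exact le_rfl

/-- the size of the drift of a row, with the Frobenius norms -/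
lemma dv_sq_le2 {xt m : ℝ} (_hm : 0 ≤ m) {B : MF n}
    (hB : ∀ w i j, B w i j = B w j i) (hBm : ∀ w i j, |B w i j| ≤ m) (hBp : ∀ w, Pf (B w))
    (hdr : ∀ e w, dr a ψ' e w =
      k * (xt * S.A s (H712.lp a w) e.1.1 e.1.2 - B w e.1.1 e.1.2)) (b : Fin n)
    (w : K4 (Pair n) → ℝ) :
    ven (dv a ψ' b w) ^ 2 ≤ 2 * k ^ 2 * (xt ^ 2 * fro (Cm S s a w) + m * fro (B w)) := by
  rw [ven_sq]
  have h1 : ∀ j, dv a ψ' b w j ^ 2 ≤
      2 * k ^ 2 * (xt ^ 2 * od (Cm S s a w) j b ^ 2 + od (B w) j b ^ 2) := by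
    intro j
    rw [dv_eq hB hdr]
    have h2 := sq_nonneg (k * (xt * od (Cm S s a w) j b + od (B w) j b))
    nlinarith [h2]
  refine (Finset.sum_le_sum fun j _ => h1 j).trans ?_
  rw [← Finset.mul_sum, Finset.sum_add_distrib, ← Finset.mul_sum]
  refine mul_le_mul_of_nonneg_left ?_ (by positivity)
  have h3 : ∑ j, od (Cm S s a w) j b ^ 2 ≤ fro (Cm S s a w) := by
    refine (od_sq_le _ b).trans ?_
    have h := (pf_A S s (H712.lp a w)).col_sq b
    rw [S.A_self, mul_one] at h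
    exact h
  have h4 : ∑ j, od (B w) j b ^ 2 ≤ m * fro (B w) := by
    refine (od_sq_le _ b).trans (((hBp w).col_sq b).trans ?_)
    rw [mul_comm]
    exact mul_le_mul_of_nonneg_right ((le_abs_self _).trans (hBm w b b)) (fro_nonneg _)
  exact add_le_add (mul_le_mul_of_nonneg_left h3 (sq_nonneg _)) h4

/-- the drift of a row as a form, `L = l C` -/
lemma drift_form {Y : Fin n → Fin n → ℝ} (hY : Pf Y) (l : ℝ) (v : Fin n → ℝ)
    (w : K4 (Pair n) → ℝ) :
    bY Y (fun i => ∑ j, (l * S.A s (H712.lp a w) i j) * v j)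
      (fun i => ∑ j, (l * S.A s (H712.lp a w) i j) * v j) ≤
      l ^ 2 * (fro (Cm S s a w) * ven v ^ 2 * (mx Y * Cm S s a w).trace) := by
  have h := hY.vec_form (pf_A S s (H712.lp a w)) v
  have e : bY Y (fun i => ∑ j, (l * S.A s (H712.lp a w) i j) * v j)
      (fun i => ∑ j, (l * S.A s (H712.lp a w) i j) * v j) =
      l ^ 2 * bY Y (fun i => ∑ j, S.A s (H712.lp a w) i j * v j)
        (fun i => ∑ j, S.A s (H712.lp a w) i j * v j) := by
    have e1 : (fun i => ∑ j, (l * S.A s (H712.lp a w) i j) * v j) =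
        fun i => l * ∑ j, S.A s (H712.lp a w) i j * v j := by
      funext i
      rw [Finset.mul_sum]
      exact Finset.sum_congr rfl fun j _ => by ring
    rw [e1]
    unfold bY
    rw [Finset.mul_sum]
    refine Finset.sum_congr rfl fun i _ => ?_
    rw [Finset.mul_sum]
    exact Finset.sum_congr rfl fun l' _ => by ring
  have e2 : (mx Y * Cm S s a w).trace = ∑ i, ∑ l, Y i l * S.A s (H712.lp a w) i l :=
    tr_sym (Y := Y) (Z := S.A s (H712.lp a w)) fun i l => S.A_comm s _ i l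
  have h0 : 0 ≤ ∑ i, ∑ l, Y i l * S.A s (H712.lp a w) i l :=
    hY.tr_nonneg (pf_A S s (H712.lp a w))
  rw [e, e2]
  refine mul_le_mul_of_nonneg_left (h.trans ?_) (sq_nonneg l)
  exact mul_le_mul_of_nonneg_right (bY_le_fro _ v) h0

/-- **The sum over the rows of (F1)**, second order of unfreezing. -/
theorem f1y_sum2 (hs : 0 < s) (h : Den φ ψ') (hφ : ∀ w, 0 ≤ φ w) {Y L : MF n}
    {Y' L' : Fin n → MF n} (hY : ∀ i l, EG fun w => Y w i l) (hYp' : ∀ b w, Pf (Y' b w))
    (hL : ∀ i l, EG fun w => L w i l)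
    (hY' : ∀ b, Frz b (Y' b)) (hL' : ∀ b, Frz b (L' b)) (hLb : ∀ b w i, L' b w i b = 0) :
    |∑ b, Im φ (nrow S s a ψ' b (Y' b) (L' b)) - Im φ (fun w => ∑ b, mrow S s a ψ' b Y L w) -
      Im φ (fun w => ∑ b, mrow S s a ψ' b (fun w i l => Y' b w i l - Y w i l) L w)| ≤
      Im φ (fun w => ∑ b, sn (Y' b w) (fun i l => L' b w i l - L w i l) *
        kro S s a ψ' b (Y' b) L (L' b) w) := by
  have e1 : ∀ b, EG (mrow S s a ψ' b (Y' b) (L' b)) := fun b =>
    eg_mrow hs h (hY' b).eg (hL' b).eg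
  have e2 : ∀ b, EG (mrow S s a ψ' b Y L) := fun b => eg_mrow hs h hY hL
  have e4 : ∀ b, EG (mrow S s a ψ' b (fun w i l => Y' b w i l - Y w i l) L) := fun b =>
    eg_mrow hs h (fun i l => ((hY' b).eg i l).sub (hY i l)) hL
  have e3 : ∀ b, EG fun w => sn (Y' b w) (fun i l => L' b w i l - L w i l) *
      kro S s a ψ' b (Y' b) L (L' b) w := fun b =>
    (eg_sn (X := fun w i l => L' b w i l - L w i l) (hY' b).eg fun i l =>
      ((hL' b).eg i l).sub (hL i l)).mul (eg_kro hs h (hY' b).eg hL (hL' b).eg)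
  have h1 : ∑ b, Im φ (nrow S s a ψ' b (Y' b) (L' b)) =
      Im φ (fun w => ∑ b, mrow S s a ψ' b (Y' b) (L' b) w) := by
    rw [Im_sum h.eg _ fun b _ => e1 b]
    exact Finset.sum_congr rfl fun b _ => f1_mrow hs h (hY' b) (hL' b) (hLb b)
  rw [h1, ← Im_sub h.eg (EG.sum _ fun b _ => e1 b) (EG.sum _ fun b _ => e2 b),
    ← Im_sub h.eg ((EG.sum _ fun b _ => e1 b).sub (EG.sum _ fun b _ => e2 b))
      (EG.sum _ fun b _ => e4 b)]
  refine Im_abs_le hφ h.eg (((EG.sum _ fun b _ => e1 b).sub (EG.sum _ fun b _ => e2 b)).sub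
    (EG.sum _ fun b _ => e4 b)) (EG.sum _ fun b _ => e3 b) fun w => ?_
  rw [← Finset.sum_sub_distrib, ← Finset.sum_sub_distrib]
  refine (Finset.abs_sum_le_sum_abs _ _).trans (Finset.sum_le_sum fun b _ => ?_)
  have e5 := mrow_lin (S := S) (s := s) (a := a) (ψ' := ψ') (b := b) (Y := Y) (Y' := Y' b)
    (L := L) (w := w)
  have e6 := mrow_subY (S := S) (s := s) (a := a) (ψ' := ψ') (b := b) (L := L) (L' := L' b)
    (hYp' b w)
  have e7 : mrow S s a ψ' b (Y' b) (L' b) w - mrow S s a ψ' b Y L w -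
      mrow S s a ψ' b (fun w i l => Y' b w i l - Y w i l) L w =
      mrow S s a ψ' b (Y' b) (L' b) w - mrow S s a ψ' b (Y' b) L w := by
    rw [e5]
    ring
  rw [e7]
  exact e6

/-- **The touch of `L` in numbers**, frozen weights. -/
theorem touchL_le2 (hs : 0 < s) (h : Den φ ψ') (hφ : ∀ w, 0 ≤ φ w) {L : MF n}
    {Y' L' : Fin n → MF n} (hY : ∀ b i l, EG fun w => Y' b w i l) (hYp : ∀ b w, Pf (Y' b w))
    (hL : ∀ i l, EG fun w => L w i l) (hL' : ∀ b i l, EG fun w => L' b w i l) :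
    Im φ (fun w => ∑ b, sn (Y' b w) (fun i l => L' b w i l - L w i l) *
      kro S s a ψ' b (Y' b) L (L' b) w) ≤
      √(Im φ fun w => ∑ b, bM (Y' b w) (fun i l => L' b w i l - L w i l)
        fun i l => L' b w i l - L w i l) *
      (2 * (k ^ 2 * vr a) * √(Im φ fun w => ∑ b, bM (Y' b w) (S.H s b (H712.lp a w))
        (S.H s b (H712.lp a w))) +
       2 * (k ^ 2 * vr a) * √(Im φ fun w => ∑ b, bM (Y' b w) (L w) (L w)) +
       |k| * √(Im φ fun w => ∑ b, bY (Y' b w) (Uv S s a b w) (Uv S s a b w) *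
        ven (dv a ψ' b w) ^ 2)) +
      k ^ 2 * vr a * Im φ fun w => ∑ b, bM (Y' b w) (fun i l => L' b w i l - L w i l)
        fun i l => L' b w i l - L w i l := by
  have hkv : 0 ≤ k ^ 2 * vr a := mul_nonneg (sq_nonneg k) (vr_nonneg a)
  have eH : ∀ b i l, EG fun w : K4 (Pair n) → ℝ => S.H s b (H712.lp a w) i l := fun b i l =>
    eg_lp a (S.eg_H hs b i l)
  have eD : ∀ b, EG fun w => sn (Y' b w) (fun i l => L' b w i l - L w i l) := fun b =>
    eg_sn (X := fun w i l => L' b w i l - L w i l) (hY b) fun i l => (hL' b i l).sub (hL i l)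
  have eSH : ∀ b, EG fun w => sn (Y' b w) (S.H s b (H712.lp a w)) := fun b =>
    eg_sn (hY b) (eH b)
  have eSL : ∀ b, EG fun w => sn (Y' b w) (L w) := fun b => eg_sn (hY b) hL
  have eUV : ∀ b, EG fun w => vn (Y' b w) (Uv S s a b w) * ven (dv a ψ' b w) := fun b =>
    (eg_vn (hY b) fun i => eg_Uv b i).mul (eg_ven fun i => eg_dv h b i)
  have eK : ∀ b, EG (kro S s a ψ' b (Y' b) L (L' b)) := fun b => eg_kro hs h (hY b) hL (hL' b)
  have c1 := Im_cs hφ h.eg eD eSH
  have c2 := Im_cs hφ h.eg eD eSL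
  have c3 := Im_cs hφ h.eg eD eUV
  have q1 : Im φ (fun w => ∑ b, sn (Y' b w) (fun i l => L' b w i l - L w i l) ^ 2) =
      Im φ fun w => ∑ b, bM (Y' b w) (fun i l => L' b w i l - L w i l)
        fun i l => L' b w i l - L w i l :=
    Im_congr fun w => Finset.sum_congr rfl fun b _ => (hYp b w).sn_sq _
  have q2 : Im φ (fun w => ∑ b, sn (Y' b w) (S.H s b (H712.lp a w)) ^ 2) =
      Im φ fun w => ∑ b, bM (Y' b w) (S.H s b (H712.lp a w)) (S.H s b (H712.lp a w)) :=
    Im_congr fun w => Finset.sum_congr rfl fun b _ => (hYp b w).sn_sq _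
  have q3 : Im φ (fun w => ∑ b, sn (Y' b w) (L w) ^ 2) =
      Im φ fun w => ∑ b, bM (Y' b w) (L w) (L w) :=
    Im_congr fun w => Finset.sum_congr rfl fun b _ => (hYp b w).sn_sq _
  have q4 : Im φ (fun w => ∑ b, (vn (Y' b w) (Uv S s a b w) * ven (dv a ψ' b w)) ^ 2) =
      Im φ fun w => ∑ b, bY (Y' b w) (Uv S s a b w) (Uv S s a b w) * ven (dv a ψ' b w) ^ 2 :=
    Im_congr fun w => Finset.sum_congr rfl fun b _ => by rw [mul_pow, (hYp b w).vn_sq]
  rw [q1, q2] at c1
  rw [q1, q3] at c2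
  rw [q1, q4] at c3
  have g1 : EG fun w => ∑ b, sn (Y' b w) (fun i l => L' b w i l - L w i l) *
      sn (Y' b w) (S.H s b (H712.lp a w)) := EG.sum _ fun b _ => (eD b).mul (eSH b)
  have g2 : EG fun w => ∑ b, sn (Y' b w) (fun i l => L' b w i l - L w i l) *
      sn (Y' b w) (L w) := EG.sum _ fun b _ => (eD b).mul (eSL b)
  have g3 : EG fun w => ∑ b, sn (Y' b w) (fun i l => L' b w i l - L w i l) *
      (vn (Y' b w) (Uv S s a b w) * ven (dv a ψ' b w)) := EG.sum _ fun b _ => (eD b).mul (eUV b)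
  have g4 : EG fun w => ∑ b, bM (Y' b w) (fun i l => L' b w i l - L w i l)
      fun i l => L' b w i l - L w i l :=
    EG.sum _ fun b _ => EG.sum _ fun j _ => EG.sum _ fun i _ => EG.sum _ fun l _ =>
      (hY b i l).mul (((hL' b i j).sub (hL i j)).mul ((hL' b l j).sub (hL l j)))
  have hmono := Im_mono hφ h.eg
    (f := fun w => ∑ b, sn (Y' b w) (fun i l => L' b w i l - L w i l) *
      kro S s a ψ' b (Y' b) L (L' b) w)
    (g := fun w => 2 * (k ^ 2 * vr a) * (∑ b, sn (Y' b w) (fun i l => L' b w i l - L w i l) *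
        sn (Y' b w) (S.H s b (H712.lp a w))) +
      2 * (k ^ 2 * vr a) * (∑ b, sn (Y' b w) (fun i l => L' b w i l - L w i l) *
        sn (Y' b w) (L w)) +
      |k| * (∑ b, sn (Y' b w) (fun i l => L' b w i l - L w i l) *
        (vn (Y' b w) (Uv S s a b w) * ven (dv a ψ' b w))) +
      k ^ 2 * vr a * ∑ b, bM (Y' b w) (fun i l => L' b w i l - L w i l)
        fun i l => L' b w i l - L w i l)
    (EG.sum _ fun b _ => (eD b).mul (eK b))
    ((((g1.const_mul _).add (g2.const_mul _)).add (g3.const_mul _)).add (g4.const_mul _))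
    fun w => by
      rw [Finset.mul_sum, Finset.mul_sum, Finset.mul_sum, Finset.mul_sum,
        ← Finset.sum_add_distrib, ← Finset.sum_add_distrib, ← Finset.sum_add_distrib]
      refine Finset.sum_le_sum fun b _ => ?_
      rw [← (hYp b w).sn_sq]
      have h1 := (hYp b w).sn_add_le (L' b w) (L w)
      have h2 := sn_nonneg (Y' b w) fun i l => L' b w i l - L w i l
      unfold kro
      have h3 : sn (Y' b w) (fun i l => L' b w i l - L w i l) * (k ^ 2 * vr a *
          (sn (Y' b w) (L' b w) + sn (Y' b w) (L w))) ≤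
          sn (Y' b w) (fun i l => L' b w i l - L w i l) * (k ^ 2 * vr a *
          (2 * sn (Y' b w) (L w) + sn (Y' b w) fun i l => L' b w i l - L w i l)) := by
        refine mul_le_mul_of_nonneg_left (mul_le_mul_of_nonneg_left ?_ hkv) h2
        linarith
      nlinarith [h3]
  rw [Im_add h.eg (((g1.const_mul _).add (g2.const_mul _)).add (g3.const_mul _)) (g4.const_mul _),
    Im_add h.eg ((g1.const_mul _).add (g2.const_mul _)) (g3.const_mul _),
    Im_add h.eg (g1.const_mul _) (g2.const_mul _), Im_const_mul, Im_const_mul, Im_const_mul,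
    Im_const_mul] at hmono
  refine hmono.trans ?_
  have d1 := mul_le_mul_of_nonneg_left c1 (show 0 ≤ 2 * (k ^ 2 * vr a) by linarith)
  have d2 := mul_le_mul_of_nonneg_left c2 (show 0 ≤ 2 * (k ^ 2 * vr a) by linarith)
  have d3 := mul_le_mul_of_nonneg_left c3 (abs_nonneg k)
  nlinarith [d1, d2, d3]

/-- **(F1) in numbers, second order of unfreezing.** `HB = E |C| tr (Ŷ C)`,
`A' = E tr (Ŷ C²)`, `UU = E ∑ <U_b, U_b>_{Y' b}`, `VB` the drift, `Ŷ = ∑ Y' b`; the touch of the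
weight is `E ∑ mrow (Y' b - Y) (l C)`. -/
theorem f1y_fin2 (hs : 0 < s) (h : Den φ ψ') (hφ : ∀ w, 0 ≤ φ w) {l xt η m : ℝ} (hk : 0 ≤ k)
    (hl : k ^ 2 * l ^ 2 * n = 1) (hl0 : 0 ≤ l) (hxt : 0 ≤ xt) (hη : 0 < η) (hm : 0 ≤ m)
    {Y B : MF n} {Y' L' : Fin n → MF n} (hY : ∀ i l, EG fun w => Y w i l)
    (hBe : ∀ i l, EG fun w => B w i l) (hYf : ∀ w, Pf (Y w)) (hB : ∀ w i j, B w i j = B w j i)
    (hBm : ∀ w i j, |B w i j| ≤ m)
    (hdr : ∀ e w, dr a ψ' e w =
      k * (xt * S.A s (H712.lp a w) e.1.1 e.1.2 - B w e.1.1 e.1.2))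
    (hY' : ∀ b, Frz b (Y' b)) (hL' : ∀ b, Frz b (L' b)) (hLb : ∀ b w i, L' b w i b = 0)
    (hYp' : ∀ b w, Pf (Y' b w)) {A A' T0 HB UU VB QL : ℝ}
    (hA : A = Im φ fun w => (mx (Y w) * (Cm S s a w * Cm S s a w)).trace)
    (hA' : A' = Im φ fun w => ∑ b, (mx (Y' b w) * (Cm S s a w * Cm S s a w)).trace)
    (hT0 : T0 = Im φ fun w => (mx (Y w)).trace)
    (hHB : HB = Im φ fun w => ∑ b, fro (Cm S s a w) * (mx (Y' b w) * Cm S s a w).trace)
    (hUU : UU = Im φ fun w => ∑ b, bY (Y' b w) (Uv S s a b w) (Uv S s a b w))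
    (hVB : VB = Im φ fun w => ∑ b, fro (Cm S s a w) * ven (dv a ψ' b w) ^ 2 *
      (mx (Y' b w) * Cm S s a w).trace)
    (hQL : QL = Im φ fun w => ∑ b, bM (Y' b w)
      (fun i j => L' b w i j - l * S.A s (H712.lp a w) i j)
      fun i j => L' b w i j - l * S.A s (H712.lp a w) i j) :
    (1 + vr a) * A - 2 * (k ^ 2 * l * vr a) * Im φ (fun w => ∑ b, (mx (Y w) *
        (Cm S s a w * S.H s b (H712.lp a w))).trace) -
      k ^ 2 * l * (xt * Im φ (fun w => (mx (Y w) *
        (Cm S s a w * (Cm S s a w * Cm S s a w))).trace) -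
        Im φ (fun w => (mx (Y w) * (Cm S s a w * (od (B w) * Cm S s a w))).trace)) +
      Im φ (fun w => ∑ b, mrow S s a ψ' b (fun w i l => Y' b w i l - Y w i l)
        (fun w i j => l * S.A s (H712.lp a w) i j) w) ≤
      (1 + η / 2) * ∑ b, Im φ (nl k S s a b (Y' b) (L' b)) +
        1 / η * (1 / n * VB + k ^ 2 * (n * (k * (xt + m)) ^ 2) * QL) +
        ((2 + k ^ 2 * l * xt) * Im φ (fun w => (mx (Y w) * Cm S s a w).trace) +
          k ^ 2 * l * (m * n * (√A * √T0))) +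
        (√QL * (2 * (k ^ 2 * vr a) * √HB + 2 * (k ^ 2 * vr a) * √(l ^ 2 * A') +
           k * √(n * (k * (xt + m)) ^ 2 * UU)) + k ^ 2 * vr a * QL) := by
  have eL : ∀ i j, EG fun w : K4 (Pair n) → ℝ => l * S.A s (H712.lp a w) i j := fun i j =>
    (eg_lp a (S.eg_A s i j)).const_mul l
  have eC : ∀ i j, EG fun w : K4 (Pair n) → ℝ => Cm S s a w i j := fun i j => eg_Cm i j
  have eY : ∀ i j, EG fun w : K4 (Pair n) → ℝ => mx (Y w) i j := hY
  have eY' : ∀ b i j, EG fun w : K4 (Pair n) → ℝ => mx (Y' b w) i j := fun b => (hY' b).eg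
  have eH : ∀ b i j, EG fun w : K4 (Pair n) → ℝ => S.H s b (H712.lp a w) i j := fun b i j =>
    eg_lp a (S.eg_H hs b i j)
  have eT : EG fun w => (mx (Y w)).trace := eg_tr eY
  have g1 : EG fun w => (mx (Y w) * (Cm S s a w * Cm S s a w)).trace :=
    eg_tr (eg_mulm eY (eg_mulm eC eC))
  have g2 : EG fun w => ∑ b, (mx (Y w) * (Cm S s a w * S.H s b (H712.lp a w))).trace :=
    EG.sum _ fun b _ => eg_tr (eg_mulm eY (eg_mulm eC (eH b)))
  have g3 : EG fun w => (mx (Y w) * (Cm S s a w * (Cm S s a w * Cm S s a w))).trace :=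
    eg_tr (eg_mulm eY (eg_mulm eC (eg_mulm eC eC)))
  have g4 : EG fun w => (mx (Y w) * (Cm S s a w * (od (B w) * Cm S s a w))).trace :=
    eg_tr (eg_mulm eY (eg_mulm eC (eg_mulm (fun i j => eg_od hBe i j) eC)))
  have g5 : EG (dgY S s a l xt Y B) := eg_dgY hY hBe
  have g6 : EG fun w => ∑ b, mrow S s a ψ' b Y (fun w i j => l * S.A s (H712.lp a w) i j) w :=
    EG.sum _ fun b _ => eg_mrow hs h hY eL
  have eYC : EG fun w => (mx (Y w) * Cm S s a w).trace := eg_tr (eg_mulm eY eC)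
  have eU : ∀ b, EG fun w => bY (Y' b w) (Uv S s a b w) (Uv S s a b w) := fun b =>
    EG.sum _ fun i _ => EG.sum _ fun l _ => ((hY' b).eg i l).mul ((eg_Uv b i).mul (eg_Uv b l))
  have eV : ∀ b, EG fun w => ven (dv a ψ' b w) ^ 2 := fun b =>
    (eg_ven fun i => eg_dv h b i).pow 2
  have eD : ∀ b, EG fun w => bM (Y' b w) (fun i j => L' b w i j - l * S.A s (H712.lp a w) i j)
      fun i j => L' b w i j - l * S.A s (H712.lp a w) i j := fun b =>
    EG.sum _ fun j _ => EG.sum _ fun i _ => EG.sum _ fun m' _ =>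
      ((hY' b).eg i m').mul ((((hL' b).eg i j).sub (eL i j)).mul
        (((hL' b).eg m' j).sub (eL m' j)))
  have hPA : ∀ w, 0 ≤ (mx (Y w) * (Cm S s a w * Cm S s a w)).trace := fun w => by
    have h1 := (hYf w).bM_nonneg fun i j => 1 * S.A s (H712.lp a w) i j
    rw [bM_lC] at h1
    simpa using h1
  have hPT : ∀ w, 0 ≤ (mx (Y w)).trace := fun w => (hYf w).pos.trace_nonneg
  have hkv : 0 ≤ k ^ 2 * vr a := mul_nonneg (sq_nonneg k) (vr_nonneg a)
  have hn0 : (n : ℝ) ≠ 0 := by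
    intro h0
    rw [h0, mul_zero] at hl
    exact zero_ne_one hl
  have hn : 0 < (n : ℝ) := lt_of_le_of_ne (Nat.cast_nonneg n) hn0.symm
  have key := f1y_sum2 (S := S) (a := a) hs h hφ hY hYp' eL hY' hL' hLb
  have key2 := (abs_le.1 key).1
  have tch := touchL_le2 (S := S) (a := a) hs h hφ (fun b => (hY' b).eg) hYp' eL
    fun b => (hL' b).eg
  rw [abs_of_nonneg hk, ← hQL] at tch
  -- lower bound of the main term
  have low := Im_mono hφ h.eg (f := fun w => (1 + vr a) * (mx (Y w) *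
      (Cm S s a w * Cm S s a w)).trace - 2 * (k ^ 2 * l * vr a) *
      ∑ b, (mx (Y w) * (Cm S s a w * S.H s b (H712.lp a w))).trace -
      k ^ 2 * l * (xt * (mx (Y w) * (Cm S s a w * (Cm S s a w * Cm S s a w))).trace -
        (mx (Y w) * (Cm S s a w * (od (B w) * Cm S s a w))).trace) - dgY S s a l xt Y B w)
    ((((g1.const_mul _).sub (g2.const_mul _)).sub (((g3.const_mul _).sub g4).const_mul _)).sub g5)
    g6 fun w => sum_mrow_lowY hl hl0 hxt hB (fun w => (hYf w).pos) hdr w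
  rw [Im_sub h.eg (((g1.const_mul _).sub (g2.const_mul _)).sub
      (((g3.const_mul _).sub g4).const_mul _)) g5,
    Im_sub h.eg ((g1.const_mul _).sub (g2.const_mul _)) (((g3.const_mul _).sub g4).const_mul _),
    Im_sub h.eg (g1.const_mul _) (g2.const_mul _), Im_const_mul, Im_const_mul, Im_const_mul,
    Im_sub h.eg (g3.const_mul _) g4, Im_const_mul, ← hA] at low
  -- the left side
  have up : ∑ b, Im φ (nrow S s a ψ' b (Y' b) (L' b)) ≤
      (1 + η / 2) * ∑ b, Im φ (nl k S s a b (Y' b) (L' b)) +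
        1 / (2 * η) * ∑ b, Im φ (vroY k a ψ' b (Y' b) (L' b)) := by
    rw [Finset.mul_sum, Finset.mul_sum, ← Finset.sum_add_distrib]
    refine Finset.sum_le_sum fun b _ => ?_
    rw [← Im_const_mul, ← Im_const_mul, ← Im_add h.eg
      ((eg_nl (hY' b).eg (hL' b).eg).const_mul _) ((eg_vroY h (hY' b).eg (hL' b).eg).const_mul _)]
    exact Im_mono hφ h.eg (eg_nrow h (hY' b).eg (hL' b).eg)
      (((eg_nl (hY' b).eg (hL' b).eg).const_mul _).add
        ((eg_vroY h (hY' b).eg (hL' b).eg).const_mul _)) fun w =>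
      nrow_leY (hY' b).sy (fun w => (hYp' b w).ps) hη w
  -- the numbers
  have n1 : Im φ (fun w => ∑ b, bM (Y' b w) (S.H s b (H712.lp a w)) (S.H s b (H712.lp a w))) ≤
      HB := by
    rw [hHB]
    exact Im_mono hφ h.eg (EG.sum _ fun b _ => EG.sum _ fun j _ => EG.sum _ fun i _ =>
      EG.sum _ fun l _ => ((hY' b).eg i l).mul ((eH b i j).mul (eH b l j)))
      (EG.sum _ fun b _ => (eg_fro eC).mul (eg_tr (eg_mulm (eY' b) eC))) fun w =>
      Finset.sum_le_sum fun b _ => bM_H_le (hYp' b w) hs b w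
  have n2 : Im φ (fun w => ∑ b, bM (Y' b w) (fun i j => l * S.A s (H712.lp a w) i j)
      fun i j => l * S.A s (H712.lp a w) i j) = l ^ 2 * A' := by
    rw [hA', ← Im_const_mul]
    refine Im_congr fun w => ?_
    rw [Finset.mul_sum]
    exact Finset.sum_congr rfl fun b _ => bM_lC _ l w
  have n3 : Im φ (fun w => ∑ b, bY (Y' b w) (Uv S s a b w) (Uv S s a b w) *
      ven (dv a ψ' b w) ^ 2) ≤ n * (k * (xt + m)) ^ 2 * UU := by
    rw [hUU, ← Im_const_mul]
    refine Im_mono hφ h.eg (EG.sum _ fun b _ => (eU b).mul (eV b))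
      ((EG.sum _ fun b _ => eU b).const_mul _) fun w => ?_
    rw [Finset.mul_sum]
    refine Finset.sum_le_sum fun b _ => ?_
    rw [mul_comm]
    exact mul_le_mul_of_nonneg_right (dv_sq_le hxt hm hB hBm hdr b w) ((hYp' b w).bY_nonneg _)
  have n4 : Im φ (dgY S s a l xt Y B) ≤
      (2 + k ^ 2 * l * xt) * Im φ (fun w => (mx (Y w) * Cm S s a w).trace) +
        k ^ 2 * l * (m * n * (√A * √T0)) := by
    have h1 := Im_cs1 hφ h.eg (eg_sqrt g1) (eg_sqrt eT)
    have e1 : Im φ (fun w => √((mx (Y w) * (Cm S s a w * Cm S s a w)).trace) ^ 2) = A := by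
      rw [hA]
      exact Im_congr fun w => Real.sq_sqrt (hPA w)
    have e2 : Im φ (fun w => √((mx (Y w)).trace) ^ 2) = T0 := by
      rw [hT0]
      exact Im_congr fun w => Real.sq_sqrt (hPT w)
    rw [e1, e2] at h1
    have h2 := Im_mono hφ h.eg (f := dgY S s a l xt Y B)
      (g := fun w => (2 + k ^ 2 * l * xt) * (mx (Y w) * Cm S s a w).trace +
        k ^ 2 * l * (m * n) * (√(mx (Y w) * (Cm S s a w * Cm S s a w)).trace *
          √(mx (Y w)).trace))
      (eg_dgY hY hBe) ((eYC.const_mul _).add (((eg_sqrt g1).mul (eg_sqrt eT)).const_mul _))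
      fun w => by
        unfold dgY
        have h3 := mul_le_mul_of_nonneg_left
          (tr_CB_le (S := S) (s := s) (a := a) (hYf w) hm hB hBm w)
          (mul_nonneg (sq_nonneg k) hl0)
        linarith
    rw [Im_add h.eg (eYC.const_mul _) (((eg_sqrt g1).mul (eg_sqrt eT)).const_mul _),
      Im_const_mul, Im_const_mul] at h2
    have h4 := mul_le_mul_of_nonneg_left h1
      (show 0 ≤ k ^ 2 * l * (m * n) by positivity)
    linarith
  -- the drift
  have eVB : EG fun w => ∑ b, fro (Cm S s a w) * ven (dv a ψ' b w) ^ 2 *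
      (mx (Y' b w) * Cm S s a w).trace := EG.sum _ fun b _ =>
    ((eg_fro eC).mul (eV b)).mul (eg_tr (eg_mulm (eY' b) eC))
  have n5 : ∑ b, Im φ (vroY k a ψ' b (Y' b) (L' b)) ≤
      2 * (1 / n * VB + k ^ 2 * (n * (k * (xt + m)) ^ 2) * QL) := by
    rw [← Im_sum h.eg _ fun b _ => eg_vroY h (hY' b).eg (hL' b).eg, hQL, hVB, ← Im_const_mul,
      ← Im_const_mul, ← Im_add h.eg (eVB.const_mul _) ((EG.sum _ fun b _ => eD b).const_mul _),
      ← Im_const_mul]
    refine Im_mono hφ h.eg (EG.sum _ fun b _ => eg_vroY h (hY' b).eg (hL' b).eg)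
      (((eVB.const_mul _).add ((EG.sum _ fun b _ => eD b).const_mul _)).const_mul _)
      fun w => ?_
    rw [Finset.mul_sum, Finset.mul_sum, ← Finset.sum_add_distrib, Finset.mul_sum]
    refine Finset.sum_le_sum fun b _ => ?_
    unfold vroY
    rw [qY_LV_eq]
    have h2 := drift_row (hYp' b w) (fun i j => l * S.A s (H712.lp a w) i j) (L' b w)
      (dv a ψ' b w)
    have h3 := mul_le_mul_of_nonneg_left (dv_sq_le (b := b) (w := w) hxt hm hB hBm hdr)
      ((hYp' b w).bM_nonneg fun i j => L' b w i j - l * S.A s (H712.lp a w) i j)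
    have h6 := drift_form (S := S) (s := s) (a := a) (hYp' b w) l (dv a ψ' b w) w
    have hk2 : 0 ≤ k ^ 2 := sq_nonneg k
    have h4 := mul_le_mul_of_nonneg_left h2 hk2
    have h5 := mul_le_mul_of_nonneg_left h3 (show 0 ≤ 2 * k ^ 2 by linarith)
    have h7 := mul_le_mul_of_nonneg_left h6 (show 0 ≤ 2 * k ^ 2 by linarith)
    have e7 : 2 * k ^ 2 * (l ^ 2 * (fro (Cm S s a w) * ven (dv a ψ' b w) ^ 2 *
        (mx (Y' b w) * Cm S s a w).trace)) =
        2 * (1 / n * (fro (Cm S s a w) * ven (dv a ψ' b w) ^ 2 *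
        (mx (Y' b w) * Cm S s a w).trace)) := by
      have e8 : k ^ 2 * l ^ 2 = 1 / n := by
        field_simp
        linarith [hl]
      calc _ = 2 * ((k ^ 2 * l ^ 2) * (fro (Cm S s a w) * ven (dv a ψ' b w) ^ 2 *
        (mx (Y' b w) * Cm S s a w).trace)) := by ring
        _ = _ := by rw [e8]
    rw [e7] at h7
    linarith
  have hQ0 := Real.sqrt_nonneg QL
  have s1 := Real.sqrt_le_sqrt n1
  have s3 := Real.sqrt_le_sqrt n3
  rw [n2] at tch
  have t1 := mul_le_mul_of_nonneg_left s1 (show 0 ≤ 2 * (k ^ 2 * vr a) by linarith)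
  have t3 := mul_le_mul_of_nonneg_left s3 hk
  have t4 := mul_le_mul_of_nonneg_left (add_le_add (add_le_add t1
    (le_refl (2 * (k ^ 2 * vr a) * √(l ^ 2 * A')))) t3) hQ0
  have t5 := mul_le_mul_of_nonneg_left n5 (show 0 ≤ 1 / (2 * η) by positivity)
  have e9 : 1 / (2 * η) * (2 * (1 / n * VB + k ^ 2 * (n * (k * (xt + m)) ^ 2) * QL)) =
      1 / η * (1 / n * VB + k ^ 2 * (n * (k * (xt + m)) ^ 2) * QL) := by
    field_simp
  rw [e9] at t5
  linarith

end Vale.Agent.P146.H191
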