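import Vale.Agent.P146.H191.FYS

/-!
Plan R2, row B9: (F1) summed over the rows as an inequality of numbers; all errors in the seminorm
of the weight `Y`, the touch of `Y` is kept as it is.
-/

open MeasureTheory ProbabilityTheory Finset Matrix

namespace Vale.Agent.P146.H191

open Vale.Agent.P157.Lv Vale.Agent.P146.H425 Vale.Agent.P146.H325 Vale.Agent.P146.H332
  Vale.Agent.P146.H712 Vale.Agent.P146.R1 Vale.Agent.P146.R1C Vale.Agent.P146.H706
  Vale.Agent.P146.R1S
open Vale.Agent.P146.H941 (od mx mx_apply tr_two tr_mul_nonneg Cm Cm_T Cm_comm od_Cm dv_eq eg_Cm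
  eg_od eg_mulm eg_tr sum_mrow qY_cross nl eg_nl)

set_option linter.unusedSectionVars false

variable {n : ℕ} {k x : ℝ} {S : CS n k x} {s : ℝ} {φ : (K4 (Pair n) → ℝ) → ℝ}
  {ψ' : K4 (Pair n) → (K4 (Pair n) → ℝ) → ℝ} {a : Fin 4 → ℝ}

/-! ### Cauchy-Schwarz for the mean -/

lemma Im_nonneg (hφ : ∀ w, 0 ≤ φ w) {f : (K4 (Pair n) → ℝ) → ℝ} (hf : ∀ w, 0 ≤ f w) :
    0 ≤ Im φ f := integral_nonneg fun w => mul_nonneg (hφ w) (hf w)

/-- Cauchy-Schwarz for a sum of means. -/
lemma Im_cs (hφ : ∀ w, 0 ≤ φ w) (h : EG φ) {f g : Fin n → (K4 (Pair n) → ℝ) → ℝ}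
    (hf : ∀ b, EG (f b)) (hg : ∀ b, EG (g b)) :
    Im φ (fun w => ∑ b, f b w * g b w) ≤
      √(Im φ fun w => ∑ b, f b w ^ 2) * √(Im φ fun w => ∑ b, g b w ^ 2) := by
  set P := Im φ fun w => ∑ b, f b w ^ 2 with hP
  set Q := Im φ fun w => ∑ b, g b w ^ 2 with hQ
  set R := Im φ (fun w => ∑ b, f b w * g b w) with hR
  have eP : EG fun w => ∑ b, f b w ^ 2 := EG.sum _ fun b _ => (hf b).pow 2
  have eQ : EG fun w => ∑ b, g b w ^ 2 := EG.sum _ fun b _ => (hg b).pow 2
  have eR : EG fun w => ∑ b, f b w * g b w := EG.sum _ fun b _ => (hf b).mul (hg b)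
  have hP0 : 0 ≤ P := Im_nonneg hφ fun w => Finset.sum_nonneg fun b _ => sq_nonneg _
  have hQ0 : 0 ≤ Q := Im_nonneg hφ fun w => Finset.sum_nonneg fun b _ => sq_nonneg _
  have key : ∀ t : ℝ, 0 ≤ Q * (t * t) + (-2 * R) * t + P := by
    intro t
    have h1 : 0 ≤ Im φ (fun w => ∑ b, (f b w - t * g b w) ^ 2) :=
      Im_nonneg hφ fun w => Finset.sum_nonneg fun b _ => sq_nonneg _
    have e : Im φ (fun w => ∑ b, (f b w - t * g b w) ^ 2) = P - 2 * t * R + t ^ 2 * Q := by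
      rw [hP, hQ, hR, ← Im_const_mul, ← Im_const_mul, ← Im_sub h eP (eR.const_mul _),
        ← Im_add h (eP.sub (eR.const_mul _)) (eQ.const_mul _)]
      refine Im_congr fun w => ?_
      rw [Finset.mul_sum, Finset.mul_sum, ← Finset.sum_sub_distrib, ← Finset.sum_add_distrib]
      exact Finset.sum_congr rfl fun b _ => by ring
    rw [e] at h1
    linarith [h1, show t ^ 2 * Q = Q * (t * t) by ring]
  have hd := discrim_le_zero key
  unfold discrim at hd
  have h2 : R ^ 2 ≤ P * Q := by nlinarith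
  rw [← Real.sqrt_mul hP0]
  exact (le_abs_self _).trans (Real.abs_le_sqrt h2)

/-! ### the diagonal -/

/-- The error of the diagonal elements, as forms. -/
noncomputable def dgY (S : CS n k x) (s : ℝ) (a : Fin 4 → ℝ) (l xt : ℝ) (Y B : MF n)
    (w : K4 (Pair n) → ℝ) : ℝ :=
  (2 + k ^ 2 * l * xt) * (mx (Y w) * Cm S s a w).trace +
    k ^ 2 * l * |(mx (Y w) * (Cm S s a w * od (B w))).trace|

/-- **The main term of (F1), lower bound**, no norm of `Y`. -/
theorem sum_mrow_lowY {l xt : ℝ} (hl : k ^ 2 * l ^ 2 * n = 1) (hl0 : 0 ≤ l) (hxt : 0 ≤ xt)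
    {Y B : MF n} (hB : ∀ w i j, B w i j = B w j i) (hY : ∀ w, (mx (Y w)).PosSemidef)
    (hdr : ∀ e w, dr a ψ' e w =
      k * (xt * S.A s (H712.lp a w) e.1.1 e.1.2 - B w e.1.1 e.1.2)) (w : K4 (Pair n) → ℝ) :
    (1 + vr a) * (mx (Y w) * (Cm S s a w * Cm S s a w)).trace -
      2 * (k ^ 2 * l * vr a) * ∑ b, (mx (Y w) * (Cm S s a w * S.H s b (H712.lp a w))).trace -
      k ^ 2 * l * (xt * (mx (Y w) * (Cm S s a w * (Cm S s a w * Cm S s a w))).trace -
        (mx (Y w) * (Cm S s a w * (od (B w) * Cm S s a w))).trace) - dgY S s a l xt Y B w ≤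
      ∑ b, mrow S s a ψ' b Y (fun w i j => l * S.A s (H712.lp a w) i j) w := by
  rw [sum_mrow hl hB hdr, od_Cm]
  obtain ⟨C, hC⟩ : ∃ C, C = Cm S s a w := ⟨_, rfl⟩
  unfold dgY
  rw [← hC]
  have hCt : Cᵀ = C := by rw [hC]; exact Cm_T S s a w
  have h1 : (mx (Y w) * ((C - 1) * (C - 1))).trace =
      (mx (Y w) * (C * C)).trace - 2 * (mx (Y w) * C).trace + (mx (Y w)).trace := by
    simp only [Matrix.sub_mul, Matrix.mul_sub, Matrix.mul_one, Matrix.one_mul, Matrix.trace_sub]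
    ring
  have h2 : (mx (Y w) * (C * ((C - 1) * (C - 1)))).trace =
      (mx (Y w) * (C * (C * C))).trace - 2 * (mx (Y w) * (C * C)).trace +
        (mx (Y w) * C).trace := by
    simp only [Matrix.sub_mul, Matrix.mul_sub, Matrix.mul_one, Matrix.one_mul, Matrix.trace_sub]
    ring
  have h3 : (mx (Y w) * (C * (od (B w) * (C - 1)))).trace =
      (mx (Y w) * (C * (od (B w) * C))).trace - (mx (Y w) * (C * od (B w))).trace := by
    simp only [Matrix.sub_mul, Matrix.mul_sub, Matrix.mul_one, Matrix.one_mul, Matrix.trace_sub]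
  have h4 : 0 ≤ (mx (Y w)).trace := (hY w).trace_nonneg
  have h5 : 0 ≤ (mx (Y w) * (C * C)).trace := by
    have hCC : (C * C).PosSemidef := by
      have := Matrix.posSemidef_conjTranspose_mul_self C
      rwa [Matrix.conjTranspose_eq_transpose_of_trivial, hCt] at this
    exact tr_mul_nonneg (hY w) hCC
  have h7 := le_abs_self (mx (Y w) * (C * od (B w))).trace
  rw [h1, h2, h3]
  have hk : 0 ≤ k ^ 2 * l := mul_nonneg (sq_nonneg k) hl0
  have hkx : 0 ≤ k ^ 2 * l * xt := mul_nonneg hk hxt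
  have p2 := mul_le_mul_of_nonneg_left h7 hk
  have p3 := mul_nonneg hkx h5
  nlinarith [p2, p3, h4]

lemma eg_dgY {l xt : ℝ} {Y B : MF n} (hY : ∀ i l, EG fun w => Y w i l)
    (hB : ∀ i l, EG fun w => B w i l) : EG (dgY S s a l xt Y B) := by
  have eY : ∀ i j, EG fun w : K4 (Pair n) → ℝ => mx (Y w) i j := hY
  have eC : ∀ i j, EG fun w : K4 (Pair n) → ℝ => Cm S s a w i j := fun i j => eg_Cm i j
  have g1 : EG fun w => (mx (Y w) * Cm S s a w).trace := eg_tr (eg_mulm eY eC)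
  have g2 : EG fun w => (mx (Y w) * (Cm S s a w * od (B w))).trace :=
    eg_tr (eg_mulm eY (eg_mulm eC fun i j => eg_od hB i j))
  have g3 : EG fun w => |(mx (Y w) * (Cm S s a w * od (B w))).trace| := by
    have e : (fun w => |(mx (Y w) * (Cm S s a w * od (B w))).trace|) =
        fun w => √((mx (Y w) * (Cm S s a w * od (B w))).trace ^ 2) := by
      funext w
      rw [Real.sqrt_sq_eq_abs]
    rw [e]
    exact eg_sqrt (g2.pow 2)
  exact (g1.const_mul _).add (g3.const_mul _)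

/-! ### the left side -/

/-- The drift part of the row `b`, as a form. -/
noncomputable def vroY (k : ℝ) (a : Fin 4 → ℝ) (ψ' : K4 (Pair n) → (K4 (Pair n) → ℝ) → ℝ)
    (b : Fin n) (Y L : MF n) (w : K4 (Pair n) → ℝ) : ℝ :=
  k ^ 2 * qY Y (LV a b ψ' L) (LV a b ψ' L) w

lemma nrow_leY {b : Fin n} {Y L : MF n} (hs : ∀ w i l, Y w i l = Y w l i)
    (hY : ∀ w, ∀ v : Fin n → ℝ, 0 ≤ ∑ i, ∑ l, Y w i l * (v i * v l)) {η : ℝ} (hη : 0 < η)
    (w : K4 (Pair n) → ℝ) :
    nrow S s a ψ' b Y L w ≤ (1 + η / 2) * nl k S s a b Y L w +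
      1 / (2 * η) * vroY k a ψ' b Y L w := by
  have h1 := qY_cross hs (hY w) (Nr a k b L (Uz S s b)) (LV a b ψ' L) hη k
  unfold nrow nl vroY
  nlinarith [h1]

lemma eg_vroY (h : Den φ ψ') {b : Fin n} {Y L : MF n} (hY : ∀ i l, EG fun w => Y w i l)
    (hL : ∀ i l, EG fun w => L w i l) : EG (vroY k a ψ' b Y L) :=
  (eg_qY hY (fun i => eg_LV h hL i) fun i => eg_LV h hL i).const_mul _

/-! ### the touch of `L` in numbers -/

lemma Pf.sn_add_le {Y : Fin n → Fin n → ℝ} (h : Pf Y) (X Z : Fin n → Fin n → ℝ) :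
    sn Y X ≤ sn Y Z + sn Y fun i j => X i j - Z i j := by
  have e : bM Y X X = bM Y Z Z + 2 * bM Y Z (fun i j => X i j - Z i j) +
      bM Y (fun i j => X i j - Z i j) fun i j => X i j - Z i j := by
    unfold bM
    rw [Finset.mul_sum, ← Finset.sum_add_distrib, ← Finset.sum_add_distrib]
    refine Finset.sum_congr rfl fun j _ => ?_
    rw [bY_sub_right, bY_sub_left, bY_sub_right, bY_sub_right, h.comm (fun i => X i j)
      fun i => Z i j]
    ring
  have h1 := (abs_le.1 (h.csM Z fun i j => X i j - Z i j)).2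
  have h2 : sn Y X ^ 2 ≤ (sn Y Z + sn Y fun i j => X i j - Z i j) ^ 2 := by
    rw [h.sn_sq, e, add_pow_two, h.sn_sq, h.sn_sq]
    linarith
  exact (abs_le_of_sq_le_sq' h2 (add_nonneg (sn_nonneg _ _) (sn_nonneg _ _))).2

/-- **The touch of `L` in numbers.** -/
theorem touchL_le (hs : 0 < s) (h : Den φ ψ') (hφ : ∀ w, 0 ≤ φ w) {Y L : MF n}
    {L' : Fin n → MF n} (hY : ∀ i l, EG fun w => Y w i l) (hYp : ∀ w, Pf (Y w))
    (hL : ∀ i l, EG fun w => L w i l) (hL' : ∀ b i l, EG fun w => L' b w i l) :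
    Im φ (fun w => ∑ b, sn (Y w) (fun i l => L' b w i l - L w i l) *
      kro S s a ψ' b Y L (L' b) w) ≤
      √(Im φ fun w => ∑ b, bM (Y w) (fun i l => L' b w i l - L w i l)
        fun i l => L' b w i l - L w i l) *
      (2 * (k ^ 2 * vr a) * √(Im φ fun w => ∑ b, bM (Y w) (S.H s b (H712.lp a w))
        (S.H s b (H712.lp a w))) +
       2 * (k ^ 2 * vr a) * √(Im φ fun w => ∑ _b : Fin n, bM (Y w) (L w) (L w)) +
       |k| * √(Im φ fun w => ∑ b, bY (Y w) (Uv S s a b w) (Uv S s a b w) *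
        ven (dv a ψ' b w) ^ 2)) +
      k ^ 2 * vr a * Im φ fun w => ∑ b, bM (Y w) (fun i l => L' b w i l - L w i l)
        fun i l => L' b w i l - L w i l := by
  have hkv : 0 ≤ k ^ 2 * vr a := mul_nonneg (sq_nonneg k) (vr_nonneg a)
  have eH : ∀ b i l, EG fun w : K4 (Pair n) → ℝ => S.H s b (H712.lp a w) i l := fun b i l =>
    eg_lp a (S.eg_H hs b i l)
  have eD : ∀ b, EG fun w => sn (Y w) (fun i l => L' b w i l - L w i l) := fun b =>
    eg_sn (X := fun w i l => L' b w i l - L w i l) hY fun i l => (hL' b i l).sub (hL i l)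
  have eSH : ∀ b, EG fun w => sn (Y w) (S.H s b (H712.lp a w)) := fun b => eg_sn hY (eH b)
  have eSL : EG fun w => sn (Y w) (L w) := eg_sn hY hL
  have eUV : ∀ b, EG fun w => vn (Y w) (Uv S s a b w) * ven (dv a ψ' b w) := fun b =>
    (eg_vn hY fun i => eg_Uv b i).mul (eg_ven fun i => eg_dv h b i)
  have eK : ∀ b, EG (kro S s a ψ' b Y L (L' b)) := fun b => eg_kro hs h hY hL (hL' b)
  -- the three Cauchy-Schwarz inequalities
  have c1 := Im_cs hφ h.eg eD eSH
  have c2 := Im_cs hφ h.eg eD (g := fun _ w => sn (Y w) (L w)) fun _ => eSL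
  have c3 := Im_cs hφ h.eg eD eUV
  have q1 : Im φ (fun w => ∑ b, sn (Y w) (fun i l => L' b w i l - L w i l) ^ 2) =
      Im φ fun w => ∑ b, bM (Y w) (fun i l => L' b w i l - L w i l)
        fun i l => L' b w i l - L w i l :=
    Im_congr fun w => Finset.sum_congr rfl fun b _ => (hYp w).sn_sq _
  have q2 : Im φ (fun w => ∑ b, sn (Y w) (S.H s b (H712.lp a w)) ^ 2) =
      Im φ fun w => ∑ b, bM (Y w) (S.H s b (H712.lp a w)) (S.H s b (H712.lp a w)) :=
    Im_congr fun w => Finset.sum_congr rfl fun b _ => (hYp w).sn_sq _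
  have q3 : Im φ (fun w => ∑ _b : Fin n, sn (Y w) (L w) ^ 2) =
      Im φ fun w => ∑ _b : Fin n, bM (Y w) (L w) (L w) :=
    Im_congr fun w => Finset.sum_congr rfl fun b _ => (hYp w).sn_sq _
  have q4 : Im φ (fun w => ∑ b, (vn (Y w) (Uv S s a b w) * ven (dv a ψ' b w)) ^ 2) =
      Im φ fun w => ∑ b, bY (Y w) (Uv S s a b w) (Uv S s a b w) * ven (dv a ψ' b w) ^ 2 :=
    Im_congr fun w => Finset.sum_congr rfl fun b _ => by rw [mul_pow, (hYp w).vn_sq]
  rw [q1, q2] at c1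
  rw [q1, q3] at c2
  rw [q1, q4] at c3
  have g1 : EG fun w => ∑ b, sn (Y w) (fun i l => L' b w i l - L w i l) *
      sn (Y w) (S.H s b (H712.lp a w)) := EG.sum _ fun b _ => (eD b).mul (eSH b)
  have g2 : EG fun w => ∑ b, sn (Y w) (fun i l => L' b w i l - L w i l) * sn (Y w) (L w) :=
    EG.sum _ fun b _ => (eD b).mul eSL
  have g3 : EG fun w => ∑ b, sn (Y w) (fun i l => L' b w i l - L w i l) *
      (vn (Y w) (Uv S s a b w) * ven (dv a ψ' b w)) := EG.sum _ fun b _ => (eD b).mul (eUV b)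
  have g4 : EG fun w => ∑ b, bM (Y w) (fun i l => L' b w i l - L w i l)
      fun i l => L' b w i l - L w i l :=
    EG.sum _ fun b _ => EG.sum _ fun j _ => EG.sum _ fun i _ => EG.sum _ fun l _ =>
      (hY i l).mul (((hL' b i j).sub (hL i j)).mul ((hL' b l j).sub (hL l j)))
  have hmono := Im_mono hφ h.eg
    (f := fun w => ∑ b, sn (Y w) (fun i l => L' b w i l - L w i l) *
      kro S s a ψ' b Y L (L' b) w)
    (g := fun w => 2 * (k ^ 2 * vr a) * (∑ b, sn (Y w) (fun i l => L' b w i l - L w i l) *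
        sn (Y w) (S.H s b (H712.lp a w))) +
      2 * (k ^ 2 * vr a) * (∑ b, sn (Y w) (fun i l => L' b w i l - L w i l) * sn (Y w) (L w)) +
      |k| * (∑ b, sn (Y w) (fun i l => L' b w i l - L w i l) *
        (vn (Y w) (Uv S s a b w) * ven (dv a ψ' b w))) +
      k ^ 2 * vr a * ∑ b, bM (Y w) (fun i l => L' b w i l - L w i l)
        fun i l => L' b w i l - L w i l)
    (EG.sum _ fun b _ => (eD b).mul (eK b))
    ((((g1.const_mul _).add (g2.const_mul _)).add (g3.const_mul _)).add (g4.const_mul _))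
    fun w => by
      rw [Finset.mul_sum, Finset.mul_sum, Finset.mul_sum, Finset.mul_sum,
        ← Finset.sum_add_distrib, ← Finset.sum_add_distrib, ← Finset.sum_add_distrib]
      refine Finset.sum_le_sum fun b _ => ?_
      rw [← (hYp w).sn_sq]
      have h1 := (hYp w).sn_add_le (L' b w) (L w)
      have h2 := sn_nonneg (Y w) fun i l => L' b w i l - L w i l
      unfold kro
      have h3 : sn (Y w) (fun i l => L' b w i l - L w i l) * (k ^ 2 * vr a *
          (sn (Y w) (L' b w) + sn (Y w) (L w))) ≤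
          sn (Y w) (fun i l => L' b w i l - L w i l) * (k ^ 2 * vr a *
          (2 * sn (Y w) (L w) + sn (Y w) fun i l => L' b w i l - L w i l)) := by
        refine mul_le_mul_of_nonneg_left (mul_le_mul_of_nonneg_left ?_ hkv) h2
        linarith
      nlinarith [h3]
  rw [Im_add h.eg (((g1.const_mul _).add (g2.const_mul _)).add (g3.const_mul _)) (g4.const_mul _),
    Im_add h.eg ((g1.const_mul _).add (g2.const_mul _)) (g3.const_mul _),
    Im_add h.eg (g1.const_mul _) (g2.const_mul _), Im_const_mul, Im_const_mul, Im_const_mul,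
    Im_const_mul] at hmono
  refine hmono.trans ?_
  have d1 := mul_le_mul_of_nonneg_left c1 (show 0 ≤ 2 * (k ^ 2 * vr a) by linarith)
  have d2 := mul_le_mul_of_nonneg_left c2 (show 0 ≤ 2 * (k ^ 2 * vr a) by linarith)
  have d3 := mul_le_mul_of_nonneg_left c3 (abs_nonneg k)
  nlinarith [d1, d2, d3]

/-- **(F1) as an inequality of numbers**, errors in the seminorm of `Y`; the touch of `Y`
is the last term of the left side. -/
theorem f1y_num (hs : 0 < s) (h : Den φ ψ') (hφ : ∀ w, 0 ≤ φ w) {l xt η : ℝ}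
    (hl : k ^ 2 * l ^ 2 * n = 1) (hl0 : 0 ≤ l) (hxt : 0 ≤ xt) (hη : 0 < η) {Y B : MF n}
    {Y' L' : Fin n → MF n} (hY : ∀ i l, EG fun w => Y w i l) (hBe : ∀ i l, EG fun w => B w i l)
    (hYp : ∀ w, (mx (Y w)).PosSemidef) (hYf : ∀ w, Pf (Y w)) (hB : ∀ w i j, B w i j = B w j i)
    (hdr : ∀ e w, dr a ψ' e w =
      k * (xt * S.A s (H712.lp a w) e.1.1 e.1.2 - B w e.1.1 e.1.2))
    (hY' : ∀ b, Frz b (Y' b)) (hL' : ∀ b, Frz b (L' b)) (hLb : ∀ b w i, L' b w i b = 0)
    (hYp' : ∀ b w, ∀ v : Fin n → ℝ, 0 ≤ ∑ i, ∑ l, Y' b w i l * (v i * v l)) :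
    (1 + vr a) * Im φ (fun w => (mx (Y w) * (Cm S s a w * Cm S s a w)).trace) -
      2 * (k ^ 2 * l * vr a) * Im φ (fun w => ∑ b, (mx (Y w) *
        (Cm S s a w * S.H s b (H712.lp a w))).trace) -
      k ^ 2 * l * (xt * Im φ (fun w => (mx (Y w) *
        (Cm S s a w * (Cm S s a w * Cm S s a w))).trace) -
        Im φ (fun w => (mx (Y w) * (Cm S s a w * (od (B w) * Cm S s a w))).trace)) +
      Im φ (fun w => ∑ b, mrow S s a ψ' b (fun w i l => Y' b w i l - Y w i l) (L' b) w) ≤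
      (1 + η / 2) * ∑ b, Im φ (nl k S s a b (Y' b) (L' b)) +
        1 / (2 * η) * ∑ b, Im φ (vroY k a ψ' b (Y' b) (L' b)) +
        Im φ (dgY S s a l xt Y B) +
        (√(Im φ fun w => ∑ b, bM (Y w) (fun i j => L' b w i j - l * S.A s (H712.lp a w) i j)
            fun i j => L' b w i j - l * S.A s (H712.lp a w) i j) *
          (2 * (k ^ 2 * vr a) * √(Im φ fun w => ∑ b, bM (Y w) (S.H s b (H712.lp a w))
            (S.H s b (H712.lp a w))) +
           2 * (k ^ 2 * vr a) * √(Im φ fun w => ∑ _b : Fin n,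
            bM (Y w) (fun i j => l * S.A s (H712.lp a w) i j)
              fun i j => l * S.A s (H712.lp a w) i j) +
           |k| * √(Im φ fun w => ∑ b, bY (Y w) (Uv S s a b w) (Uv S s a b w) *
            ven (dv a ψ' b w) ^ 2)) +
          k ^ 2 * vr a * Im φ fun w => ∑ b,
            bM (Y w) (fun i j => L' b w i j - l * S.A s (H712.lp a w) i j)
              fun i j => L' b w i j - l * S.A s (H712.lp a w) i j) := by
  have eL : ∀ i j, EG fun w : K4 (Pair n) → ℝ => l * S.A s (H712.lp a w) i j := fun i j =>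
    (eg_lp a (S.eg_A s i j)).const_mul l
  have eC : ∀ i j, EG fun w : K4 (Pair n) → ℝ => Cm S s a w i j := fun i j => eg_Cm i j
  have eY : ∀ i j, EG fun w : K4 (Pair n) → ℝ => mx (Y w) i j := hY
  have eH : ∀ b i j, EG fun w : K4 (Pair n) → ℝ => S.H s b (H712.lp a w) i j := fun b i j =>
    eg_lp a (S.eg_H hs b i j)
  have g1 : EG fun w => (mx (Y w) * (Cm S s a w * Cm S s a w)).trace :=
    eg_tr (eg_mulm eY (eg_mulm eC eC))
  have g2 : EG fun w => ∑ b, (mx (Y w) * (Cm S s a w * S.H s b (H712.lp a w))).trace :=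
    EG.sum _ fun b _ => eg_tr (eg_mulm eY (eg_mulm eC (eH b)))
  have g3 : EG fun w => (mx (Y w) * (Cm S s a w * (Cm S s a w * Cm S s a w))).trace :=
    eg_tr (eg_mulm eY (eg_mulm eC (eg_mulm eC eC)))
  have g4 : EG fun w => (mx (Y w) * (Cm S s a w * (od (B w) * Cm S s a w))).trace :=
    eg_tr (eg_mulm eY (eg_mulm eC (eg_mulm (fun i j => eg_od hBe i j) eC)))
  have g5 : EG (dgY S s a l xt Y B) := eg_dgY hY hBe
  have g6 : EG fun w => ∑ b, mrow S s a ψ' b Y (fun w i j => l * S.A s (H712.lp a w) i j) w :=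
    EG.sum _ fun b _ => eg_mrow hs h hY eL
  have key := f1y_sum (S := S) (a := a) hs h hφ hY hYf eL hY' hL' hLb
  have key2 := (abs_le.1 key).1
  have tch := touchL_le (S := S) (a := a) hs h hφ hY hYf eL fun b => (hL' b).eg
  have low := Im_mono hφ h.eg (f := fun w => (1 + vr a) * (mx (Y w) *
      (Cm S s a w * Cm S s a w)).trace - 2 * (k ^ 2 * l * vr a) *
      ∑ b, (mx (Y w) * (Cm S s a w * S.H s b (H712.lp a w))).trace -
      k ^ 2 * l * (xt * (mx (Y w) * (Cm S s a w * (Cm S s a w * Cm S s a w))).trace -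
        (mx (Y w) * (Cm S s a w * (od (B w) * Cm S s a w))).trace) - dgY S s a l xt Y B w)
    ((((g1.const_mul _).sub (g2.const_mul _)).sub (((g3.const_mul _).sub g4).const_mul _)).sub g5)
    g6 fun w => sum_mrow_lowY hl hl0 hxt hB hYp hdr w
  rw [Im_sub h.eg (((g1.const_mul _).sub (g2.const_mul _)).sub
      (((g3.const_mul _).sub g4).const_mul _)) g5,
    Im_sub h.eg ((g1.const_mul _).sub (g2.const_mul _)) (((g3.const_mul _).sub g4).const_mul _),
    Im_sub h.eg (g1.const_mul _) (g2.const_mul _), Im_const_mul, Im_const_mul, Im_const_mul,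
    Im_sub h.eg (g3.const_mul _) g4, Im_const_mul] at low
  have up : ∑ b, Im φ (nrow S s a ψ' b (Y' b) (L' b)) ≤
      (1 + η / 2) * ∑ b, Im φ (nl k S s a b (Y' b) (L' b)) +
        1 / (2 * η) * ∑ b, Im φ (vroY k a ψ' b (Y' b) (L' b)) := by
    rw [Finset.mul_sum, Finset.mul_sum, ← Finset.sum_add_distrib]
    refine Finset.sum_le_sum fun b _ => ?_
    rw [← Im_const_mul, ← Im_const_mul, ← Im_add h.eg
      ((eg_nl (hY' b).eg (hL' b).eg).const_mul _) ((eg_vroY h (hY' b).eg (hL' b).eg).const_mul _)]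
    exact Im_mono hφ h.eg (eg_nrow h (hY' b).eg (hL' b).eg)
      (((eg_nl (hY' b).eg (hL' b).eg).const_mul _).add
        ((eg_vroY h (hY' b).eg (hL' b).eg).const_mul _)) fun w =>
      nrow_leY (hY' b).sy (hYp' b) hη w
  linarith

end Vale.Agent.P146.H191
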