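import Vale.Agent.P146.H191.F1Sum
import Vale.Agent.P146.H941.F01

/-!
Plan R2, row B9: the sum over the rows of (F1) with errors in the seminorm of the weight `Y`
(no norm of `Y`).
-/

open MeasureTheory ProbabilityTheory Finset

namespace Vale.Agent.P146.H191

open Vale.Agent.P157.Lv Vale.Agent.P146.H425 Vale.Agent.P146.H325 Vale.Agent.P146.H332
  Vale.Agent.P146.H712 Vale.Agent.P146.R1 Vale.Agent.P146.R1C Vale.Agent.P146.H706
  Vale.Agent.P146.R1S

set_option linter.unusedSectionVars false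

section form

variable {n : ℕ}

/-- `<f, g>_Y` -/
def bY (Y : Fin n → Fin n → ℝ) (f g : Fin n → ℝ) : ℝ := ∑ i, ∑ l, Y i l * (f i * g l)

/-- `tr (X' Y Z)` -/
def bM (Y X Z : Fin n → Fin n → ℝ) : ℝ := ∑ j, bY Y (fun i => X i j) fun i => Z i j

/-- The seminorm of a vector. -/
noncomputable def vn (Y : Fin n → Fin n → ℝ) (f : Fin n → ℝ) : ℝ := √(bY Y f f)

/-- The seminorm of a matrix, `√tr (X' Y X)`. -/
noncomputable def sn (Y X : Fin n → Fin n → ℝ) : ℝ := √(bM Y X X)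

/-- A symmetric nonnegative form. -/
structure Pf (Y : Fin n → Fin n → ℝ) : Prop where
  sy : ∀ i l, Y i l = Y l i
  ps : ∀ v : Fin n → ℝ, 0 ≤ ∑ i, ∑ l, Y i l * (v i * v l)

variable {Y : Fin n → Fin n → ℝ}

lemma vn_nonneg (Y : Fin n → Fin n → ℝ) (f : Fin n → ℝ) : 0 ≤ vn Y f := Real.sqrt_nonneg _

lemma sn_nonneg (Y X : Fin n → Fin n → ℝ) : 0 ≤ sn Y X := Real.sqrt_nonneg _

lemma Pf.bY_nonneg (h : Pf Y) (f : Fin n → ℝ) : 0 ≤ bY Y f f := h.ps f

lemma Pf.vn_sq (h : Pf Y) (f : Fin n → ℝ) : vn Y f ^ 2 = bY Y f f := Real.sq_sqrt (h.bY_nonneg f)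

lemma Pf.bM_nonneg (h : Pf Y) (X : Fin n → Fin n → ℝ) : 0 ≤ bM Y X X :=
  Finset.sum_nonneg fun _ _ => h.bY_nonneg _

lemma Pf.sn_sq (h : Pf Y) (X : Fin n → Fin n → ℝ) : sn Y X ^ 2 = bM Y X X :=
  Real.sq_sqrt (h.bM_nonneg X)

lemma bY_add_left (Y : Fin n → Fin n → ℝ) (f g h : Fin n → ℝ) :
    bY Y (fun i => f i + g i) h = bY Y f h + bY Y g h := by
  unfold bY
  simp only [← Finset.sum_add_distrib]
  exact Finset.sum_congr rfl fun i _ => Finset.sum_congr rfl fun l _ => by ring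

lemma bY_sub_right (Y : Fin n → Fin n → ℝ) (f g h : Fin n → ℝ) :
    bY Y f (fun i => g i - h i) = bY Y f g - bY Y f h := by
  unfold bY
  simp only [← Finset.sum_sub_distrib]
  exact Finset.sum_congr rfl fun i _ => Finset.sum_congr rfl fun l _ => by ring

lemma bY_sub_left (Y : Fin n → Fin n → ℝ) (f g h : Fin n → ℝ) :
    bY Y (fun i => f i - g i) h = bY Y f h - bY Y g h := by
  unfold bY
  simp only [← Finset.sum_sub_distrib]
  exact Finset.sum_congr rfl fun i _ => Finset.sum_congr rfl fun l _ => by ring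

lemma Pf.comm (h : Pf Y) (f g : Fin n → ℝ) : bY Y f g = bY Y g f := by
  unfold bY
  rw [Finset.sum_comm]
  exact Finset.sum_congr rfl fun i _ => Finset.sum_congr rfl fun l _ => by rw [h.sy l i]; ring

/-- Cauchy-Schwarz in the form `Y`. -/
lemma Pf.cs (h : Pf Y) (f g : Fin n → ℝ) : |bY Y f g| ≤ vn Y f * vn Y g := by
  have key : ∀ t : ℝ, 0 ≤ bY Y g g * (t * t) + (-2 * bY Y f g) * t + bY Y f f := by
    intro t
    have h1 := h.ps fun i => f i - t * g i
    have e : ∑ i, ∑ l, Y i l * ((f i - t * g i) * (f l - t * g l)) =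
        bY Y f f - t * bY Y f g - t * bY Y g f + t ^ 2 * bY Y g g := by
      unfold bY
      simp only [Finset.mul_sum, ← Finset.sum_sub_distrib, ← Finset.sum_add_distrib]
      exact Finset.sum_congr rfl fun i _ => Finset.sum_congr rfl fun l _ => by ring
    rw [e, h.comm g f] at h1
    linarith [h1, show t ^ 2 * bY Y g g = bY Y g g * (t * t) by ring]
  have hd := discrim_le_zero key
  unfold discrim at hd
  have h2 : bY Y f g ^ 2 ≤ bY Y f f * bY Y g g := by nlinarith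
  rw [← h.vn_sq, ← h.vn_sq, ← mul_pow] at h2
  exact abs_le_of_sq_le_sq h2 (mul_nonneg (vn_nonneg _ _) (vn_nonneg _ _))

/-- Cauchy-Schwarz for matrices. -/
lemma Pf.csM (h : Pf Y) (X Z : Fin n → Fin n → ℝ) : |bM Y X Z| ≤ sn Y X * sn Y Z := by
  have h1 : |bM Y X Z| ≤ ∑ j, vn Y (fun i => X i j) * vn Y fun i => Z i j :=
    (Finset.abs_sum_le_sum_abs _ _).trans (Finset.sum_le_sum fun j _ => h.cs _ _)
  refine h1.trans (abs_le_of_sq_le_sq' ?_ (mul_nonneg (sn_nonneg _ _) (sn_nonneg _ _))).2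
  rw [mul_pow, h.sn_sq, h.sn_sq]
  refine (Finset.sum_mul_sq_le_sq_mul_sq _ _ _).trans_eq ?_
  unfold bM
  simp only [h.vn_sq]

/-- `|X v|_Y ≤ |X|_Y |v|` -/
lemma Pf.vn_mulVec (h : Pf Y) (X : Fin n → Fin n → ℝ) (v : Fin n → ℝ) :
    vn Y (fun i => ∑ j, X i j * v j) ≤ sn Y X * ven v := by
  have e : bY Y (fun i => ∑ j, X i j * v j) (fun i => ∑ j, X i j * v j) =
      ∑ j, ∑ m, v j * v m * bY Y (fun i => X i j) fun i => X i m := by
    unfold bY
    have e1 : ∀ i l, Y i l * ((∑ j, X i j * v j) * ∑ m, X l m * v m) =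
        ∑ j, ∑ m, v j * v m * (Y i l * (X i j * X l m)) := by
      intro i l
      rw [Finset.sum_mul_sum, Finset.mul_sum]
      refine Finset.sum_congr rfl fun j _ => ?_
      rw [Finset.mul_sum]
      exact Finset.sum_congr rfl fun m _ => by ring
    calc ∑ i, ∑ l, Y i l * ((∑ j, X i j * v j) * ∑ m, X l m * v m)
        = ∑ i, ∑ l, ∑ j, ∑ m, v j * v m * (Y i l * (X i j * X l m)) :=
          Finset.sum_congr rfl fun i _ => Finset.sum_congr rfl fun l _ => e1 i l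
      _ = ∑ i, ∑ j, ∑ l, ∑ m, v j * v m * (Y i l * (X i j * X l m)) :=
          Finset.sum_congr rfl fun i _ => Finset.sum_comm
      _ = ∑ j, ∑ i, ∑ l, ∑ m, v j * v m * (Y i l * (X i j * X l m)) := Finset.sum_comm
      _ = ∑ j, ∑ i, ∑ m, ∑ l, v j * v m * (Y i l * (X i j * X l m)) :=
          Finset.sum_congr rfl fun j _ => Finset.sum_congr rfl fun i _ => Finset.sum_comm
      _ = ∑ j, ∑ m, ∑ i, ∑ l, v j * v m * (Y i l * (X i j * X l m)) :=
          Finset.sum_congr rfl fun j _ => Finset.sum_comm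
      _ = _ := by simp only [Finset.mul_sum]
  have h1 : bY Y (fun i => ∑ j, X i j * v j) (fun i => ∑ j, X i j * v j) ≤
      (∑ j, |v j| * vn Y fun i => X i j) ^ 2 := by
    rw [e, pow_two, Finset.sum_mul_sum]
    refine Finset.sum_le_sum fun j _ => Finset.sum_le_sum fun m _ => ?_
    refine (le_abs_self _).trans ?_
    rw [abs_mul, abs_mul]
    have h2 := h.cs (fun i => X i j) fun i => X i m
    have h3 : 0 ≤ |v j| * |v m| := by positivity
    calc |v j| * |v m| * |bY Y (fun i => X i j) fun i => X i m|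
        ≤ |v j| * |v m| * (vn Y (fun i => X i j) * vn Y fun i => X i m) :=
          mul_le_mul_of_nonneg_left h2 h3
      _ = _ := by ring
  have h4 : (∑ j, |v j| * vn Y fun i => X i j) ^ 2 ≤ (sn Y X * ven v) ^ 2 := by
    rw [mul_pow, h.sn_sq, ven_sq]
    refine (Finset.sum_mul_sq_le_sq_mul_sq _ _ _).trans_eq ?_
    unfold bM
    simp only [sq_abs, h.vn_sq]
    ring
  have h5 : vn Y (fun i => ∑ j, X i j * v j) ^ 2 ≤ (sn Y X * ven v) ^ 2 := by
    rw [h.vn_sq]
    exact h1.trans h4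
  exact (abs_le_of_sq_le_sq' h5 (mul_nonneg (sn_nonneg _ _) (ven_nonneg _))).2

end form

variable {n : ℕ} {k x : ℝ} {S : CS n k x} {s : ℝ} {φ : (K4 (Pair n) → ℝ) → ℝ}
  {ψ' : K4 (Pair n) → (K4 (Pair n) → ℝ) → ℝ} {a : Fin 4 → ℝ}

/-- The touch factor of the row `b`. -/
noncomputable def kro (S : CS n k x) (s : ℝ) (a : Fin 4 → ℝ)
    (ψ' : K4 (Pair n) → (K4 (Pair n) → ℝ) → ℝ) (b : Fin n) (Y L L' : MF n)
    (w : K4 (Pair n) → ℝ) : ℝ :=
  2 * (k ^ 2 * vr a) * sn (Y w) (S.H s b (H712.lp a w)) +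
    k ^ 2 * vr a * (sn (Y w) (L' w) + sn (Y w) (L w)) +
    |k| * (vn (Y w) (Uv S s a b w) * ven (dv a ψ' b w))

lemma kro_nonneg {b : Fin n} {Y L L' : MF n} {w : K4 (Pair n) → ℝ} :
    0 ≤ kro S s a ψ' b Y L L' w := by
  unfold kro
  have := vr_nonneg a
  have := sn_nonneg (Y w) (S.H s b (H712.lp a w))
  have := sn_nonneg (Y w) (L' w)
  have := sn_nonneg (Y w) (L w)
  have := vn_nonneg (Y w) (Uv S s a b w)
  have := ven_nonneg (dv a ψ' b w)
  positivity

/-- frozen against not frozen `L`, one row, in the seminorm of `Y` -/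
lemma mrow_subY {b : Fin n} {Y L L' : MF n} {w : K4 (Pair n) → ℝ} (hY : Pf (Y w)) :
    |mrow S s a ψ' b Y L' w - mrow S s a ψ' b Y L w| ≤
      sn (Y w) (fun i l => L' w i l - L w i l) * kro S s a ψ' b Y L L' w := by
  set U := Uv S s a b w with hU
  set V := dv a ψ' b w with hV
  set H := S.H s b (H712.lp a w) with hH
  set Δ : Fin n → Fin n → ℝ := fun i l => L' w i l - L w i l with hΔ
  have m2 : ∀ X Z : Fin n → Fin n → ℝ, ∑ i, ∑ l, Y w i l * ∑ j, X l j * Z i j =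
      bM (Y w) Z X := by
    intro X Z
    unfold bM bY
    rw [Finset.sum_comm, Finset.sum_comm (s := Finset.univ) (t := Finset.univ)
      (f := fun j i => ∑ l, Y w i l * (Z i j * X l j))]
    rw [Finset.sum_comm]
    refine Finset.sum_congr rfl fun i _ => ?_
    rw [Finset.sum_comm]
    refine Finset.sum_congr rfl fun l _ => ?_
    rw [Finset.mul_sum]
    exact Finset.sum_congr rfl fun j _ => by ring
  have m4 : ∀ X : Fin n → Fin n → ℝ, ∑ i, ∑ l, Y w i l * (U i * ∑ j, X l j * V j) =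
      bY (Y w) U fun i => ∑ j, X i j * V j := fun X => rfl
  have t2 : |bM (Y w) H (L' w) - bM (Y w) H (L w)| ≤ sn (Y w) Δ * sn (Y w) H := by
    have e : bM (Y w) H (L' w) - bM (Y w) H (L w) = bM (Y w) H Δ := by
      unfold bM
      rw [← Finset.sum_sub_distrib]
      exact Finset.sum_congr rfl fun j _ => (bY_sub_right _ _ _ _).symm
    rw [e, mul_comm]
    exact hY.csM H Δ
  have t3 : |bM (Y w) (L' w) (L' w) - bM (Y w) (L w) (L w)| ≤
      sn (Y w) Δ * (sn (Y w) (L' w) + sn (Y w) (L w)) := by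
    have e : bM (Y w) (L' w) (L' w) - bM (Y w) (L w) (L w) =
        bM (Y w) Δ (L' w) + bM (Y w) (L w) Δ := by
      unfold bM
      rw [← Finset.sum_sub_distrib, ← Finset.sum_add_distrib]
      refine Finset.sum_congr rfl fun j _ => ?_
      rw [bY_sub_left, bY_sub_right]
      ring
    rw [e]
    have h1 := hY.csM Δ (L' w)
    have h2 := hY.csM (L w) Δ
    calc |bM (Y w) Δ (L' w) + bM (Y w) (L w) Δ| ≤
        |bM (Y w) Δ (L' w)| + |bM (Y w) (L w) Δ| := abs_add_le _ _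
      _ ≤ _ := by nlinarith [h1, h2]
  have t4 : |bY (Y w) U (fun i => ∑ j, L' w i j * V j) - bY (Y w) U fun i => ∑ j, L w i j * V j| ≤
      sn (Y w) Δ * (vn (Y w) U * ven V) := by
    have e : bY (Y w) U (fun i => ∑ j, L' w i j * V j) -
        bY (Y w) U (fun i => ∑ j, L w i j * V j) = bY (Y w) U fun i => ∑ j, Δ i j * V j := by
      rw [← bY_sub_right]
      congr 1
      funext i
      rw [← Finset.sum_sub_distrib]
      exact Finset.sum_congr rfl fun j _ => by simp only [hΔ]; ring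
    rw [e]
    have h1 := hY.cs U fun i => ∑ j, Δ i j * V j
    have h2 := mul_le_mul_of_nonneg_left (hY.vn_mulVec Δ V) (vn_nonneg (Y w) U)
    linarith [h1, h2, show sn (Y w) Δ * (vn (Y w) U * ven V) =
      vn (Y w) U * (sn (Y w) Δ * ven V) by ring]
  have hkv : 0 ≤ k ^ 2 * vr a := mul_nonneg (sq_nonneg k) (vr_nonneg a)
  have hm : mrow S s a ψ' b Y L' w - mrow S s a ψ' b Y L w =
      - (2 * (k ^ 2 * vr a) * (bM (Y w) H (L' w) - bM (Y w) H (L w))) +
        k ^ 2 * vr a * (bM (Y w) (L' w) (L' w) - bM (Y w) (L w) (L w)) -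
        k * (bY (Y w) U (fun i => ∑ j, L' w i j * V j) -
          bY (Y w) U fun i => ∑ j, L w i j * V j) := by
    unfold mrow
    rw [m2 (L' w) H, m2 (L w) H, m2 (L' w) (L' w), m2 (L w) (L w), m4, m4]
    ring
  rw [hm]
  have b2 : |-(2 * (k ^ 2 * vr a) * (bM (Y w) H (L' w) - bM (Y w) H (L w)))| ≤
      2 * (k ^ 2 * vr a) * (sn (Y w) Δ * sn (Y w) H) := by
    rw [abs_neg, abs_mul, abs_of_nonneg (by linarith : 0 ≤ 2 * (k ^ 2 * vr a))]
    exact mul_le_mul_of_nonneg_left t2 (by linarith)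
  have b3 : |k ^ 2 * vr a * (bM (Y w) (L' w) (L' w) - bM (Y w) (L w) (L w))| ≤
      k ^ 2 * vr a * (sn (Y w) Δ * (sn (Y w) (L' w) + sn (Y w) (L w))) := by
    rw [abs_mul, abs_of_nonneg hkv]
    exact mul_le_mul_of_nonneg_left t3 hkv
  have b4 : |k * (bY (Y w) U (fun i => ∑ j, L' w i j * V j) -
      bY (Y w) U fun i => ∑ j, L w i j * V j)| ≤
      |k| * (sn (Y w) Δ * (vn (Y w) U * ven V)) := by
    rw [abs_mul]
    exact mul_le_mul_of_nonneg_left t4 (abs_nonneg k)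
  refine (abs_sub _ _).trans ((add_le_add ((abs_add_le _ _).trans (add_le_add b2 b3)) b4).trans
    (le_of_eq ?_))
  unfold kro
  rw [← hU, ← hV, ← hH]
  ring

/-- linear in `Y` -/
lemma mrow_lin {b : Fin n} {Y Y' L : MF n} {w : K4 (Pair n) → ℝ} :
    mrow S s a ψ' b Y' L w = mrow S s a ψ' b Y L w +
      mrow S s a ψ' b (fun w i l => Y' w i l - Y w i l) L w := by
  unfold mrow
  have e : ∀ F : Fin n → Fin n → ℝ, ∑ i, ∑ l, (Y' w i l - Y w i l) * F i l =
      (∑ i, ∑ l, Y' w i l * F i l) - ∑ i, ∑ l, Y w i l * F i l := by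
    intro F
    simp only [← Finset.sum_sub_distrib]
    exact Finset.sum_congr rfl fun i _ => Finset.sum_congr rfl fun l _ => by ring
  rw [e fun i l => Uv S s a b w i * Uv S s a b w l,
    e fun i l => ∑ j, L w l j * S.H s b (H712.lp a w) i j,
    e fun i l => ∑ j, L w l j * L w i j,
    e fun i l => Uv S s a b w i * ∑ j, L w l j * dv a ψ' b w j]
  ring

lemma eg_sn {Y X : MF n} (hY : ∀ i l, EG fun w => Y w i l) (hX : ∀ i l, EG fun w => X w i l) :
    EG fun w => sn (Y w) (X w) :=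
  eg_sqrt (EG.sum _ fun j _ => EG.sum _ fun i _ => EG.sum _ fun l _ =>
    (hY i l).mul ((hX i j).mul (hX l j)))

lemma eg_vn {Y : MF n} {f : (K4 (Pair n) → ℝ) → Fin n → ℝ} (hY : ∀ i l, EG fun w => Y w i l)
    (hf : ∀ i, EG fun w => f w i) : EG fun w => vn (Y w) (f w) :=
  eg_sqrt (EG.sum _ fun i _ => EG.sum _ fun l _ => (hY i l).mul ((hf i).mul (hf l)))

lemma eg_kro (hs : 0 < s) (h : Den φ ψ') {b : Fin n} {Y L L' : MF n}
    (hY : ∀ i l, EG fun w => Y w i l) (hL : ∀ i l, EG fun w => L w i l)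
    (hL' : ∀ i l, EG fun w => L' w i l) : EG (kro S s a ψ' b Y L L') := by
  have eH : ∀ i l, EG fun w : K4 (Pair n) → ℝ => S.H s b (H712.lp a w) i l := fun i l =>
    eg_lp a (S.eg_H hs b i l)
  exact (((eg_sn hY eH).const_mul _).add (((eg_sn hY hL').add (eg_sn hY hL)).const_mul _)).add
    (((eg_vn hY fun i => eg_Uv b i).mul (eg_ven fun i => eg_dv h b i)).const_mul _)

/-- **The sum over the rows of (F1)**, `L` unfrozen in the seminorm of `Y`, the touch of `Y` kept. -/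
theorem f1y_sum (hs : 0 < s) (h : Den φ ψ') (hφ : ∀ w, 0 ≤ φ w) {Y L : MF n}
    {Y' L' : Fin n → MF n} (hY : ∀ i l, EG fun w => Y w i l) (hYp : ∀ w, Pf (Y w))
    (hL : ∀ i l, EG fun w => L w i l)
    (hY' : ∀ b, Frz b (Y' b)) (hL' : ∀ b, Frz b (L' b)) (hLb : ∀ b w i, L' b w i b = 0) :
    |∑ b, Im φ (nrow S s a ψ' b (Y' b) (L' b)) - Im φ (fun w => ∑ b, mrow S s a ψ' b Y L w) -
      Im φ (fun w => ∑ b, mrow S s a ψ' b (fun w i l => Y' b w i l - Y w i l) (L' b) w)| ≤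
      Im φ (fun w => ∑ b, sn (Y w) (fun i l => L' b w i l - L w i l) *
        kro S s a ψ' b Y L (L' b) w) := by
  have e1 : ∀ b, EG (mrow S s a ψ' b (Y' b) (L' b)) := fun b =>
    eg_mrow hs h (hY' b).eg (hL' b).eg
  have e2 : ∀ b, EG (mrow S s a ψ' b Y L) := fun b => eg_mrow hs h hY hL
  have e4 : ∀ b, EG (mrow S s a ψ' b (fun w i l => Y' b w i l - Y w i l) (L' b)) := fun b =>
    eg_mrow hs h (fun i l => ((hY' b).eg i l).sub (hY i l)) (hL' b).eg
  have e3 : ∀ b, EG fun w => sn (Y w) (fun i l => L' b w i l - L w i l) *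
      kro S s a ψ' b Y L (L' b) w := fun b =>
    (eg_sn (X := fun w i l => L' b w i l - L w i l) hY fun i l => ((hL' b).eg i l).sub (hL i l)).mul
      (eg_kro hs h hY hL (hL' b).eg)
  have h1 : ∑ b, Im φ (nrow S s a ψ' b (Y' b) (L' b)) =
      Im φ (fun w => ∑ b, mrow S s a ψ' b (Y' b) (L' b) w) := by
    rw [Im_sum h.eg _ fun b _ => e1 b]
    exact Finset.sum_congr rfl fun b _ => f1_mrow hs h (hY' b) (hL' b) (hLb b)
  rw [h1, ← Im_sub h.eg (EG.sum _ fun b _ => e1 b) (EG.sum _ fun b _ => e2 b),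
    ← Im_sub h.eg ((EG.sum _ fun b _ => e1 b).sub (EG.sum _ fun b _ => e2 b))
      (EG.sum _ fun b _ => e4 b)]
  refine Im_abs_le hφ h.eg (((EG.sum _ fun b _ => e1 b).sub (EG.sum _ fun b _ => e2 b)).sub
    (EG.sum _ fun b _ => e4 b)) (EG.sum _ fun b _ => e3 b) fun w => ?_
  rw [← Finset.sum_sub_distrib, ← Finset.sum_sub_distrib]
  refine (Finset.abs_sum_le_sum_abs _ _).trans (Finset.sum_le_sum fun b _ => ?_)
  have e5 := mrow_lin (S := S) (s := s) (a := a) (ψ' := ψ') (b := b) (Y := Y) (Y' := Y' b)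
    (L := L' b) (w := w)
  have e6 := mrow_subY (S := S) (s := s) (a := a) (ψ' := ψ') (b := b) (L := L) (L' := L' b)
    (hYp w)
  rw [e5]
  have e7 : mrow S s a ψ' b Y (L' b) w +
      mrow S s a ψ' b (fun w i l => Y' b w i l - Y w i l) (L' b) w - mrow S s a ψ' b Y L w -
      mrow S s a ψ' b (fun w i l => Y' b w i l - Y w i l) (L' b) w =
      mrow S s a ψ' b Y (L' b) w - mrow S s a ψ' b Y L w := by ring
  rw [e7]
  exact e6

end Vale.Agent.P146.H191
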