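import Vale.Agent.P146.H191.FYN

/-!
Plan R2, row B9: the sizes of the numbers in `f1y_num`, as forms.
-/

open MeasureTheory ProbabilityTheory Finset Matrix

namespace Vale.Agent.P146.H191

open Vale.Agent.P157.Lv Vale.Agent.P146.H425 Vale.Agent.P146.H325 Vale.Agent.P146.H332
  Vale.Agent.P146.H712 Vale.Agent.P146.R1 Vale.Agent.P146.R1C Vale.Agent.P146.H706
  Vale.Agent.P146.R1S
open Vale.Agent.P146.H941 (od mx mx_apply tr_two tr_mul_nonneg Cm Cm_T Cm_comm od_Cm dv_eq eg_Cm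
  eg_od eg_mulm eg_tr sum_mrow qY_cross nl eg_nl)

set_option linter.unusedSectionVars false

section form

variable {n : ℕ} {Y M H C : Fin n → Fin n → ℝ}

lemma Pf.pos (h : Pf Y) : (mx Y).PosSemidef := by
  refine Matrix.PosSemidef.of_dotProduct_mulVec_nonneg ?_ fun v => ?_
  · ext i j
    simp only [Matrix.conjTranspose_apply, star_trivial, mx_apply]
    exact h.sy j i
  · have h1 := h.ps v
    have e : star v ⬝ᵥ mx Y *ᵥ v = ∑ i, ∑ l, Y i l * (v i * v l) := by
      simp only [dotProduct, Matrix.mulVec, Pi.star_apply, star_trivial, mx_apply, Finset.mul_sum]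
      exact Finset.sum_congr rfl fun i _ => Finset.sum_congr rfl fun l _ => by ring
    rw [e]
    exact h1

lemma Pf.tr_nonneg (hY : Pf Y) (hM : Pf M) : 0 ≤ ∑ i, ∑ l, Y i l * M i l := by
  have h := tr_mul_nonneg hY.pos hM.pos
  rw [tr_two] at h
  refine h.trans (le_of_eq ?_)
  exact Finset.sum_congr rfl fun i _ => Finset.sum_congr rfl fun l _ => by
    rw [mx_apply, mx_apply, hM.sy l i]

lemma bY_le_fro (C : Fin n → Fin n → ℝ) (v : Fin n → ℝ) : bY C v v ≤ fro C * ven v ^ 2 := by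
  have h := (abs_le.1 (cs_fro C fun i l => v i * v l)).2
  rw [fro_outer, ← pow_two] at h
  exact h

/-- `|H v|² ≤ |C| <v, H v>` if `0 ≤ H ≤ C` -/
lemma Pf.mulVec_sq (hH : Pf H) (hle : ∀ v, bY H v v ≤ bY C v v) (v : Fin n → ℝ) :
    ∑ j, (∑ i, H i j * v i) ^ 2 ≤ fro C * bY H v v := by
  set u : Fin n → ℝ := fun j => ∑ i, H i j * v i with hu
  set q : ℝ := ∑ j, u j ^ 2 with hq
  have hq0 : 0 ≤ q := Finset.sum_nonneg fun _ _ => sq_nonneg _
  have h1 : q = bY H v u := by
    rw [hq]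
    unfold bY
    rw [Finset.sum_comm]
    refine Finset.sum_congr rfl fun j _ => ?_
    have : u j ^ 2 = (∑ i, H i j * v i) * u j := by rw [pow_two]
    rw [this, Finset.sum_mul]
    exact Finset.sum_congr rfl fun i _ => by ring
  have h2 := (abs_le.1 (hH.cs v u)).2
  rw [← h1] at h2
  have h3 : vn H u ^ 2 ≤ fro C * q := by
    rw [hH.vn_sq]
    refine (hle u).trans ((bY_le_fro C u).trans (le_of_eq ?_))
    rw [ven_sq]
  have h4 : q ^ 2 ≤ bY H v v * (fro C * q) := by
    calc q ^ 2 ≤ (vn H v * vn H u) ^ 2 := pow_le_pow_left₀ hq0 h2 2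
      _ = vn H v ^ 2 * vn H u ^ 2 := mul_pow _ _ _
      _ ≤ vn H v ^ 2 * (fro C * q) := mul_le_mul_of_nonneg_left h3 (sq_nonneg _)
      _ = _ := by rw [hH.vn_sq]
  rcases hq0.eq_or_lt with h | h
  · rw [← h]
    exact mul_nonneg (fro_nonneg _) (hH.bY_nonneg v)
  · refine le_of_mul_le_mul_right ?_ h
    nlinarith [h4]

/-- `tr (H Y H) ≤ |C| tr (Y C)` if `0 ≤ H ≤ C` -/
lemma Pf.bM_le (hY : Pf Y) (hH : Pf H) (hC : Pf C) (hle : ∀ v, bY H v v ≤ bY C v v) :
    bM Y H H ≤ fro C * ∑ i, ∑ l, Y i l * C i l := by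
  have hM : Pf fun i l => fro C * C i l - ∑ j, H i j * H l j := by
    refine ⟨fun i l => ?_, fun v => ?_⟩
    · rw [hC.sy i l]
      congr 1
      exact Finset.sum_congr rfl fun j _ => by ring
    · have h1 := hH.mulVec_sq hle v
      have h2 := mul_le_mul_of_nonneg_left (hle v) (fro_nonneg C)
      have e : ∑ i, ∑ l, (fro C * C i l - ∑ j, H i j * H l j) * (v i * v l) =
          fro C * bY C v v - ∑ j, (∑ i, H i j * v i) ^ 2 := by
        have e1 : ∑ j, (∑ i, H i j * v i) ^ 2 = ∑ i, ∑ l, (∑ j, H i j * H l j) * (v i * v l) := by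
          have f1 : ∀ j, (∑ i, H i j * v i) ^ 2 = ∑ i, ∑ l, H i j * H l j * (v i * v l) := by
            intro j
            rw [pow_two, Finset.sum_mul_sum]
            exact Finset.sum_congr rfl fun i _ => Finset.sum_congr rfl fun l _ => by ring
          simp only [f1]
          rw [Finset.sum_comm]
          refine Finset.sum_congr rfl fun i _ => ?_
          rw [Finset.sum_comm]
          exact Finset.sum_congr rfl fun l _ => by rw [Finset.sum_mul]
        rw [e1]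
        unfold bY
        simp only [Finset.mul_sum, ← Finset.sum_sub_distrib]
        exact Finset.sum_congr rfl fun i _ => Finset.sum_congr rfl fun l _ => by
          rw [sub_mul]; ring
      rw [e]
      linarith
  have h := hY.tr_nonneg hM
  have e : ∑ i, ∑ l, Y i l * (fro C * C i l - ∑ j, H i j * H l j) =
      fro C * (∑ i, ∑ l, Y i l * C i l) - bM Y H H := by
    have e1 : bM Y H H = ∑ i, ∑ l, Y i l * ∑ j, H i j * H l j := by
      unfold bM bY
      rw [Finset.sum_comm]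
      refine Finset.sum_congr rfl fun i _ => ?_
      rw [Finset.sum_comm]
      refine Finset.sum_congr rfl fun l _ => ?_
      rw [Finset.mul_sum]
    rw [e1, Finset.mul_sum, ← Finset.sum_sub_distrib]
    refine Finset.sum_congr rfl fun i _ => ?_
    rw [Finset.mul_sum, ← Finset.sum_sub_distrib]
    exact Finset.sum_congr rfl fun l _ => by ring
  rw [e] at h
  linarith

/-- `tr (D Y D) ≤ |D|² tr Y` in the sense of `bM`; here for a product `X W`. -/
lemma Pf.bM_mul_le (hY : Pf Y) (X W : Fin n → Fin n → ℝ) :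
    bM Y (fun i b => ∑ j, X i j * W j b) (fun i b => ∑ j, X i j * W j b) ≤
      bM Y X X * fro W ^ 2 := by
  have h1 : ∀ b, bY Y (fun i => ∑ j, X i j * W j b) (fun i => ∑ j, X i j * W j b) ≤
      bM Y X X * ∑ j, W j b ^ 2 := by
    intro b
    have h := hY.vn_mulVec X fun j => W j b
    have h2 := pow_le_pow_left₀ (vn_nonneg _ _) h 2
    rw [mul_pow, hY.vn_sq, hY.sn_sq, ven_sq] at h2
    exact h2
  calc bM Y (fun i b => ∑ j, X i j * W j b) (fun i b => ∑ j, X i j * W j b)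
      ≤ ∑ b, bM Y X X * ∑ j, W j b ^ 2 := Finset.sum_le_sum fun b _ => h1 b
    _ = _ := by rw [← Finset.mul_sum, fro_sq, Finset.sum_comm]

end form

variable {n : ℕ} {k x : ℝ} {S : CS n k x} {s : ℝ} {φ : (K4 (Pair n) → ℝ) → ℝ}
  {ψ' : K4 (Pair n) → (K4 (Pair n) → ℝ) → ℝ} {a : Fin 4 → ℝ}

lemma bY_eq_qf (M : Fin n → Fin n → ℝ) (v : Fin n → ℝ) : bY M v v = H325.qf M v := by
  unfold bY H325.qf
  exact Finset.sum_congr rfl fun i _ => Finset.sum_congr rfl fun l _ => by ring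

lemma pf_A (S : CS n k x) (s : ℝ) (z : Pair n → ℝ) : Pf (S.A s z) :=
  ⟨fun i l => S.A_comm s z i l, fun v => by
    have h := S.qf_A_nonneg s z v
    rw [← bY_eq_qf] at h
    exact h⟩

lemma pf_H (S : CS n k x) {s : ℝ} (hs : 0 < s) (b : Fin n) (z : Pair n → ℝ) :
    Pf (S.H s b z) :=
  ⟨fun i l => S.H_comm s b z i l, fun v => by
    have h := S.H_nonneg hs b z v
    rw [← bY_eq_qf] at h
    exact h⟩

lemma tr_sym {Y Z : Fin n → Fin n → ℝ} (hZ : ∀ i l, Z i l = Z l i) :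
    (mx Y * mx Z).trace = ∑ i, ∑ l, Y i l * Z i l := by
  rw [tr_two]
  exact Finset.sum_congr rfl fun i _ => Finset.sum_congr rfl fun l _ => by
    rw [mx_apply, mx_apply, hZ l i]

/-- `tr (Y H_b²) ≤ |C| tr (Y C)` -/
lemma bM_H_le {Y : Fin n → Fin n → ℝ} (hY : Pf Y) (hs : 0 < s) (b : Fin n)
    (w : K4 (Pair n) → ℝ) :
    bM Y (S.H s b (H712.lp a w)) (S.H s b (H712.lp a w)) ≤
      fro (Cm S s a w) * (mx Y * Cm S s a w).trace := by
  have h := hY.bM_le (pf_H S hs b (H712.lp a w)) (pf_A S s (H712.lp a w)) fun v =>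
    (bY_eq_qf _ v).le.trans ((S.H_le hs b _ v).trans (bY_eq_qf _ v).ge)
  have e : (mx Y * Cm S s a w).trace = ∑ i, ∑ l, Y i l * S.A s (H712.lp a w) i l :=
    tr_sym (Y := Y) (Z := S.A s (H712.lp a w)) fun i l => S.A_comm s _ i l
  rw [e]
  exact h

/-- the number `HB` -/
lemma HB_le (hs : 0 < s) (h : Den φ ψ') (hφ : ∀ w, 0 ≤ φ w) {Y : MF n}
    (hY : ∀ i l, EG fun w => Y w i l) (hYp : ∀ w, Pf (Y w)) :
    Im φ (fun w => ∑ b, bM (Y w) (S.H s b (H712.lp a w)) (S.H s b (H712.lp a w))) ≤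
      n * Im φ (fun w => fro (Cm S s a w) * (mx (Y w) * Cm S s a w).trace) := by
  have eC : ∀ i j, EG fun w : K4 (Pair n) → ℝ => Cm S s a w i j := fun i j => eg_Cm i j
  have eY : ∀ i j, EG fun w : K4 (Pair n) → ℝ => mx (Y w) i j := hY
  have eH : ∀ b i l, EG fun w : K4 (Pair n) → ℝ => S.H s b (H712.lp a w) i l := fun b i l =>
    eg_lp a (S.eg_H hs b i l)
  rw [← Im_const_mul]
  refine Im_mono hφ h.eg (EG.sum _ fun b _ => EG.sum _ fun j _ => EG.sum _ fun i _ =>
    EG.sum _ fun l _ => (hY i l).mul ((eH b i j).mul (eH b l j)))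
    (((eg_fro eC).mul (eg_tr (eg_mulm eY eC))).const_mul _) fun w => ?_
  refine (Finset.sum_le_sum fun b _ => bM_H_le (hYp w) hs b w).trans (le_of_eq ?_)
  rw [Finset.sum_const, Finset.card_univ, Fintype.card_fin, nsmul_eq_mul]

/-- `tr (L Y L)` for `L = l C` -/
lemma bM_lC (Y : Fin n → Fin n → ℝ) (l : ℝ) (w : K4 (Pair n) → ℝ) :
    bM Y (fun i j => l * S.A s (H712.lp a w) i j) (fun i j => l * S.A s (H712.lp a w) i j) =
      l ^ 2 * (mx Y * (Cm S s a w * Cm S s a w)).trace := by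
  rw [tr_two, Finset.mul_sum]
  unfold bM bY
  rw [Finset.sum_comm]
  refine Finset.sum_congr rfl fun i _ => ?_
  rw [Finset.sum_comm, Finset.mul_sum]
  refine Finset.sum_congr rfl fun m _ => ?_
  rw [mx_apply, Matrix.mul_apply, Finset.mul_sum, Finset.mul_sum]
  refine Finset.sum_congr rfl fun j _ => ?_
  have e1 : Cm S s a w m j = S.A s (H712.lp a w) m j := rfl
  have e2 : Cm S s a w j i = S.A s (H712.lp a w) i j := S.A_comm s _ j i
  rw [e1, e2]
  ring

/-- the number `L0` -/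
lemma L0_eq (Y : MF n) (l : ℝ) :
    Im φ (fun w => ∑ _b : Fin n, bM (Y w) (fun i j => l * S.A s (H712.lp a w) i j)
      fun i j => l * S.A s (H712.lp a w) i j) =
      n * l ^ 2 * Im φ (fun w => (mx (Y w) * (Cm S s a w * Cm S s a w)).trace) := by
  rw [← Im_const_mul]
  refine Im_congr fun w => ?_
  rw [Finset.sum_const, Finset.card_univ, Fintype.card_fin, nsmul_eq_mul, bM_lC]
  ring

/-- the size of the drift of a row -/
lemma dv_sq_le {xt m : ℝ} (hxt : 0 ≤ xt) (hm : 0 ≤ m) {B : MF n}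
    (hB : ∀ w i j, B w i j = B w j i) (hBm : ∀ w i j, |B w i j| ≤ m)
    (hdr : ∀ e w, dr a ψ' e w =
      k * (xt * S.A s (H712.lp a w) e.1.1 e.1.2 - B w e.1.1 e.1.2)) (b : Fin n)
    (w : K4 (Pair n) → ℝ) : ven (dv a ψ' b w) ^ 2 ≤ n * (k * (xt + m)) ^ 2 := by
  rw [ven_sq]
  have h1 : ∀ j, dv a ψ' b w j ^ 2 ≤ (k * (xt + m)) ^ 2 := by
    intro j
    rw [dv_eq hB hdr, mul_pow, mul_pow]
    refine mul_le_mul_of_nonneg_left ?_ (sq_nonneg k)
    rw [← sq_abs]
    refine pow_le_pow_left₀ (abs_nonneg _) ?_ 2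
    have h2 : |od (Cm S s a w) j b| ≤ 1 := by
      unfold od
      split_ifs
      · simp
      · exact S.abs_A s _ j b
    have h3 : |od (B w) j b| ≤ m := by
      unfold od
      split_ifs
      · simpa using hm
      · exact hBm w j b
    calc |xt * od (Cm S s a w) j b - od (B w) j b| ≤
        |xt * od (Cm S s a w) j b| + |od (B w) j b| := abs_sub _ _
      _ ≤ xt * 1 + m := by
        rw [abs_mul, abs_of_nonneg hxt]
        exact add_le_add (mul_le_mul_of_nonneg_left h2 hxt) h3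
      _ = xt + m := by ring
  refine (Finset.sum_le_sum fun j _ => h1 j).trans (le_of_eq ?_)
  rw [Finset.sum_const, Finset.card_univ, Fintype.card_fin, nsmul_eq_mul]

/-- `∑_b <U_b, U_b>_Y ≤ tr (Y C²) + tr Y` -/
lemma UU_le {Y : Fin n → Fin n → ℝ} (hY : Pf Y) (w : K4 (Pair n) → ℝ) :
    ∑ b, bY Y (Uv S s a b w) (Uv S s a b w) ≤
      (mx Y * (Cm S s a w * Cm S s a w)).trace + (mx Y).trace := by
  have e1 : ∑ b, bY Y (Uv S s a b w) (Uv S s a b w) =
      (mx Y * ((Cm S s a w - 1) * (Cm S s a w - 1))).trace := by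
    rw [← od_Cm, tr_two]
    unfold bY
    rw [Finset.sum_comm]
    refine Finset.sum_congr rfl fun i _ => ?_
    rw [Finset.sum_comm]
    refine Finset.sum_congr rfl fun l _ => ?_
    rw [mx_apply, Matrix.mul_apply, Finset.mul_sum]
    refine Finset.sum_congr rfl fun b _ => ?_
    rw [H941.Uv_eq, H941.Uv_eq]
    have hos : od (Cm S s a w) l b = od (Cm S s a w) b l := by
      unfold od
      by_cases h : l = b
      · rw [if_pos h, if_pos h.symm]
      · rw [if_neg h, if_neg fun h' => h h'.symm, H941.Cm_comm]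
    rw [hos]
    ring
  have e2 : (mx Y * ((Cm S s a w - 1) * (Cm S s a w - 1))).trace =
      (mx Y * (Cm S s a w * Cm S s a w)).trace - 2 * (mx Y * Cm S s a w).trace +
        (mx Y).trace := by
    simp only [Matrix.sub_mul, Matrix.mul_sub, Matrix.mul_one, Matrix.one_mul, Matrix.trace_sub]
    ring
  have e3 : 0 ≤ (mx Y * Cm S s a w).trace := tr_mul_nonneg hY.pos (pf_A S s (H712.lp a w)).pos
  rw [e1, e2]
  linarith

end Vale.Agent.P146.H191
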