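import Vale.Agent.P146.H191.F1S

/-!
Frobenius norms of real matrices, elementary inequalities.
-/

open MeasureTheory ProbabilityTheory Finset

namespace Vale.Agent.P146.H191

open Vale.Agent.P157.Lv Vale.Agent.P146.H425

set_option linter.unusedSectionVars false

section fro

variable {n : ℕ}

/-- The Frobenius norm. -/
noncomputable def fro (X : Fin n → Fin n → ℝ) : ℝ := √(∑ i, ∑ j, X i j ^ 2)

/-- The Euclidean norm. -/
noncomputable def ven (f : Fin n → ℝ) : ℝ := √(∑ i, f i ^ 2)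

lemma fro_nonneg (X : Fin n → Fin n → ℝ) : 0 ≤ fro X := Real.sqrt_nonneg _

lemma ven_nonneg (f : Fin n → ℝ) : 0 ≤ ven f := Real.sqrt_nonneg _

lemma fro_sq (X : Fin n → Fin n → ℝ) : fro X ^ 2 = ∑ i, ∑ j, X i j ^ 2 :=
  Real.sq_sqrt (Finset.sum_nonneg fun _ _ => Finset.sum_nonneg fun _ _ => sq_nonneg _)

lemma ven_sq (f : Fin n → ℝ) : ven f ^ 2 = ∑ i, f i ^ 2 :=
  Real.sq_sqrt (Finset.sum_nonneg fun _ _ => sq_nonneg _)

lemma cs_fro (X Z : Fin n → Fin n → ℝ) : |∑ i, ∑ j, X i j * Z i j| ≤ fro X * fro Z := by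
  have h := Finset.sum_mul_sq_le_sq_mul_sq (Finset.univ : Finset (Fin n × Fin n))
    (fun p => X p.1 p.2) (fun p => Z p.1 p.2)
  rw [Fintype.sum_prod_type, Fintype.sum_prod_type, Fintype.sum_prod_type] at h
  simp only at h
  rw [← fro_sq, ← fro_sq, ← mul_pow] at h
  exact abs_le_of_sq_le_sq h (mul_nonneg (fro_nonneg _) (fro_nonneg _))

lemma cs_ven (f g : Fin n → ℝ) : |∑ i, f i * g i| ≤ ven f * ven g := by
  have h := Finset.sum_mul_sq_le_sq_mul_sq (Finset.univ : Finset (Fin n)) f g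
  rw [← ven_sq, ← ven_sq, ← mul_pow] at h
  exact abs_le_of_sq_le_sq h (mul_nonneg (ven_nonneg _) (ven_nonneg _))

lemma fro_mul (X Z : Fin n → Fin n → ℝ) :
    fro (fun i j => ∑ l, X i l * Z l j) ≤ fro X * fro Z := by
  have h : fro (fun i j => ∑ l, X i l * Z l j) ^ 2 ≤ (fro X * fro Z) ^ 2 := by
    rw [mul_pow, fro_sq, fro_sq, fro_sq]
    calc ∑ i, ∑ j, (∑ l, X i l * Z l j) ^ 2
        ≤ ∑ i, ∑ j, (∑ l, X i l ^ 2) * ∑ l, Z l j ^ 2 :=
          Finset.sum_le_sum fun i _ => Finset.sum_le_sum fun j _ =>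
            Finset.sum_mul_sq_le_sq_mul_sq _ _ _
      _ = (∑ i, ∑ j, X i j ^ 2) * ∑ i, ∑ j, Z i j ^ 2 := by
          rw [Finset.sum_mul]
          refine Finset.sum_congr rfl fun i _ => ?_
          rw [← Finset.mul_sum, Finset.sum_comm]
  exact le_of_sq_le_sq₀ h (mul_nonneg (fro_nonneg _) (fro_nonneg _))
where
  le_of_sq_le_sq₀ {a b : ℝ} (h : a ^ 2 ≤ b ^ 2) (hb : 0 ≤ b) : a ≤ b :=
    (abs_le_of_sq_le_sq' h hb).2

lemma fro_add (X Z : Fin n → Fin n → ℝ) : fro (fun i j => X i j + Z i j) ≤ fro X + fro Z := by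
  have h1 := (le_abs_self _).trans (cs_fro X Z)
  have h : fro (fun i j => X i j + Z i j) ^ 2 ≤ (fro X + fro Z) ^ 2 := by
    rw [fro_sq]
    have e : ∑ i, ∑ j, (X i j + Z i j) ^ 2 =
        fro X ^ 2 + 2 * ∑ i, ∑ j, X i j * Z i j + fro Z ^ 2 := by
      rw [fro_sq, fro_sq, Finset.mul_sum, ← Finset.sum_add_distrib, ← Finset.sum_add_distrib]
      refine Finset.sum_congr rfl fun i _ => ?_
      rw [Finset.mul_sum, ← Finset.sum_add_distrib, ← Finset.sum_add_distrib]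
      exact Finset.sum_congr rfl fun j _ => by ring
    rw [e]
    nlinarith
  exact (abs_le_of_sq_le_sq' h (add_nonneg (fro_nonneg _) (fro_nonneg _))).2

lemma fro_neg (X : Fin n → Fin n → ℝ) : fro (fun i j => -X i j) = fro X := by
  unfold fro
  simp only [neg_sq]

lemma fro_const_mul (c : ℝ) (X : Fin n → Fin n → ℝ) :
    fro (fun i j => c * X i j) = |c| * fro X := by
  unfold fro
  rw [← Real.sqrt_sq_eq_abs, ← Real.sqrt_mul (sq_nonneg c)]
  congr 1
  rw [Finset.mul_sum]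
  refine Finset.sum_congr rfl fun i _ => ?_
  rw [Finset.mul_sum]
  exact Finset.sum_congr rfl fun j _ => by ring

lemma fro_outer (f g : Fin n → ℝ) : fro (fun i j => f i * g j) = ven f * ven g := by
  unfold fro ven
  rw [← Real.sqrt_mul (Finset.sum_nonneg fun _ _ => sq_nonneg _)]
  congr 1
  rw [Finset.sum_mul]
  refine Finset.sum_congr rfl fun i _ => ?_
  rw [Finset.mul_sum]
  exact Finset.sum_congr rfl fun j _ => by ring

lemma fro_congr {X Z : Fin n → Fin n → ℝ} (h : ∀ i j, X i j = Z i j) : fro X = fro Z := by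
  rw [show X = Z from funext fun i => funext fun j => h i j]

/-- the difference of two products -/
lemma fro_mul_sub (X X' Z Z' : Fin n → Fin n → ℝ) :
    fro (fun i j => ∑ l, X i l * Z l j - ∑ l, X' i l * Z' l j) ≤
      fro X * fro (fun i j => Z i j - Z' i j) + fro (fun i j => X i j - X' i j) * fro Z' := by
  have e : ∀ i j, ∑ l, X i l * Z l j - ∑ l, X' i l * Z' l j =
      (∑ l, X i l * (Z l j - Z' l j)) + ∑ l, (X i l - X' i l) * Z' l j := by
    intro i j
    rw [← Finset.sum_sub_distrib, ← Finset.sum_add_distrib]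
    exact Finset.sum_congr rfl fun l _ => by ring
  rw [fro_congr e]
  exact (fro_add _ _).trans (add_le_add (fro_mul X _) (fro_mul _ Z'))

end fro

section eg

variable {ι : Type} [Fintype ι]

lemma eg_sqrt {f : (ι → ℝ) → ℝ} (hf : EG f) : EG fun w => √(f w) := by
  obtain ⟨C, a, hC, ha, hb⟩ := hf.bdd
  refine ⟨hf.meas.sqrt, 1 + C, a, by positivity, ha, fun w => ?_⟩
  rw [abs_of_nonneg (Real.sqrt_nonneg _)]
  have h1 : (1 : ℝ) ≤ Real.exp (a * ‖w‖) := Real.one_le_exp (by positivity)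
  have h2 := (le_abs_self _).trans (hb w)
  have h3 : √(f w) ≤ 1 + |f w| := by
    rw [Real.sqrt_le_left (by positivity)]
    nlinarith [le_abs_self (f w), abs_nonneg (f w)]
  calc √(f w) ≤ 1 + |f w| := h3
    _ ≤ 1 + C * Real.exp (a * ‖w‖) := by linarith [hb w]
    _ ≤ (1 + C) * Real.exp (a * ‖w‖) := by nlinarith

lemma eg_fro {n : ℕ} {X : (ι → ℝ) → Fin n → Fin n → ℝ} (h : ∀ i j, EG fun w => X w i j) :
    EG fun w => fro (X w) :=
  eg_sqrt (EG.sum _ fun i _ => EG.sum _ fun j _ => (h i j).pow 2)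

lemma eg_ven {n : ℕ} {f : (ι → ℝ) → Fin n → ℝ} (h : ∀ i, EG fun w => f w i) :
    EG fun w => ven (f w) := eg_sqrt (EG.sum _ fun i _ => (h i).pow 2)

end eg

end Vale.Agent.P146.H191
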