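import Mathlib

/-!
Plan R1, row (K), the arithmetic at a fixed bulk: the nonlinear part of the row function in the
direction of the top eigenvector is a fixed proportion `κ λ² / n²` of the whole.
-/

namespace Vale.Agent.P146.H191

/-- the constant of the dichotomy -/
lemma kap_gap {β : ℝ} (hβ0 : 0 < β) (hβ : β < 3 / 2) : 0 < (1 / β - 2 / 3) / 4 := by
  have h1 : 2 / 3 < 1 / β := by
    rw [lt_div_iff₀ hβ0]
    linarith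
  linarith

/-- if the nonlinear part is small then the linear part is large -/
lemma lin_large {β c ε n k s lam m A0 A1 E0 : ℝ} (hβ0 : 0 < β) (hc : 0 < c)
    (hc1 : c ≤ 1 / 4) (hcβ : 2 / 3 + 4 * c ≤ 1 / β) (hε0 : 0 < ε) (hε : 3 * ε ≤ c)
    (hn : 1 ≤ n) (hk : 0 ≤ k) (hkn : k ^ 2 * n = β ^ 2)
    (hs0 : 0 < s) (hs1 : s ≤ 1) (hlam : 0 < lam) (hm0 : 0 ≤ m)
    (ha : A0 = m ^ 2 + E0 + A1) (he0 : E0 ≤ ε * A0) (ha1 : A1 ≤ ε * A0)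
    (hlow : (1 - ε) * lam ^ 2 / n ≤ A0) : √s * k * ((2 / 3 + 2 * c) * lam) ≤ m := by
  have hn0 : 0 < n := by linarith
  have h1 : (1 - 2 * ε) * A0 ≤ m ^ 2 := by linarith
  have h2 : (1 - 2 * ε) * ((1 - ε) * lam ^ 2 / n) ≤ (1 - 2 * ε) * A0 :=
    mul_le_mul_of_nonneg_left hlow (by linarith)
  have h5 : (1 - 2 * ε) * ((1 - ε) * lam ^ 2 / n) - (1 - 3 * ε) * lam ^ 2 / n =
      2 * ε ^ 2 * (lam ^ 2 / n) := by ring
  have h6 : 0 ≤ 2 * ε ^ 2 * (lam ^ 2 / n) := by positivity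
  have h7 : (1 - c) * (lam ^ 2 / n) ≤ m ^ 2 := by
    have h8 : (1 - c) * (lam ^ 2 / n) ≤ (1 - 3 * ε) * (lam ^ 2 / n) :=
      mul_le_mul_of_nonneg_right (by linarith) (by positivity)
    have h9 : (1 - 3 * ε) * (lam ^ 2 / n) = (1 - 3 * ε) * lam ^ 2 / n := by ring
    linarith
  have hb : β * (2 / 3 + 2 * c) ≤ 1 - c := by
    have h8 : β * (2 / 3 + 4 * c) ≤ 1 := by
      have := mul_le_mul_of_nonneg_left hcβ hβ0.le
      rwa [mul_one_div_cancel hβ0.ne'] at this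
    have h9 : (2 / 3 + 2 * c) ≤ (2 / 3 + 4 * c) * (1 - c) := by nlinarith
    have h10 := mul_le_mul_of_nonneg_left h9 hβ0.le
    have h11 : β * ((2 / 3 + 4 * c) * (1 - c)) ≤ 1 * (1 - c) := by
      rw [← mul_assoc]
      exact mul_le_mul_of_nonneg_right h8 (by linarith)
    linarith
  have hb2 : (β * (2 / 3 + 2 * c)) ^ 2 ≤ 1 - c := by
    have h8 : (β * (2 / 3 + 2 * c)) ^ 2 ≤ (1 - c) ^ 2 :=
      pow_le_pow_left₀ (by positivity) hb 2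
    nlinarith
  have hsq : (√s * k * ((2 / 3 + 2 * c) * lam)) ^ 2 ≤ m ^ 2 := by
    have e1 : (√s * k * ((2 / 3 + 2 * c) * lam)) ^ 2 =
        s * ((β * (2 / 3 + 2 * c)) ^ 2 * (lam ^ 2 / n)) := by
      have h8 : k ^ 2 = β ^ 2 / n := by
        rw [eq_div_iff hn0.ne']
        exact hkn
      calc (√s * k * ((2 / 3 + 2 * c) * lam)) ^ 2 =
            (√s) ^ 2 * k ^ 2 * ((2 / 3 + 2 * c) ^ 2 * lam ^ 2) := by ring
        _ = _ := by rw [Real.sq_sqrt hs0.le, h8]; ring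
    rw [e1]
    have h8 : 0 ≤ lam ^ 2 / n := by positivity
    have h9 : 0 ≤ (β * (2 / 3 + 2 * c)) ^ 2 * (lam ^ 2 / n) := by positivity
    calc s * ((β * (2 / 3 + 2 * c)) ^ 2 * (lam ^ 2 / n))
        ≤ 1 * ((β * (2 / 3 + 2 * c)) ^ 2 * (lam ^ 2 / n)) := mul_le_mul_of_nonneg_right hs1 h9
      _ ≤ 1 * ((1 - c) * (lam ^ 2 / n)) := by
          rw [one_mul, one_mul]
          exact mul_le_mul_of_nonneg_right hb2 h8
      _ ≤ m ^ 2 := by rw [one_mul]; exact h7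
  exact (abs_le_of_sq_le_sq' hsq hm0).2

/-- from the third coefficient to the nonlinear part -/
lemma kap_t3 {β c n k s lam T3 A0 N2 : ℝ} (_ : 0 < β) (hc : 0 < c) (hn : 1 ≤ n) (hk : 0 ≤ k)
    (hkn : k ^ 2 * n = β ^ 2) (hs0 : 1 / 2 ≤ s)
    (h1 : c * ((√s * k) ^ 3 * lam ^ 2) ≤ -T3) (hT3 : T3 ^ 2 / 6 ≤ N2)
    (hup : A0 ≤ 2 * lam ^ 2 / n) :
    c ^ 2 * β ^ 6 / 96 * (lam ^ 2 / n ^ 2) * A0 ≤ N2 := by
  have hn0 : 0 < n := by linarith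
  have h2 : (c * ((√s * k) ^ 3 * lam ^ 2)) ^ 2 ≤ T3 ^ 2 := by
    rw [← neg_sq T3]
    exact pow_le_pow_left₀ (by positivity) h1 2
  have h3 : (c * ((√s * k) ^ 3 * lam ^ 2)) ^ 2 = c ^ 2 * (s ^ 3 * (k ^ 2) ^ 3) * lam ^ 4 := by
    have : (√s) ^ 2 = s := Real.sq_sqrt (by linarith)
    calc (c * ((√s * k) ^ 3 * lam ^ 2)) ^ 2 = c ^ 2 * (((√s) ^ 2) ^ 3 * (k ^ 2) ^ 3) * lam ^ 4 := by
          ring
      _ = _ := by rw [this]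
  have h4 : k ^ 2 = β ^ 2 / n := by
    rw [eq_div_iff hn0.ne']
    exact hkn
  have h5 : (1 / 8 : ℝ) ≤ s ^ 3 := by
    have := pow_le_pow_left₀ (by norm_num) hs0 3
    norm_num at this ⊢
    exact this
  have h6 : c ^ 2 * β ^ 6 / 8 * (lam ^ 4 / n ^ 3) ≤ T3 ^ 2 := by
    rw [h3, h4] at h2
    refine le_trans ?_ h2
    have e1 : c ^ 2 * (s ^ 3 * (β ^ 2 / n) ^ 3) * lam ^ 4 =
        s ^ 3 * (c ^ 2 * β ^ 6 * (lam ^ 4 / n ^ 3)) := by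
      field_simp
    rw [e1]
    have h7 : 0 ≤ c ^ 2 * β ^ 6 * (lam ^ 4 / n ^ 3) := by positivity
    nlinarith
  have h9 : c ^ 2 * β ^ 6 / 96 * (lam ^ 2 / n ^ 2) * A0 ≤
      c ^ 2 * β ^ 6 / 96 * (lam ^ 2 / n ^ 2) * (2 * lam ^ 2 / n) := by gcongr
  have h10 : c ^ 2 * β ^ 6 / 96 * (lam ^ 2 / n ^ 2) * (2 * lam ^ 2 / n) =
      c ^ 2 * β ^ 6 / 8 * (lam ^ 4 / n ^ 3) / 6 := by
    field_simp
    ring
  rw [h10] at h9
  linarith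

/-- **The arithmetic of (K).** -/
theorem kap_num {β : ℝ} (hβ0 : 0 < β) (hβ : β < 3 / 2) : ∃ ε κ : ℝ, 0 < ε ∧ ε ≤ 1 / 40 ∧ 0 < κ ∧
    ∀ (n k s x lam V m T3 A0 A1 E0 E1 N2 : ℝ), 1 ≤ n → 0 ≤ k → k ^ 2 * n = β ^ 2 →
      1 / 2 ≤ s → s ≤ 1 → x ≤ ε → 0 < lam → lam ≤ n → V ≤ ε * lam ^ 2 → 0 ≤ m →
      (∀ c : ℝ, 0 < c → c ≤ 1 / 3 → V ≤ (c / 100) ^ 2 * lam ^ 2 →
        x ≤ c / 1000 → √s * k * ((2 / 3 + 2 * c) * lam) ≤ m →
        c * ((√s * k) ^ 3 * lam ^ 2) ≤ -T3) →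
      T3 ^ 2 / 6 ≤ N2 → 0 ≤ A0 → A0 = m ^ 2 + E0 + A1 → E0 ≤ ε * A0 → A1 ≤ N2 + E1 →
      E1 ≤ ε / 4 * A0 → (1 - ε) * lam ^ 2 / n ≤ A0 → A0 ≤ 2 * lam ^ 2 / n →
      κ * (lam ^ 2 / n ^ 2) * A0 ≤ N2 := by
  obtain ⟨c, hc⟩ : ∃ c, c = min ((1 / β - 2 / 3) / 4) (1 / 4) := ⟨_, rfl⟩
  have hc0 : 0 < c := by
    rw [hc]
    exact lt_min (kap_gap hβ0 hβ) (by norm_num)
  have hc1 : c ≤ 1 / 4 := by rw [hc]; exact min_le_right _ _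
  have hcβ : 2 / 3 + 4 * c ≤ 1 / β := by
    have : c ≤ (1 / β - 2 / 3) / 4 := by rw [hc]; exact min_le_left _ _
    linarith
  obtain ⟨ε, hε⟩ : ∃ ε, ε = (c / 1000) ^ 2 := ⟨_, rfl⟩
  have hε0 : 0 < ε := by rw [hε]; positivity
  have hε2 : ε ≤ (c / 100) ^ 2 := by rw [hε]; gcongr; norm_num
  have hε3 : ε ≤ c / 1000 := by rw [hε]; nlinarith
  have hε40 : ε ≤ 1 / 40 := by linarith
  refine ⟨ε, min (ε / 2) (c ^ 2 * β ^ 6 / 96), hε0, hε40, by positivity, ?_⟩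
  intro n k s x lam V m T3 A0 A1 E0 E1 N2 hn hk hkn hs0 hs1 hx hlam hlamn hV
    hm0 hT hT3 ha0 ha he0 ha1e he1 hlow hup
  have hn0 : 0 < n := by linarith
  have hr : lam ^ 2 / n ^ 2 ≤ 1 := by
    rw [div_le_one (by positivity)]
    exact pow_le_pow_left₀ hlam.le hlamn 2
  have hr0 : 0 ≤ lam ^ 2 / n ^ 2 := by positivity
  rcases le_or_gt (ε * A0) A1 with h | h
  · -- the nonlinear part is large
    calc min (ε / 2) (c ^ 2 * β ^ 6 / 96) * (lam ^ 2 / n ^ 2) * A0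
        ≤ ε / 2 * 1 * A0 := by
          gcongr
          exact min_le_left _ _
      _ ≤ N2 := by nlinarith [mul_nonneg hε0.le ha0]
  · -- the linear part is large
    have hm := lin_large hβ0 hc0 hc1 hcβ hε0 (by linarith) hn hk hkn (by linarith) hs1 hlam
      hm0 ha he0 h.le hlow
    have hVc : V ≤ (c / 100) ^ 2 * lam ^ 2 := hV.trans (by gcongr)
    have h1 := hT c hc0 (by linarith) hVc (hx.trans hε3) hm
    have h8 := kap_t3 hβ0 hc0 hn hk hkn hs0 h1 hT3 hup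
    refine le_trans ?_ h8
    gcongr
    exact min_le_right _ _

end Vale.Agent.P146.H191
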