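import Vale.Agent.P146.H191.KapA
import Vale.Agent.P146.H329.Fb4
import Vale.Agent.P146.H722.Kap1

/-!
Plan R1, row (K), at the level of an odd gradient field: the nonlinear part of the profile in the
direction of the top eigenvector.
-/

open MeasureTheory ProbabilityTheory

namespace Vale.Agent.P146.H191

open Vale.Agent.P157.Lv Vale.Agent.P146.H329

set_option linter.unusedSectionVars false

variable {ι : Type} [Fintype ι] [DecidableEq ι] {a : ι → (ι → ℝ) → ℝ}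
  {H : ι → ι → (ι → ℝ) → ℝ} {v : ι → ℝ}

lemma dir_univ (hv : ∑ i, v i ^ 2 = 1) : H722.Dir Finset.univ v :=
  ⟨fun e he => absurd (Finset.mem_univ e) he, hv⟩

/-- the third Stein coefficient of the field in the direction `v` -/
noncomputable def t3 (v : ι → ℝ) (a : ι → (ι → ℝ) → ℝ) : ℝ :=
  ∫ z, (∑ i, v i * a i z) * (dv v z ^ 3 - 3 * dv v z) ∂(gI ι)

lemma cce_h3 : CcE fun t : ℝ => t ^ 3 - 3 * t := by
  have h : CcE fun t : ℝ => t * (t * t) - 3 * t :=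
    (CcE.id.mul (CcE.id.mul CcE.id)).sub (CcE.id.cm 3)
  have e : (fun t : ℝ => t ^ 3 - 3 * t) = fun t => t * (t * t) - 3 * t := by
    funext t; ring
  rw [e]
  exact h

/-- the nonlinear part of the profile is at least the third chaos -/
theorem t3_le (ha : GF a H) (hv : ∑ i, v i ^ 2 = 1) :
    t3 v a ^ 2 / 6 ≤ ∫ z, al v a H z ^ 2 ∂(gI ι) := by
  have hd := dir_univ hv
  have e2 := (H722.eg_znp v 2)
  have e4 := (H722.eg_znp v 4)
  have e6 := (H722.eg_znp v 6)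
  have h0 : ∫ z, (dv v z ^ 3 - 3 * dv v z) * dv v z ∂(gI ι) = 0 := by
    have e : (fun z : ι → ℝ => (dv v z ^ 3 - 3 * dv v z) * dv v z) =
        fun z => H722.zn v z ^ 4 - 3 * H722.zn v z ^ 2 := by
      funext z
      show (H722.zn v z ^ 3 - 3 * H722.zn v z) * H722.zn v z = _
      ring
    rw [e, integral_sub e4.integrable (e2.const_mul 3).integrable, integral_const_mul,
      H722.m4 hd, H722.m2 hd]
    norm_num
  have h1 : ∫ z, (dv v z ^ 3 - 3 * dv v z) ^ 2 ∂(gI ι) = 6 := by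
    have e : (fun z : ι → ℝ => (dv v z ^ 3 - 3 * dv v z) ^ 2) =
        fun z => (H722.zn v z ^ 6 - 6 * H722.zn v z ^ 4) + 9 * H722.zn v z ^ 2 := by
      funext z
      show (H722.zn v z ^ 3 - 3 * H722.zn v z) ^ 2 = _
      ring
    rw [e, integral_add (e6.sub (e4.const_mul 6)).integrable (e2.const_mul 9).integrable,
      integral_sub e6.integrable (e4.const_mul 6).integrable, integral_const_mul,
      integral_const_mul, H722.m6 hd, H722.m4 hd, H722.m2 hd]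
    norm_num
  have h := eta_ge ha hv cce_h3 h0
  simp only [h1] at h
  unfold t3
  linarith

/-- the first Stein coefficient is `v · E H v` -/
theorem t1_eq (ha : GF a H) (v : ι → ℝ) :
    ∫ z, (∑ i, v i * a i z) * dv v z ∂(gI ι) = mv v H := by
  have e : (fun z => (∑ i, v i * a i z) * dv v z) =
      fun z => ∑ i, ∑ j, (v i * v j) * (z j * a i z) := by
    funext z
    unfold dv
    rw [Finset.sum_mul_sum]
    exact Finset.sum_congr rfl fun i _ => Finset.sum_congr rfl fun j _ => by ring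
  have eg1 : ∀ i j, EG fun z : ι → ℝ => (v i * v j) * (z j * a i z) := fun i j =>
    ((EG.coord j).mul (ha.eg i)).const_mul _
  rw [e, integral_finsetSum _ fun i _ => (EG.sum Finset.univ fun j _ => eg1 i j).integrable]
  unfold mv
  refine Finset.sum_congr rfl fun i _ => ?_
  rw [integral_finsetSum _ fun j _ => (eg1 i j).integrable]
  refine Finset.sum_congr rfl fun j _ => ?_
  rw [integral_const_mul, ha.stein]
  ring

/-- the size of the field -/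
noncomputable def f0 (a : ι → (ι → ℝ) → ℝ) : ℝ := ∫ z, ∑ i, a i z ^ 2 ∂(gI ι)

lemma f0_nonneg (a : ι → (ι → ℝ) → ℝ) : 0 ≤ f0 a :=
  integral_nonneg fun _ => Finset.sum_nonneg fun _ _ => sq_nonneg _

/-- distance of the mean Jacobian from rank one -/
noncomputable def g0 (v : ι → ℝ) (H : ι → ι → (ι → ℝ) → ℝ) : ℝ :=
  ∑ i, ∑ j, (MH H i j - mv v H * (v i * v j)) ^ 2

/-- fluctuations of the Jacobian orthogonally to `v` -/
noncomputable def g1 (v : ι → ℝ) (H : ι → ι → (ι → ℝ) → ℝ) : ℝ :=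
  2 * ∑ i, ∑ j, ∫ z, ((H i j z - MH H i j) - v i * ∑ k, v k * (H k j z - MH H k j)) ^ 2 ∂(gI ι)

/-- `|a|² = m² + ε0² + |a^nl|²` -/
lemma f0_eq (ha : GF a H) (hv : ∑ i, v i ^ 2 = 1) :
    f0 a = mv v H ^ 2 + g0 v H + ∫ z, ∑ i, nl a H i z ^ 2 ∂(gI ι) := by
  unfold f0 g0
  rw [field_split ha, MH_split hv]

/-- **(K) for a field**, `β < 3/2`. -/
theorem kap_gf {β : ℝ} (hβ0 : 0 < β) (hβ : β < 3 / 2) : ∃ ε κ : ℝ, 0 < ε ∧ ε ≤ 1 / 40 ∧ 0 < κ ∧
    ∀ {ι : Type} [Fintype ι] [DecidableEq ι] {a : ι → (ι → ℝ) → ℝ}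
      {H : ι → ι → (ι → ℝ) → ℝ} {v : ι → ℝ} (_ : GF a H) (_ : ∑ i, v i ^ 2 = 1)
      (n k s x lam V : ℝ), 1 ≤ n → 0 ≤ k → k ^ 2 * n = β ^ 2 →
      1 / 2 ≤ s → s ≤ 1 → x ≤ ε → 0 < lam → lam ≤ n → V ≤ ε * lam ^ 2 → 0 ≤ mv v H →
      (∀ c : ℝ, 0 < c → c ≤ 1 / 3 → V ≤ (c / 100) ^ 2 * lam ^ 2 →
        x ≤ c / 1000 → √s * k * ((2 / 3 + 2 * c) * lam) ≤ mv v H →
        c * ((√s * k) ^ 3 * lam ^ 2) ≤ -t3 v a) →
      g0 v H ≤ ε * f0 a → g1 v H ≤ ε / 4 * f0 a → (1 - ε) * lam ^ 2 / n ≤ f0 a →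
      f0 a ≤ 2 * lam ^ 2 / n →
      κ * (lam ^ 2 / n ^ 2) * f0 a ≤ ∫ z, al v a H z ^ 2 ∂(gI ι) := by
  obtain ⟨ε, κ, hε, hε1, hκ, hmain⟩ := kap_num hβ0 hβ
  refine ⟨ε, κ, hε, hε1, hκ, ?_⟩
  intro ι _ _ a H v ha hv n k s x lam V hn hk hkn hs0 hs1 hx hlam hlamn hV
    hm0 hT hg0 hg1 hlow hup
  have h1 := nl_split ha hv
  have h2 := eps1_le ha hv
  refine hmain n k s x lam V (mv v H) (t3 v a) (f0 a)
    (∫ z, ∑ i, nl a H i z ^ 2 ∂(gI ι)) (g0 v H) (g1 v H) _ hn hk hkn hs0 hs1 hx hlam hlamn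
    hV hm0 hT (t3_le ha hv) (f0_nonneg a) (f0_eq ha hv) hg0 ?_ hg1 hlow hup
  unfold g1
  linarith

/-- **(K) for a field**, the model input is the bound of the third coefficient only. -/
theorem kap_gf3 {β c : ℝ} (hβ0 : 0 < β) (hc : 0 < c) (ha : GF a H) (hv : ∑ i, v i ^ 2 = 1)
    {n k s lam : ℝ} (hn : 1 ≤ n) (hk : 0 ≤ k) (hkn : k ^ 2 * n = β ^ 2) (hs : 1 / 2 ≤ s)
    (h3 : c * ((√s * k) ^ 3 * lam ^ 2) ≤ -t3 v a) (hup : f0 a ≤ 2 * lam ^ 2 / n) :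
    c ^ 2 * β ^ 6 / 96 * (lam ^ 2 / n ^ 2) * f0 a ≤ ∫ z, al v a H z ^ 2 ∂(gI ι) :=
  kap_t3 hβ0 hc hn hk hkn hs h3 (t3_le ha hv) hup

end Vale.Agent.P146.H191
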