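import Vale.Agent.P146.H191.KapC
import Vale.Agent.P146.H325.KapQ
import Vale.Agent.P146.H604.HNumS
import Vale.Agent.P146.H712.BtFn

/-!
Plan R1, row (K): the output, the good and the bad bulks of a position system and of the SK model.
-/

open MeasureTheory ProbabilityTheory Matrix

namespace Vale.Agent.P146.H191

open Vale.Agent.P157.Lv Vale.Agent.P146.H425 Vale.Agent.P146.H325
  Vale.Agent.P146.H712 Vale.Agent.P146.H633 Vale.Agent.P146.R1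
  Vale.Agent.P146.R1C Vale.Agent.P146.R1S Vale.Agent.P146.H604
open Vale.Agent.P146.H332 hiding Nf Gf NN fr_nonneg

set_option linter.unusedSectionVars false

/-- a smaller constant -/
lemma KapG.mono {n : ℕ} {k x : ℝ} {S : CS n k x} {s τ κ κ' L L' : ℝ}
    {X : Fin n → Fin n → (Pair n → ℝ) → ℝ} (h : KapG S s τ κ L X) (hκ : κ' ≤ κ) (hL : L ≤ L') :
    KapG S s τ κ' L' X := by
  intro b b' z v hb hv hF hLF hΘ hA hn hX
  refine le_trans ?_ (h b b' z v hb hv hF (hL.trans hLF) hΘ hA hn hX)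
  have h11 := ee_nonneg (S := S) (s := s) b b' z
  have h12 : 0 ≤ FA S s b b' z / (n : ℝ) ^ 2 := by positivity
  gcongr

/-- the constant of the sum of the weights of the bad bulks -/
noncomputable def CK (β τ : ℝ) : ℝ := 64 / τ ^ 2 + 4 * Hc β 4 / τ ^ 2 + 1 + 1 / τ

lemma Hc_nonneg (β : ℝ) (hβ : 0 < β) : 0 ≤ Hc β 4 := by
  unfold Hc
  positivity

/-- **(K), the output for a position system.** -/
theorem badS_of {n : ℕ} {β A δ T ρ : ℝ} {q : Par} {S : CS n (kk n β) q.x}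
    (h : NumS S A δ T ρ ((n : ℝ) ^ 200)⁻¹) (hKR : ∀ s z, rt S.DA s z ≤ (n : ℝ) ^ 20)
    {τ κ e0 : ℝ} (hτ : 0 < τ) (hκ : 0 ≤ κ) {X : Fin n → Fin n → (Pair n → ℝ) → ℝ}
    (hX0 : ∀ b b' z, 0 ≤ X b b' z) (hX : ∀ b b', EG (X b b')) (he0 : 0 ≤ e0)
    (hXs : ∑ b : Fin n, ∑ b' ∈ Finset.univ.erase b,
      En q S.F (fun w => X b b' (P2 q w)) ≤ e0 * (n : ℝ) ^ 2)
    (hG : KapG S q.s1 τ κ (R1C.NN n β ρ / (2 * A)) X)
    (hnM : (n : ℝ) ≤ τ * (R1C.NN n β ρ / (2 * A)))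
    (hu : 1 / (q.x ^ 2 * ρ * T) + 1 / (n * T) ≤ 1) :
    BadS S A T ρ (κ / 2) (CK β τ) e0 5 := by
  have hf := h.fo
  have hq := hf.ok
  have hA := hf.A1
  have hn := hf.n0
  have hβ := hf.β0
  have hN := hf.N0
  have hx := hq.x0
  have hT := hf.Tp
  have hρ0 : 0 < ρ := by linarith [hf.ρ1]
  have hn0 : (0 : ℝ) < n := by linarith
  have hn0' : 0 < n := by exact_mod_cast hn0
  have hA0 : 0 < A := by linarith
  have hH := Hc_nonneg β hβ
  set N := R1C.NN n β ρ with hNd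
  refine ⟨fun b b' w => badK S q.s1 τ (N / (2 * A)) X b b' (P2 q w),
    fun b b' => eg_P2 (eg_badK hτ hX0 hX b b'), fun b b' w => badK_nonneg hτ hX0 b b' _,
    fun b b' w => badK_le b b' _, fun b b' hb w hbad v hv => ?_, ?_⟩
  · have h1 := badK_lt hκ hτ (by positivity) hn0' hnM hX0 hG hb.symm hv hbad
    refine le_trans (le_of_eq ?_) h1
    rw [← hNd]
    field_simp
  · have hh : ∑ b : Fin n, ∑ b' ∈ Finset.univ.erase b,
        En q S.F (fun w => hds S q.s1 b b' (P2 q w) ^ 2) ≤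
        Hc β 4 * A ^ 3 * (q.x * (√N / n) * N ^ 2 + N ^ 2 / √(n * T)) := by
      refine le_trans (le_of_eq ?_) h.hrow.1
      refine Finset.sum_congr rfl fun b _ => Finset.sum_congr rfl fun b' _ => ?_
      congr 1
      funext w
      have e : AvP q.s1 (row b ∪ row b') (fun z => fr (S.A q.s1 z) / n) (P2 q w) =
          FA S q.s1 b b' (P2 q w) / n := by
        have e1 : (fun z => fr (S.A q.s1 z) / n) = fun z => (n : ℝ)⁻¹ * fr (S.A q.s1 z) := by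
          funext z
          rw [div_eq_inv_mul]
        rw [e1, AvP_const_mul, div_eq_inv_mul]
        rfl
      unfold hds R1S.hd1
      rw [e]
    have key := badK_sum S hf h.law hKR hτ hX0 hX hh hXs
    refine key.trans ?_
    rw [← hNd]
    -- the small numbers
    obtain ⟨u, hu0, hu1, hud⟩ : ∃ u : ℝ, 0 < u ∧ u ≤ 1 ∧
        u = 1 / (q.x ^ 2 * ρ * T) + 1 / (n * T) := ⟨_, by positivity, hu, rfl⟩
    have e1 : √(N / (n : ℝ) ^ 2) = √N / n := by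
      rw [Real.sqrt_div hN.le, Real.sqrt_sq hn0.le]
    have e2 : √(1 / (n * T)) = 1 / √(n * T) := by
      rw [Real.sqrt_div zero_le_one, Real.sqrt_one]
    have hu8 : u ≤ u ^ ((1 : ℝ) / 8) := by
      conv_lhs => rw [← Real.rpow_one u]
      exact Real.rpow_le_rpow_of_exponent_ge hu0 hu1 (by norm_num)
    rw [← hud, e1, e2]
    have hsN : 0 ≤ √N := Real.sqrt_nonneg _
    have hsT : 0 < √(n * T) := Real.sqrt_pos.2 (by positivity)
    set r := q.x * (√N / n) with hr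
    set t := 1 / √(n * T) with ht
    have hr0 : 0 ≤ r := by positivity
    have ht0 : 0 ≤ t := by positivity
    set U := u ^ ((1 : ℝ) / 8) with hU
    have hU0 : 0 < U := Real.rpow_pos_of_pos hu0 _
    have f1 : 64 * A ^ 4 / τ ^ 2 * u * (n : ℝ) ^ 2 ≤ 64 / τ ^ 2 * A ^ 5 * U * (n : ℝ) ^ 2 := by
      have a1 : A ^ 4 ≤ A ^ 5 := pow_le_pow_right₀ hA (by norm_num)
      calc 64 * A ^ 4 / τ ^ 2 * u * (n : ℝ) ^ 2 = 64 / τ ^ 2 * A ^ 4 * u * (n : ℝ) ^ 2 := by ring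
        _ ≤ _ := by gcongr
    have f2 : 4 * A ^ 2 * (n : ℝ) ^ 2 / (τ * N) ^ 2 *
        (Hc β 4 * A ^ 3 * (r * N ^ 2 + N ^ 2 / √(n * T))) =
        4 * Hc β 4 / τ ^ 2 * A ^ 5 * (r + t) * (n : ℝ) ^ 2 := by
      rw [ht]
      field_simp
    have f3 : (n : ℝ) ≤ 1 * A ^ 5 * (1 / n) * (n : ℝ) ^ 2 := by
      have a1 : 1 ≤ A ^ 5 := one_le_pow₀ hA
      have a2 : 1 * A ^ 5 * (1 / n) * (n : ℝ) ^ 2 = A ^ 5 * n := by
        field_simp
      rw [a2]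
      exact le_mul_of_one_le_left hn0.le a1
    have f4 : e0 * (n : ℝ) ^ 2 / τ ≤ 1 / τ * A ^ 5 * e0 * (n : ℝ) ^ 2 := by
      have a1 : 1 ≤ A ^ 5 := one_le_pow₀ hA
      calc e0 * (n : ℝ) ^ 2 / τ = 1 / τ * 1 * e0 * (n : ℝ) ^ 2 := by ring
        _ ≤ _ := by gcongr
    rw [f2]
    -- the four summands
    have hc1 : 64 / τ ^ 2 ≤ CK β τ := by
      unfold CK
      have : 0 ≤ 4 * Hc β 4 / τ ^ 2 + 1 + 1 / τ := by positivity
      linarith
    have hc2 : 4 * Hc β 4 / τ ^ 2 ≤ CK β τ := by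
      unfold CK
      have : 0 ≤ 64 / τ ^ 2 + 1 + 1 / τ := by positivity
      linarith
    have hc3 : 1 ≤ CK β τ := by
      unfold CK
      have : 0 ≤ 64 / τ ^ 2 + 4 * Hc β 4 / τ ^ 2 + 1 / τ := by positivity
      linarith
    have hc4 : 1 / τ ≤ CK β τ := by
      unfold CK
      have : 0 ≤ 64 / τ ^ 2 + 4 * Hc β 4 / τ ^ 2 + 1 := by positivity
      linarith
    have g1 : 64 / τ ^ 2 * A ^ 5 * U * (n : ℝ) ^ 2 ≤ CK β τ * A ^ 5 * U * (n : ℝ) ^ 2 := by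
      gcongr
    have g2 : 4 * Hc β 4 / τ ^ 2 * A ^ 5 * (r + t) * (n : ℝ) ^ 2 ≤
        CK β τ * A ^ 5 * (r + t) * (n : ℝ) ^ 2 := by
      gcongr
    have g3 : 1 * A ^ 5 * (1 / n) * (n : ℝ) ^ 2 ≤ CK β τ * A ^ 5 * (1 / n) * (n : ℝ) ^ 2 := by
      gcongr
    have g4 : 1 / τ * A ^ 5 * e0 * (n : ℝ) ^ 2 ≤ CK β τ * A ^ 5 * e0 * (n : ℝ) ^ 2 := by
      gcongr
    have e3 : CK β τ * A ^ 5 * (U + e0 + r + t + 1 / n) * (n : ℝ) ^ 2 =
        CK β τ * A ^ 5 * U * (n : ℝ) ^ 2 + CK β τ * A ^ 5 * (r + t) * (n : ℝ) ^ 2 +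
        CK β τ * A ^ 5 * (1 / n) * (n : ℝ) ^ 2 + CK β τ * A ^ 5 * e0 * (n : ℝ) ^ 2 := by
      ring
    rw [e3]
    linarith

/-- the numbers of (K) for large `n` -/
lemma num_large {n : ℕ} {β A δ T ρ τ : ℝ} {q : Par} {F : (Pair n → ℝ) → ℝ}
    {AM : ℝ → (Pair n → ℝ) → Matrix (Fin n) (Fin n) ℝ}
    {DM : ℝ → Pair n → (Pair n → ℝ) → Matrix (Fin n) (Fin n) ℝ}
    (h : Fo n β A δ T ρ q F AM DM) (hτ : 0 < τ)
    (hn7 : max (1 / τ) (max 1 (β ^ 2 / τ)) ≤ (n : ℝ) ^ ((1 : ℝ) / 7)) :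
    q.x ≤ τ ∧ (n : ℝ) ≤ τ * (R1C.NN n β ρ / (2 * A)) ∧ 1 / 2 ≤ q.s1 := by
  have hx := h.ok.x0
  have hT := h.Tp
  have hT1 := h.T1
  have hA1 := h.A1
  have hn := h.n0
  have hβ := h.β0
  have hn0 : (0 : ℝ) < n := by linarith
  have hρ0 : 0 < ρ := by linarith [h.ρ1]
  have h7 := h.x7
  obtain ⟨y, hy⟩ : ∃ y : ℝ, y = (n : ℝ) ^ ((1 : ℝ) / 7) := ⟨_, rfl⟩
  rw [← hy] at h7 hn7
  have y1 : 1 / τ ≤ y := (le_max_left _ _).trans hn7
  have y2 : 1 ≤ y := ((le_max_left _ _).trans (le_max_right _ _)).trans hn7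
  have y3 : β ^ 2 / τ ≤ y := ((le_max_right _ _).trans (le_max_right _ _)).trans hn7
  rw [div_le_iff₀ hτ] at y1 y3
  refine ⟨?_, ?_, ?_⟩
  · have h1 : q.x * (y * τ) ≤ τ := by
      calc q.x * (y * τ) = (q.x * y) * τ := by ring
        _ ≤ 1 * τ := mul_le_mul_of_nonneg_right h7 hτ.le
        _ = τ := one_mul τ
    have h2 : q.x * 1 ≤ q.x * (y * τ) := mul_le_mul_of_nonneg_left y1 hx.le
    linarith
  · -- `A y² ≤ ρ`
    have h1 : A ≤ A ^ 40 := le_self_pow₀ hA1 (by norm_num)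
    have h2 := h.xrT
    have h3 : q.x ^ 2 * ρ * T ≤ q.x ^ 2 * ρ := mul_le_of_le_one_right (by positivity) hT1
    have h4 : A ≤ q.x ^ 2 * ρ := by linarith
    have h5 : (q.x * y) ^ 2 ≤ 1 := pow_le_one₀ (by positivity) h7
    have h6 : A * y ^ 2 ≤ ρ := by
      calc A * y ^ 2 ≤ q.x ^ 2 * ρ * y ^ 2 := by gcongr
        _ = (q.x * y) ^ 2 * ρ := by ring
        _ ≤ 1 * ρ := mul_le_mul_of_nonneg_right h5 hρ0.le
        _ = ρ := one_mul ρ
    have h7 : β ^ 2 * A ≤ τ * ρ := by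
      have h8 : y ≤ y ^ 2 := by nlinarith
      calc β ^ 2 * A ≤ y * τ * A := by gcongr
        _ ≤ y ^ 2 * τ * A := by gcongr
        _ = τ * (A * y ^ 2) := by ring
        _ ≤ τ * ρ := mul_le_mul_of_nonneg_left h6 hτ.le
    have hA0 : 0 < A := by linarith
    have e : τ * (R1C.NN n β ρ / (2 * A)) = (τ * ρ) * n / (β ^ 2 * A) := by
      unfold R1C.NN
      field_simp
    rw [e, le_div_iff₀ (by positivity)]
    nlinarith
  · have h1 := h.hs1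
    rw [h.ht1] at h1
    linarith

/-- **(K) for the SK model**, `β < 3/2`, in the letters of the assembly. -/
theorem badSk {β : ℝ} (hβ0 : 0 < β) (hβ : β < 3 / 2) : BadSk β := by
  obtain ⟨τ, κ, hτ, -, hκ, hG⟩ := kapG_sk hβ0 hβ
  obtain ⟨n₁, -, h1⟩ := numS_of hβ0
  obtain ⟨N2, h2⟩ := pow_large (α := 1 / 7) (by norm_num) (max (1 / τ) (max 1 (β ^ 2 / τ)))
  have hH := Hc_nonneg β hβ0
  refine ⟨min κ 1 / 2, CK β τ, 5, by positivity, ?_, ?_, fun α hα => ?_⟩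
  · have := min_le_right κ 1
    linarith
  · unfold CK
    positivity
  obtain ⟨N3, h3⟩ := pow_large hα (max 10 (β ^ 2))
  refine ⟨max n₁ (max N2 N3), fun n hn δ T ρ q hk hx hx1 hf hT => ?_⟩
  have g1 : n₁ ≤ n := (le_max_left _ _).trans hn
  have g2 := h2 n (((le_max_left _ _).trans (le_max_right _ _)).trans hn)
  have g3 := h3 n (((le_max_right _ _).trans (le_max_right _ _)).trans hn)
  have hnum := h1 n g1 q (skCS n hk hx hx1) ((n : ℝ) ^ α) δ T ρ hf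
  obtain ⟨hxτ, hnM, hs⟩ := num_large hf hτ g2
  have hn2 := hf.n0
  have hkn : kk n β ^ 2 * n = β ^ 2 := by
    unfold kk
    rw [div_pow, Real.sq_sqrt (by linarith)]
    field_simp
  have hGk := (hG hk hx hx1 (s := q.s1) (L := R1C.NN n β ρ / (2 * (n : ℝ) ^ α)) (by linarith)
    hkn hs (hf.ok.h12.trans hf.ok.h2) hxτ).mono (min_le_left κ 1) le_rfl
  refine badS_of hnum (hKR_sk hk hx hx1 hf) hτ (by positivity) (fun _ _ _ => le_rfl)
    (fun _ _ => EG.const 0) le_rfl ?_ hGk hnM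
    (Fo.u_le hf ((le_max_left _ _).trans g3) ((le_max_right _ _).trans g3))
  simp only [zero_mul]
  refine Finset.sum_nonpos fun b _ => Finset.sum_nonpos fun b' _ => ?_
  have := En_const_mul (q := q) (F := (skCS n hk hx hx1).F) 0 fun _ => 0
  simp only [zero_mul] at this
  rw [this]

end Vale.Agent.P146.H191
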