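import Mathlib

/-!
Plan R1, row (K): the numbers of a fixed bulk.
-/

namespace Vale.Agent.P146.H191

lemma kap_const {β ε C0 C1 : ℝ} (_ : 0 < β) (hε : 0 < ε) (hε1 : ε ≤ 1 / 40) (hC0 : 0 ≤ C0)
    (hC1 : 0 ≤ C1) : ∃ η τ : ℝ, 0 < η ∧ η ≤ 1 ∧ 0 < τ ∧ 100 * τ ≤ ε ∧
      C0 * β ^ 2 * τ ≤ ε / 100 ∧ C1 * β ^ 6 * (τ / η ^ 3) ≤ ε / 100 ∧
      C1 * β ^ 6 * η ≤ ε / 64 := by
  obtain ⟨M, hM⟩ : ∃ M, M = (C1 + 1) * (β ^ 6 + 1) := ⟨_, rfl⟩
  obtain ⟨Q, hQ⟩ : ∃ Q, Q = (C0 + 1) * (β ^ 2 + 1) := ⟨_, rfl⟩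
  have b6 : 0 ≤ β ^ 6 := by positivity
  have b2 : 0 ≤ β ^ 2 := by positivity
  have hM1 : 1 ≤ M := by rw [hM]; nlinarith
  have hQ1 : 1 ≤ Q := by rw [hQ]; nlinarith
  have hCM : C1 * β ^ 6 ≤ M := by rw [hM]; nlinarith
  have hCQ : C0 * β ^ 2 ≤ Q := by rw [hQ]; nlinarith
  have hM0 : 0 < M := by linarith
  have hQ0 : 0 < Q := by linarith
  obtain ⟨η, hη⟩ : ∃ η, η = ε / (64 * M) := ⟨_, rfl⟩
  have hη0 : 0 < η := by rw [hη]; positivity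
  have hη1 : η ≤ 1 := by
    rw [hη, div_le_one (by positivity)]
    linarith
  have hη3 : η ^ 3 ≤ 1 := pow_le_one₀ hη0.le hη1
  obtain ⟨τ, hτ⟩ : ∃ τ, τ = ε * η ^ 3 / (100 * (Q * M)) := ⟨_, rfl⟩
  have hQM : 1 ≤ Q * M := by nlinarith
  have hτ0 : 0 < τ := by rw [hτ]; positivity
  have hτe : τ * (100 * (Q * M)) = ε * η ^ 3 := by
    rw [hτ]
    field_simp
  refine ⟨η, τ, hη0, hη1, hτ0, ?_, ?_, ?_, ?_⟩
  · have h1 : τ * (100 * 1) ≤ τ * (100 * (Q * M)) := by gcongr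
    have h2 : ε * η ^ 3 ≤ ε * 1 := by gcongr
    linarith
  · have h1 : C0 * β ^ 2 * τ ≤ Q * τ := mul_le_mul_of_nonneg_right hCQ hτ0.le
    have h2 : Q * τ * 1 ≤ Q * τ * M := mul_le_mul_of_nonneg_left hM1 (by positivity)
    have h3 : ε * η ^ 3 ≤ ε * 1 := by gcongr
    nlinarith
  · have h1 : τ / η ^ 3 * (100 * (Q * M)) = ε := by
      rw [div_mul_eq_mul_div, hτe]
      field_simp
    have h0 : 0 ≤ τ / η ^ 3 := by positivity
    have h2 : C1 * β ^ 6 * (τ / η ^ 3) ≤ M * (τ / η ^ 3) := mul_le_mul_of_nonneg_right hCM h0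
    have h3 : M * (τ / η ^ 3) * 1 ≤ M * (τ / η ^ 3) * Q :=
      mul_le_mul_of_nonneg_left hQ1 (by positivity)
    nlinarith
  · have h1 : η * (64 * M) = ε := by rw [hη]; field_simp
    have h2 : C1 * β ^ 6 * η ≤ M * η := mul_le_mul_of_nonneg_right hCM hη0.le
    linarith

/-- **The numbers of a fixed bulk.** `F = E |C|²`, `Θ` the smallness functional, `A0 = E |a|²`. -/
theorem kap_bulk_num {β ε C0 C1 : ℝ} (hβ : 0 < β) (hε : 0 < ε) (hε1 : ε ≤ 1 / 40)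
    (hC0 : 0 ≤ C0) (hC1 : 0 ≤ C1) : ∃ τ : ℝ, 0 < τ ∧ τ ≤ ε ∧
    ∀ (n k F Θ lam V A0 E0 E1 K D : ℝ), 1 ≤ n → k ^ 2 * n = β ^ 2 → 0 < F → F ≤ n ^ 2 →
      Θ ≤ (τ * F) ^ 2 → K ≤ Θ → F * D ≤ Θ → 0 ≤ lam → lam ^ 2 ≤ F →
      F - 2 - D - 9 * √Θ ≤ lam ^ 2 → (∀ mu : ℝ, 0 < mu → V ≤ mu / 2 + K / (2 * mu) + D) →
      |1 + A0 - F / n| ≤ τ * (F / n) → n ≤ τ * F → E0 ≤ C0 * k ^ 2 * √Θ →
      (∀ η : ℝ, 0 < η → η ≤ 1 → E1 ≤ C1 * k ^ 6 * (Θ / η ^ 3 + η * (n ^ 2 * F + K))) →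
      0 < lam ∧ lam ≤ n ∧ V ≤ ε * lam ^ 2 ∧ E0 ≤ ε * A0 ∧ E1 ≤ ε / 4 * A0 ∧
        (1 - ε) * lam ^ 2 / n ≤ A0 ∧ A0 ≤ 2 * lam ^ 2 / n ∧ F ≤ 2 * lam ^ 2 := by
  obtain ⟨η, τ, hη0, hη1, hτ0, c1, c2, c3, c4⟩ := kap_const hβ hε hε1 hC0 hC1
  refine ⟨τ, hτ0, by linarith, ?_⟩
  intro n k F Θ lam V A0 E0 E1 K D hn hkn hF hFn hΘ hK hD hlam hlamF hlow hV hA hnF hE0 hE1
  have hn0 : 0 < n := by linarith
  have hτ1 : τ ≤ 1 := by linarith
  have hτF : 0 < τ * F := by positivity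
  have hsΘ : √Θ ≤ τ * F := by
    rw [Real.sqrt_le_left hτF.le]
    exact hΘ
  have hDF : D ≤ τ * F := by
    have h1 : F * D ≤ F * (τ * (τ * F)) := by
      calc F * D ≤ (τ * F) ^ 2 := hD.trans hΘ
        _ = F * (τ * (τ * F)) := by ring
    have h2 := le_of_mul_le_mul_left h1 hF
    have h3 : τ * (τ * F) ≤ 1 * (τ * F) := mul_le_mul_of_nonneg_right hτ1 hτF.le
    linarith
  have h1τ : 1 ≤ τ * F := hn.trans hnF
  have hlam2 : (1 - 12 * τ) * F ≤ lam ^ 2 := by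
    linarith
  have h12 : 12 * τ ≤ 1 / 4 := by linarith
  have hF2 : F ≤ 2 * lam ^ 2 := by
    have : (1 / 2) * F ≤ (1 - 12 * τ) * F := mul_le_mul_of_nonneg_right (by linarith) hF.le
    linarith
  have hlp : 0 < lam := by
    rcases hlam.eq_or_lt with h | h
    · rw [← h] at hF2
      norm_num at hF2
      linarith
    · exact h
  have hln : lam ≤ n := by
    have : lam ^ 2 ≤ n ^ 2 := hlamF.trans hFn
    exact (abs_le_of_sq_le_sq' this hn0.le).2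
  obtain ⟨f, hf⟩ : ∃ f, f = F / n := ⟨_, rfl⟩
  have hf0 : 0 < f := by rw [hf]; positivity
  have hfn : f * n = F := by rw [hf]; field_simp
  rw [← hf] at hA
  have h1f : 1 ≤ τ * f := by
    have : n * 1 ≤ n * (τ * f) := by
      calc n * 1 = n := mul_one n
        _ ≤ τ * F := hnF
        _ = n * (τ * f) := by rw [← hfn]; ring
    exact le_of_mul_le_mul_left this hn0
  have hA' := abs_le.1 hA
  have hAlow : (1 - 2 * τ) * f ≤ A0 := by linarith [hA'.1]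
  have hAup : A0 ≤ (1 + τ) * f := by linarith [hA'.2]
  have hl2 : lam ^ 2 / n ≤ f := by
    rw [hf]
    gcongr
  have hl3 : (1 - 12 * τ) * f ≤ lam ^ 2 / n := by
    rw [hf, ← mul_div_assoc]
    gcongr
  have hk2 : k ^ 2 = β ^ 2 / n := by
    rw [eq_div_iff hn0.ne']
    exact hkn
  refine ⟨hlp, hln, ?_, ?_, ?_, ?_, ?_, hF2⟩
  · -- `V`
    have h1 := hV (τ * F) hτF
    have h2 : K / (2 * (τ * F)) ≤ τ * F / 2 := by
      rw [div_le_iff₀ (by positivity)]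
      calc K ≤ (τ * F) ^ 2 := hK.trans hΘ
        _ = τ * F / 2 * (2 * (τ * F)) := by ring
    have h3 : τ * F ≤ ε / 100 * F := mul_le_mul_of_nonneg_right (by linarith) hF.le
    have h4 : ε / 100 * F ≤ ε / 100 * (2 * lam ^ 2) := mul_le_mul_of_nonneg_left hF2 (by positivity)
    have h5 : 0 ≤ ε * lam ^ 2 := by positivity
    linarith
  · -- `E0`
    have h1 : C0 * k ^ 2 * √Θ ≤ C0 * k ^ 2 * (τ * F) :=
      mul_le_mul_of_nonneg_left hsΘ (by positivity)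
    have h2 : C0 * k ^ 2 * (τ * F) = C0 * β ^ 2 * τ * f := by
      rw [hk2, hf]
      ring
    have h3 : C0 * β ^ 2 * τ * f ≤ ε / 100 * f := mul_le_mul_of_nonneg_right c2 hf0.le
    have h4 : ε * ((1 - 2 * τ) * f) ≤ ε * A0 := mul_le_mul_of_nonneg_left hAlow hε.le
    have h5 : ε / 100 * f ≤ ε * ((1 - 2 * τ) * f) := by
      have : 0 ≤ ε * f := by positivity
      have h6 : (1 / 100) * (ε * f) ≤ (1 - 2 * τ) * (ε * f) :=
        mul_le_mul_of_nonneg_right (by linarith) this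
      linarith
    linarith
  · -- `E1`
    have h1 := hE1 η hη0 hη1
    have hΘ2 : Θ ≤ τ * (n ^ 2 * F) := by
      calc Θ ≤ (τ * F) ^ 2 := hΘ
        _ = τ * (τ * F * F) := by ring
        _ ≤ τ * (1 * n ^ 2 * F) := by gcongr
        _ = τ * (n ^ 2 * F) := by ring
    have hK2 : K ≤ n ^ 2 * F := by
      have : τ * (n ^ 2 * F) ≤ 1 * (n ^ 2 * F) := mul_le_mul_of_nonneg_right hτ1 (by positivity)
      linarith
    have h2 : Θ / η ^ 3 + η * (n ^ 2 * F + K) ≤ (τ / η ^ 3 + 2 * η) * (n ^ 2 * F) := by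
      have h3 : Θ / η ^ 3 ≤ τ * (n ^ 2 * F) / η ^ 3 := by gcongr
      have h4 : η * (n ^ 2 * F + K) ≤ η * (n ^ 2 * F + n ^ 2 * F) := by gcongr
      have h5 : τ * (n ^ 2 * F) / η ^ 3 = τ / η ^ 3 * (n ^ 2 * F) := by ring
      linarith
    have h3 : C1 * k ^ 6 * ((τ / η ^ 3 + 2 * η) * (n ^ 2 * F)) =
        (C1 * β ^ 6 * (τ / η ^ 3) + 2 * (C1 * β ^ 6 * η)) * f := by
      have : k ^ 6 = β ^ 6 / n ^ 3 := by
        calc k ^ 6 = (k ^ 2) ^ 3 := by ring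
          _ = β ^ 6 / n ^ 3 := by rw [hk2]; ring
      rw [this, ← hfn]
      field_simp
    have h4 : C1 * k ^ 6 * (Θ / η ^ 3 + η * (n ^ 2 * F + K)) ≤
        C1 * k ^ 6 * ((τ / η ^ 3 + 2 * η) * (n ^ 2 * F)) := by
      have hk6 : 0 ≤ k ^ 6 := by
        calc (0 : ℝ) ≤ (k ^ 2) ^ 3 := by positivity
          _ = k ^ 6 := by ring
      exact mul_le_mul_of_nonneg_left h2 (by positivity)
    have h5 : (C1 * β ^ 6 * (τ / η ^ 3) + 2 * (C1 * β ^ 6 * η)) * f ≤ (ε / 16) * f :=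
      mul_le_mul_of_nonneg_right (by linarith) hf0.le
    have h6 : ε / 4 * ((1 - 2 * τ) * f) ≤ ε / 4 * A0 :=
      mul_le_mul_of_nonneg_left hAlow (by positivity)
    have h7 : (ε / 16) * f ≤ ε / 4 * ((1 - 2 * τ) * f) := by
      have : 0 ≤ ε / 4 * f := by positivity
      have h6 : (1 / 4) * (ε / 4 * f) ≤ (1 - 2 * τ) * (ε / 4 * f) :=
        mul_le_mul_of_nonneg_right (by linarith) this
      linarith
    linarith
  · -- lower bound of `A0`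
    have h1 : (1 - ε) * lam ^ 2 / n = (1 - ε) * (lam ^ 2 / n) := by ring
    have h2 : (1 - ε) * (lam ^ 2 / n) ≤ (1 - ε) * f :=
      mul_le_mul_of_nonneg_left hl2 (by linarith)
    have h3 : (1 - ε) * f ≤ (1 - 2 * τ) * f := mul_le_mul_of_nonneg_right (by linarith) hf0.le
    linarith
  · -- upper bound of `A0`
    have h1 : 2 * lam ^ 2 / n = 2 * (lam ^ 2 / n) := by ring
    have h3 : (1 + τ) * f ≤ 2 * ((1 - 12 * τ) * f) := by
      have : (1 + τ) * f ≤ (2 * (1 - 12 * τ)) * f :=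
        mul_le_mul_of_nonneg_right (by linarith) hf0.le
      linarith
    linarith

end Vale.Agent.P146.H191
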