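import Vale.Agent.P146.H191.KapK
import Vale.Agent.P146.H722.Jet2

/-!
Plan R1, row (K): the third Stein coefficient of the clean column in the letters of the
derivatives of the value function.
-/

open MeasureTheory ProbabilityTheory Matrix

namespace Vale.Agent.P146.H191

open Vale.Agent.P157.Lv Vale.Agent.P146.H425 Vale.Agent.P146.R1S

variable {n : ℕ} {k x : ℝ} {S : CS n k x}

/-- the third coefficient of `kapG_t3` is `A3S`. -/
lemma t3_A3S (s : ℝ) (b b' : Fin n) (v : Fin n → ℝ) (z : Pair n → ℝ) :
    t3 v (R1C.fa (S.A s) s b b' z) = H722.A3S S s b b' v z := rfl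

end Vale.Agent.P146.H191
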