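import Vale.Agent.P146.H191.F1Sum

/-!
Plan R2, row B9: the exact form of (F01) without frozen matrices. Integration by parts of the row
of the position `P3` in `∑ y_e (C Y C)_e`, where the weight `Y` depends on another position.
-/

open MeasureTheory ProbabilityTheory Finset

namespace Vale.Agent.P146.H191

open Vale.Agent.P157.Lv Vale.Agent.P146.H425 Vale.Agent.P146.H325 Vale.Agent.P146.H332
  Vale.Agent.P146.H712 Vale.Agent.P146.R1 Vale.Agent.P146.R1C Vale.Agent.P146.H706
  Vale.Agent.P146.R1S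

set_option linter.unusedSectionVars false

section gen

variable {κ : Type} [Fintype κ] [DecidableEq κ] {φ : (K4 κ → ℝ) → ℝ}
  {ψ' : K4 κ → (K4 κ → ℝ) → ℝ}

/-- The covariance of two linear positions. -/
def cv (a a0 : Fin 4 → ℝ) : ℝ := a 0 * a0 0 + a 1 * a0 1 + a 2 * a0 2 + a 3 * a0 3

/-- **Integration by parts with two positions**: `f` at the position `lp a`, `g` at `lp a0`. -/
theorem Den.ibp2 (h : Den φ ψ') (a a0 : Fin 4 → ℝ) {e : κ} {c : (K4 κ → ℝ) → ℝ}
    {f f' g g' : (κ → ℝ) → ℝ} (hc : EG c) (hci : ∀ j : K4 κ, bs j = e → PD j c (fun _ => 0))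
    (hf : EG f) (hf' : EG f') (hd : PD e f f') (hg : EG g) (hg' : EG g') (hdg : PD e g g') :
    Im φ (fun w => c w * (H712.lp a w e * (f (H712.lp a w) * g (H712.lp a0 w)))) =
      Im φ (fun w => c w * (vr a * (f' (H712.lp a w) * g (H712.lp a0 w)) +
        cv a a0 * (f (H712.lp a w) * g' (H712.lp a0 w)) +
        f (H712.lp a w) * g (H712.lp a0 w) * dr a ψ' e w)) := by
  have ef : EG fun w => f (H712.lp a w) := eg_lp _ hf
  have ef' : EG fun w => f' (H712.lp a w) := eg_lp _ hf'
  have eg : EG fun w => g (H712.lp a0 w) := eg_lp _ hg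
  have eg' : EG fun w => g' (H712.lp a0 w) := eg_lp _ hg'
  have one : ∀ j : K4 κ, bs j = e →
      Im φ (fun w => w j * (c w * (f (H712.lp a w) * g (H712.lp a0 w)))) =
        Im φ (fun w => c w * (a (bl j) * (f' (H712.lp a w) * g (H712.lp a0 w)) +
          a0 (bl j) * (f (H712.lp a w) * g' (H712.lp a0 w))) +
          c w * (f (H712.lp a w) * g (H712.lp a0 w)) * ψ' j w) := by
    intro j hj
    have hdj : PD j (fun w => c w * (f (H712.lp a w) * g (H712.lp a0 w)))
        (fun w => c w * (a (bl j) * (f' (H712.lp a w) * g (H712.lp a0 w)) +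
          a0 (bl j) * (f (H712.lp a w) * g' (H712.lp a0 w)))) := by
      have h1 : PD (bs j) f f' := by rw [hj]; exact hd
      have h2 : PD (bs j) g g' := by rw [hj]; exact hdg
      refine ((hci j hj).mul ((pd_lp a h1).mul (pd_lp a0 h2))).congr fun w => ?_
      ring
    exact h.ibp_j hdj (hc.mul (ef.mul eg))
      (hc.mul (((ef'.mul eg).const_mul _).add ((ef.mul eg').const_mul _)))
  have eg1 : ∀ j : K4 κ, EG fun w : K4 κ → ℝ =>
      w j * (c w * (f (H712.lp a w) * g (H712.lp a0 w))) := fun j =>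
    (EG.coord j).mul (hc.mul (ef.mul eg))
  have eg2 : ∀ j : K4 κ, EG fun w => c w * (a (bl j) * (f' (H712.lp a w) * g (H712.lp a0 w)) +
      a0 (bl j) * (f (H712.lp a w) * g' (H712.lp a0 w))) +
      c w * (f (H712.lp a w) * g (H712.lp a0 w)) * ψ' j w := fun j =>
    (hc.mul (((ef'.mul eg).const_mul _).add ((ef.mul eg').const_mul _))).add
      ((hc.mul (ef.mul eg)).mul (h.eg' j))
  have o0 := one (Sum.inl e) rfl
  have o1 := one (Sum.inr (Sum.inl e)) rfl
  have o2 := one (Sum.inr (Sum.inr (Sum.inl e))) rfl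
  have o3 := one (Sum.inr (Sum.inr (Sum.inr e))) rfl
  have hL : Im φ (fun w => c w * (H712.lp a w e * (f (H712.lp a w) * g (H712.lp a0 w)))) =
      a 0 * Im φ (fun w => w (Sum.inl e) * (c w * (f (H712.lp a w) * g (H712.lp a0 w)))) +
      a 1 * Im φ (fun w => w (Sum.inr (Sum.inl e)) *
        (c w * (f (H712.lp a w) * g (H712.lp a0 w)))) +
      a 2 * Im φ (fun w => w (Sum.inr (Sum.inr (Sum.inl e))) *
        (c w * (f (H712.lp a w) * g (H712.lp a0 w)))) +
      a 3 * Im φ (fun w => w (Sum.inr (Sum.inr (Sum.inr e))) *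
        (c w * (f (H712.lp a w) * g (H712.lp a0 w)))) := by
    rw [← Im_const_mul, ← Im_const_mul, ← Im_const_mul, ← Im_const_mul,
      ← Im_add h.eg ((eg1 _).const_mul _) ((eg1 _).const_mul _),
      ← Im_add h.eg (((eg1 _).const_mul _).add ((eg1 _).const_mul _)) ((eg1 _).const_mul _),
      ← Im_add h.eg ((((eg1 _).const_mul _).add ((eg1 _).const_mul _)).add
        ((eg1 _).const_mul _)) ((eg1 _).const_mul _)]
    refine Im_congr fun w => ?_
    simp only [H712.lp]
    ring
  rw [hL, o0, o1, o2, o3, ← Im_const_mul, ← Im_const_mul, ← Im_const_mul, ← Im_const_mul,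
      ← Im_add h.eg ((eg2 _).const_mul _) ((eg2 _).const_mul _),
      ← Im_add h.eg (((eg2 _).const_mul _).add ((eg2 _).const_mul _)) ((eg2 _).const_mul _),
      ← Im_add h.eg ((((eg2 _).const_mul _).add ((eg2 _).const_mul _)).add
        ((eg2 _).const_mul _)) ((eg2 _).const_mul _)]
  refine Im_congr fun w => ?_
  simp only [dr, vr, cv, bl]
  ring

end gen

section oth

variable {n : ℕ}

lemma oth_mem {b : Fin n} {e : Pair n} (he : e ∈ row b) : e ∈ row (oth b e) := by
  rw [mem_row] at he ⊢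
  unfold oth
  split_ifs with h
  · exact Or.inr rfl
  · exact Or.inl rfl

lemma oth_oth {b : Fin n} {e : Pair n} (he : e ∈ row b) : oth (oth b e) e = b := by
  have h := e.2
  rw [mem_row] at he
  unfold oth
  by_cases h1 : e.1.1 = b
  · rw [if_pos h1, if_neg h.ne, h1]
  · rw [if_neg h1, if_pos rfl]
    exact he.resolve_left h1

end oth

variable {n : ℕ} {k x : ℝ} {S : CS n k x} {s : ℝ} {φ : (K4 (Pair n) → ℝ) → ℝ}
  {ψ' : K4 (Pair n) → (K4 (Pair n) → ℝ) → ℝ} {a a0 : Fin 4 → ℝ}

/-- sums of means -/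
lemma Im_sum4 (h : EG φ) (t : Fin n → Pair n → Fin n → Fin n → (K4 (Pair n) → ℝ) → ℝ)
    (ht : ∀ b e i l, EG (t b e i l)) :
    Im φ (fun w => ∑ b, ∑ e ∈ row b, ∑ i, ∑ l, t b e i l w) =
      ∑ b, ∑ e ∈ row b, ∑ i, ∑ l, Im φ (t b e i l) := by
  rw [Im_sum h _ fun b _ => EG.sum _ fun e _ => EG.sum _ fun i _ => EG.sum _ fun l _ => ht b e i l]
  refine Finset.sum_congr rfl fun b _ => ?_
  rw [Im_sum h _ fun e _ => EG.sum _ fun i _ => EG.sum _ fun l _ => ht b e i l]
  refine Finset.sum_congr rfl fun e _ => ?_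
  rw [Im_sum h _ fun i _ => EG.sum _ fun l _ => ht b e i l]
  refine Finset.sum_congr rfl fun i _ => ?_
  exact Im_sum h _ fun l _ => ht b e i l

/-- The row `b` of `∑ y_e (C Y C)_e`. -/
noncomputable def yrow (S : CS n k x) (s : ℝ) (a : Fin 4 → ℝ) (Y : MF n) (b : Fin n)
    (w : K4 (Pair n) → ℝ) : ℝ :=
  ∑ e ∈ row b, H712.lp a w e * ∑ i, ∑ l, Y w i l *
    (S.A s (H712.lp a w) i b * S.A s (H712.lp a w) l (oth b e))

/-- The row `b` of the touch of the weight. -/
noncomputable def xrow (S : CS n k x) (s : ℝ) (a : Fin 4 → ℝ) (DY : Pair n → MF n) (b : Fin n)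
    (w : K4 (Pair n) → ℝ) : ℝ :=
  ∑ e ∈ row b, ∑ i, ∑ l, DY e w i l *
    (S.A s (H712.lp a w) i b * S.A s (H712.lp a w) l (oth b e))

/-- **The exact identity**: `E ∑ y_e (C Y C)_e`. -/
theorem p2_ibp (hs : 0 < s) (h : Den φ ψ') {G : Fin n → Fin n → (Pair n → ℝ) → ℝ}
    {DG : Pair n → Fin n → Fin n → (Pair n → ℝ) → ℝ} (hG : ∀ i l, EG (G i l))
    (hD : ∀ e i l, EG (DG e i l)) (hd : ∀ e i l, PD e (G i l) (DG e i l))
    (hsy : ∀ i l z, G i l z = G l i z) :
    Im φ (fun w => ∑ b, yrow S s a (fun w i l => G i l (H712.lp a0 w)) b w) =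
      2 * (k * vr a) * Im φ (fun w => ∑ b, ∑ i, ∑ l, G i l (H712.lp a0 w) *
        ∑ j, S.A s (H712.lp a w) l j * S.H s b (H712.lp a w) i j) +
      cv a a0 * Im φ (fun w => ∑ b, xrow S s a (fun e w i l => DG e i l (H712.lp a0 w)) b w) +
      Im φ (fun w => ∑ b, ∑ i, ∑ l, G i l (H712.lp a0 w) * (S.A s (H712.lp a w) i b *
        ∑ j, S.A s (H712.lp a w) l j * dv a ψ' b w j)) := by
  have eA : ∀ i j, EG fun w : K4 (Pair n) → ℝ => S.A s (H712.lp a w) i j := fun i j =>
    eg_lp a (S.eg_A s i j)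
  have eH : ∀ b i j, EG fun w : K4 (Pair n) → ℝ => S.H s b (H712.lp a w) i j := fun b i j =>
    eg_lp a (S.eg_H hs b i j)
  have eG : ∀ i l, EG fun w : K4 (Pair n) → ℝ => G i l (H712.lp a0 w) := fun i l =>
    eg_lp a0 (hG i l)
  have eD : ∀ e i l, EG fun w : K4 (Pair n) → ℝ => DG e i l (H712.lp a0 w) := fun e i l =>
    eg_lp a0 (hD e i l)
  have ey : ∀ e, EG fun w : K4 (Pair n) → ℝ => H712.lp a w e := fun e => eg_lp a (EG.coord e)
  -- one term
  have one : ∀ b, ∀ e ∈ row b, ∀ i l,
      Im φ (fun w => (1 : ℝ) * (H712.lp a w e * ((S.A s (H712.lp a w) i b *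
        S.A s (H712.lp a w) l (oth b e)) * G i l (H712.lp a0 w)))) =
      Im φ (fun w => (1 : ℝ) * (vr a * ((k * S.H s b (H712.lp a w) i (oth b e) *
          S.A s (H712.lp a w) l (oth b e) + S.A s (H712.lp a w) i b *
          (k * S.H s (oth b e) (H712.lp a w) l b)) * G i l (H712.lp a0 w)) +
        cv a a0 * ((S.A s (H712.lp a w) i b * S.A s (H712.lp a w) l (oth b e)) *
          DG e i l (H712.lp a0 w)) +
        (S.A s (H712.lp a w) i b * S.A s (H712.lp a w) l (oth b e)) * G i l (H712.lp a0 w) *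
          dr a ψ' e w)) := by
    intro b e he i l
    have he' : e ∈ row (oth b e) := oth_mem he
    have ho : oth (oth b e) e = b := oth_oth he
    have hpd : PD e (fun z => S.A s z i b * S.A s z l (oth b e))
        (fun z => k * S.H s b z i (oth b e) * S.A s z l (oth b e) +
          S.A s z i b * (k * S.H s (oth b e) z l b)) := by
      refine ((S.pd_A s e i b).mul (S.pd_A s e l (oth b e))).congr fun z => ?_
      rw [S.DA_row hs he, S.DA_row hs he', ho]
    exact h.ibp2 a a0 (c := fun _ => 1) (f := fun z => S.A s z i b * S.A s z l (oth b e))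
      (g := G i l) (EG.const 1) (fun j _ => PD.const 1)
      ((S.eg_A s i b).mul (S.eg_A s l _))
      ((((S.eg_H hs b i _).const_mul k).mul (S.eg_A s l _)).add
        ((S.eg_A s i b).mul ((S.eg_H hs _ l b).const_mul k))) hpd (hG i l) (hD e i l) (hd e i l)
  have e1 : ∀ b e i l, EG fun w : K4 (Pair n) → ℝ => (1 : ℝ) * (H712.lp a w e *
      ((S.A s (H712.lp a w) i b * S.A s (H712.lp a w) l (oth b e)) * G i l (H712.lp a0 w))) :=
    fun b e i l => ((ey e).mul (((eA i b).mul (eA l _)).mul (eG i l))).const_mul 1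
  have e2 : ∀ b e i l, EG fun w : K4 (Pair n) → ℝ => (1 : ℝ) *
      (vr a * ((k * S.H s b (H712.lp a w) i (oth b e) *
          S.A s (H712.lp a w) l (oth b e) + S.A s (H712.lp a w) i b *
          (k * S.H s (oth b e) (H712.lp a w) l b)) * G i l (H712.lp a0 w)) +
        cv a a0 * ((S.A s (H712.lp a w) i b * S.A s (H712.lp a w) l (oth b e)) *
          DG e i l (H712.lp a0 w)) +
        (S.A s (H712.lp a w) i b * S.A s (H712.lp a w) l (oth b e)) * G i l (H712.lp a0 w) *
          dr a ψ' e w) := fun b e i l =>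
    ((((((((eH b i _).const_mul k).mul (eA l _)).add ((eA i b).mul
      ((eH _ l b).const_mul k))).mul (eG i l)).const_mul _).add
      ((((eA i b).mul (eA l _)).mul (eD e i l)).const_mul _)).add
      ((((eA i b).mul (eA l _)).mul (eG i l)).mul (h.eg_dr a e))).const_mul 1
  have g1 : EG fun w : K4 (Pair n) → ℝ => ∑ b, ∑ i, ∑ l, G i l (H712.lp a0 w) *
      ∑ j, S.A s (H712.lp a w) l j * S.H s b (H712.lp a w) i j :=
    EG.sum _ fun b _ => EG.sum _ fun i _ => EG.sum _ fun l _ => (eG i l).mul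
      (EG.sum _ fun j _ => (eA l j).mul (eH b i j))
  have g2 : EG fun w : K4 (Pair n) → ℝ =>
      ∑ b, xrow S s a (fun e w i l => DG e i l (H712.lp a0 w)) b w :=
    EG.sum _ fun b _ => EG.sum _ fun e _ => EG.sum _ fun i _ => EG.sum _ fun l _ =>
      (eD e i l).mul ((eA i b).mul (eA l _))
  have g3 : EG fun w : K4 (Pair n) → ℝ => ∑ b, ∑ i, ∑ l, G i l (H712.lp a0 w) *
      (S.A s (H712.lp a w) i b * ∑ j, S.A s (H712.lp a w) l j * dv a ψ' b w j) :=
    EG.sum _ fun b _ => EG.sum _ fun i _ => EG.sum _ fun l _ => (eG i l).mul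
      ((eA i b).mul (EG.sum _ fun j _ => (eA l j).mul (eg_dv h b j)))
  calc Im φ (fun w => ∑ b, yrow S s a (fun w i l => G i l (H712.lp a0 w)) b w)
      = Im φ (fun w => ∑ b, ∑ e ∈ row b, ∑ i, ∑ l, (1 : ℝ) * (H712.lp a w e *
        ((S.A s (H712.lp a w) i b * S.A s (H712.lp a w) l (oth b e)) *
          G i l (H712.lp a0 w)))) := by
        refine Im_congr fun w => ?_
        unfold yrow
        refine Finset.sum_congr rfl fun b _ => Finset.sum_congr rfl fun e _ => ?_
        rw [Finset.mul_sum]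
        refine Finset.sum_congr rfl fun i _ => ?_
        rw [Finset.mul_sum]
        exact Finset.sum_congr rfl fun l _ => by ring
    _ = Im φ (fun w => ∑ b, ∑ e ∈ row b, ∑ i, ∑ l, (1 : ℝ) *
      (vr a * ((k * S.H s b (H712.lp a w) i (oth b e) *
          S.A s (H712.lp a w) l (oth b e) + S.A s (H712.lp a w) i b *
          (k * S.H s (oth b e) (H712.lp a w) l b)) * G i l (H712.lp a0 w)) +
        cv a a0 * ((S.A s (H712.lp a w) i b * S.A s (H712.lp a w) l (oth b e)) *
          DG e i l (H712.lp a0 w)) +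
        (S.A s (H712.lp a w) i b * S.A s (H712.lp a w) l (oth b e)) * G i l (H712.lp a0 w) *
          dr a ψ' e w)) := by
        rw [Im_sum4 h.eg _ e1, Im_sum4 h.eg _ e2]
        exact Finset.sum_congr rfl fun b _ => Finset.sum_congr rfl fun e he =>
          Finset.sum_congr rfl fun i _ => Finset.sum_congr rfl fun l _ => one b e he i l
    _ = Im φ (fun w => 2 * (k * vr a) * (∑ b, ∑ i, ∑ l, G i l (H712.lp a0 w) *
          ∑ j, S.A s (H712.lp a w) l j * S.H s b (H712.lp a w) i j) +
        cv a a0 * (∑ b, xrow S s a (fun e w i l => DG e i l (H712.lp a0 w)) b w) +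
        ∑ b, ∑ i, ∑ l, G i l (H712.lp a0 w) * (S.A s (H712.lp a w) i b *
          ∑ j, S.A s (H712.lp a w) l j * dv a ψ' b w j)) := by
        refine Im_congr fun w => ?_
        obtain ⟨C, hC⟩ : ∃ C, C = S.A s (H712.lp a w) := ⟨_, rfl⟩
        obtain ⟨Y, hY⟩ : ∃ Y : Fin n → Fin n → ℝ, Y = fun i l => G i l (H712.lp a0 w) := ⟨_, rfl⟩
        obtain ⟨H, hH⟩ : ∃ H : Fin n → Matrix (Fin n) (Fin n) ℝ,
          H = fun b => S.H s b (H712.lp a w) := ⟨_, rfl⟩
        have hYs : ∀ i l, Y i l = Y l i := fun i l => by rw [hY]; exact hsy i l _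
        have hH0 : ∀ b i, H b i b = 0 := fun b i => by rw [hH]; exact S.H_row hs b _ i
        have hHc : ∀ b i j, H b i j = H b j i := fun b i j => by rw [hH]; exact S.H_comm s b _ i j
        have hYe : ∀ i l, G i l (H712.lp a0 w) = Y i l := fun i l => by rw [hY]
        have hHe : ∀ b, S.H s b (H712.lp a w) = H b := fun b => by rw [hH]
        unfold xrow
        simp only [hYe, hHe, ← hC]
        have p1 : ∀ b, ∑ e ∈ row b, ∑ i, ∑ l, H b i (oth b e) * C l (oth b e) * Y i l =
            ∑ i, ∑ l, Y i l * ∑ j, C l j * H b i j := by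
          intro b
          rw [sum_row_all b (G := fun j => ∑ i, ∑ l, H b i j * C l j * Y i l)
            (by simp only [hH0, zero_mul, Finset.sum_const_zero]), Finset.sum_comm]
          refine Finset.sum_congr rfl fun i _ => ?_
          rw [Finset.sum_comm]
          refine Finset.sum_congr rfl fun l _ => ?_
          rw [Finset.mul_sum]
          exact Finset.sum_congr rfl fun j _ => by ring
        have p2 : ∑ b, ∑ e ∈ row b, ∑ i, ∑ l, C i b * H (oth b e) l b * Y i l =
            ∑ b, ∑ i, ∑ l, Y i l * ∑ j, C l j * H b i j := by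
          have q1 : ∀ b, ∑ e ∈ row b, ∑ i, ∑ l, C i b * H (oth b e) l b * Y i l =
              ∑ j, ∑ i, ∑ l, C i b * H j l b * Y i l := fun b =>
            sum_row_all b (G := fun j => ∑ i, ∑ l, C i b * H j l b * Y i l)
              (by simp only [hH0, mul_zero, zero_mul, Finset.sum_const_zero])
          rw [Finset.sum_congr rfl fun b _ => q1 b, Finset.sum_comm]
          refine Finset.sum_congr rfl fun j _ => ?_
          have q2 : ∑ b, ∑ i, ∑ l, C i b * H j l b * Y i l =
              ∑ i, ∑ l, ∑ b, C i b * H j l b * Y i l := by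
            rw [Finset.sum_comm]
            exact Finset.sum_congr rfl fun i _ => Finset.sum_comm
          rw [q2, Finset.sum_comm]
          refine Finset.sum_congr rfl fun l _ => Finset.sum_congr rfl fun i _ => ?_
          rw [Finset.mul_sum]
          exact Finset.sum_congr rfl fun b _ => by rw [hYs i l]; ring
        have p4 : ∀ b, ∑ e ∈ row b, ∑ i, ∑ l, C i b * C l (oth b e) * Y i l * dr a ψ' e w =
            ∑ i, ∑ l, Y i l * (C i b * ∑ j, C l j * dv a ψ' b w j) := by
          intro b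
          rw [Finset.sum_comm]
          refine Finset.sum_congr rfl fun i _ => ?_
          rw [Finset.sum_comm]
          refine Finset.sum_congr rfl fun l _ => ?_
          have q3 := sum_rw' (fun e => dr a ψ' e w) b fun j => C l j
          unfold dv
          rw [← q3, Finset.mul_sum, Finset.mul_sum]
          exact Finset.sum_congr rfl fun e _ => by ring
        rw [two_mul, add_mul]
        nth_rewrite 2 [← p2]
        rw [← Finset.sum_congr rfl fun b _ => p1 b, ← Finset.sum_congr rfl fun b _ => p4 b]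
        simp only [Finset.mul_sum, ← Finset.sum_add_distrib]
        refine Finset.sum_congr rfl fun b _ => Finset.sum_congr rfl fun e _ =>
          Finset.sum_congr rfl fun i _ => Finset.sum_congr rfl fun l _ => ?_
        ring
    _ = _ := by
        rw [Im_add h.eg ((g1.const_mul _).add (g2.const_mul _)) g3,
          Im_add h.eg (g1.const_mul _) (g2.const_mul _), Im_const_mul, Im_const_mul]

end Vale.Agent.P146.H191
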