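import Vale.Agent.P146.H191.P2
import Vale.Agent.P146.H941.F01

/-!
Plan R2, row B9: the exact form of (F01), in numbers.
-/

open MeasureTheory ProbabilityTheory Finset Matrix

namespace Vale.Agent.P146.H191

open Vale.Agent.P157.Lv Vale.Agent.P146.H425 Vale.Agent.P146.H325 Vale.Agent.P146.H332
  Vale.Agent.P146.H712 Vale.Agent.P146.R1 Vale.Agent.P146.R1C Vale.Agent.P146.H706
  Vale.Agent.P146.R1S
open Vale.Agent.P146.H941 (od mx mx_apply tr_two Cm Cm_T Cm_comm od_Cm dv_eq eg_Cm eg_od eg_mulm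
  eg_tr)

set_option linter.unusedSectionVars false

variable {n : ℕ} {k x : ℝ} {S : CS n k x} {s : ℝ} {φ : (K4 (Pair n) → ℝ) → ℝ}
  {ψ' : K4 (Pair n) → (K4 (Pair n) → ℝ) → ℝ} {a a0 : Fin 4 → ℝ}

/-- **The exact identity in numbers.** -/
theorem p2_num (hs : 0 < s) (h : Den φ ψ') {G : Fin n → Fin n → (Pair n → ℝ) → ℝ}
    {DG : Pair n → Fin n → Fin n → (Pair n → ℝ) → ℝ} (hG : ∀ i l, EG (G i l))
    (hD : ∀ e i l, EG (DG e i l)) (hd : ∀ e i l, PD e (G i l) (DG e i l))
    (hsy : ∀ i l z, G i l z = G l i z) {xt : ℝ} {B : MF n} (hBe : ∀ i l, EG fun w => B w i l)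
    (hB : ∀ w i j, B w i j = B w j i)
    (hdr : ∀ e w, dr a ψ' e w =
      k * (xt * S.A s (H712.lp a w) e.1.1 e.1.2 - B w e.1.1 e.1.2)) :
    Im φ (fun w => ∑ b, yrow S s a (fun w i l => G i l (H712.lp a0 w)) b w) =
      2 * (k * vr a) * Im φ (fun w => ∑ b, (mx (fun i l => G i l (H712.lp a0 w)) *
        (Cm S s a w * S.H s b (H712.lp a w))).trace) +
      cv a a0 * Im φ (fun w => ∑ b, xrow S s a (fun e w i l => DG e i l (H712.lp a0 w)) b w) +
      k * (xt * (Im φ (fun w => (mx (fun i l => G i l (H712.lp a0 w)) *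
          (Cm S s a w * (Cm S s a w * Cm S s a w))).trace) -
        Im φ (fun w => (mx (fun i l => G i l (H712.lp a0 w)) *
          (Cm S s a w * Cm S s a w)).trace)) -
        Im φ (fun w => (mx (fun i l => G i l (H712.lp a0 w)) *
          (Cm S s a w * (od (B w) * Cm S s a w))).trace)) := by
  have key := p2_ibp (S := S) (a := a) (a0 := a0) hs h hG hD hd hsy
  rw [key]
  have eY : ∀ i l, EG fun w : K4 (Pair n) → ℝ => mx (fun i l => G i l (H712.lp a0 w)) i l :=
    fun i l => eg_lp a0 (hG i l)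
  have eC : ∀ i j, EG fun w : K4 (Pair n) → ℝ => Cm S s a w i j := fun i j => eg_Cm i j
  have g1 : EG fun w => (mx (fun i l => G i l (H712.lp a0 w)) *
      (Cm S s a w * Cm S s a w)).trace := eg_tr (eg_mulm eY (eg_mulm eC eC))
  have g3 : EG fun w => (mx (fun i l => G i l (H712.lp a0 w)) *
      (Cm S s a w * (Cm S s a w * Cm S s a w))).trace :=
    eg_tr (eg_mulm eY (eg_mulm eC (eg_mulm eC eC)))
  have g4 : EG fun w => (mx (fun i l => G i l (H712.lp a0 w)) *
      (Cm S s a w * (od (B w) * Cm S s a w))).trace :=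
    eg_tr (eg_mulm eY (eg_mulm eC (eg_mulm (fun i j => eg_od hBe i j) eC)))
  have i1 : Im φ (fun w => ∑ b, ∑ i, ∑ l, G i l (H712.lp a0 w) *
      ∑ j, S.A s (H712.lp a w) l j * S.H s b (H712.lp a w) i j) =
      Im φ (fun w => ∑ b, (mx (fun i l => G i l (H712.lp a0 w)) *
        (Cm S s a w * S.H s b (H712.lp a w))).trace) := by
    refine Im_congr fun w => Finset.sum_congr rfl fun b _ => ?_
    rw [tr_two]
    refine Finset.sum_congr rfl fun i _ => Finset.sum_congr rfl fun l _ => ?_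
    rw [mx_apply, Matrix.mul_apply]
    congr 1
    exact Finset.sum_congr rfl fun j _ => by rw [S.H_comm s b _ i j]; rfl
  have i2 : Im φ (fun w => ∑ b, ∑ i, ∑ l, G i l (H712.lp a0 w) *
      (S.A s (H712.lp a w) i b * ∑ j, S.A s (H712.lp a w) l j * dv a ψ' b w j)) =
      k * (xt * (Im φ (fun w => (mx (fun i l => G i l (H712.lp a0 w)) *
          (Cm S s a w * (Cm S s a w * Cm S s a w))).trace) -
        Im φ (fun w => (mx (fun i l => G i l (H712.lp a0 w)) *
          (Cm S s a w * Cm S s a w)).trace)) -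
        Im φ (fun w => (mx (fun i l => G i l (H712.lp a0 w)) *
          (Cm S s a w * (od (B w) * Cm S s a w))).trace)) := by
    rw [← Im_sub h.eg g3 g1, ← Im_const_mul, ← Im_sub h.eg ((g3.sub g1).const_mul xt) g4,
      ← Im_const_mul]
    refine Im_congr fun w => ?_
    obtain ⟨C, hC⟩ : ∃ C, C = Cm S s a w := ⟨_, rfl⟩
    obtain ⟨Y, hY⟩ : ∃ Y : Matrix (Fin n) (Fin n) ℝ, Y = mx fun i l => G i l (H712.lp a0 w) :=
      ⟨_, rfl⟩
    have hCC : ∀ i j, S.A s (H712.lp a w) i j = C i j := fun i j => by rw [hC]; rfl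
    have hCs : ∀ i j, C i j = C j i := fun i j => by rw [hC]; exact Cm_comm S s a w i j
    have hYY : ∀ i l, G i l (H712.lp a0 w) = Y i l := fun i l => by rw [hY]; rfl
    have h6 : ∀ b j, dv a ψ' b w j = (k • (xt • od C - od (B w))) j b := fun b j => by
      rw [dv_eq hB hdr, ← hC]
      simp only [Matrix.smul_apply, Matrix.sub_apply, smul_eq_mul]
    have h4 : ∀ D : Matrix (Fin n) (Fin n) ℝ,
        ∑ b, ∑ i, ∑ m, Y i m * (C i b * ∑ j, C m j * D j b) = (Y * (C * (D * C))).trace := by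
      intro D
      rw [tr_two, Finset.sum_comm]
      refine Finset.sum_congr rfl fun i _ => ?_
      rw [Finset.sum_comm]
      refine Finset.sum_congr rfl fun m _ => ?_
      rw [← Matrix.mul_assoc, Matrix.mul_apply, Finset.mul_sum]
      refine Finset.sum_congr rfl fun b _ => ?_
      rw [Matrix.mul_apply, hCs i b]
      ring
    simp only [hYY, hCC, h6, ← hC]
    rw [h4]
    have h7 : od C = C - 1 := by rw [hC]; exact od_Cm S s a w
    have hmx : (mx fun i l => Y i l) = Y := rfl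
    rw [h7]
    simp only [Matrix.smul_mul, Matrix.mul_smul, Matrix.sub_mul, Matrix.mul_sub,
      Matrix.one_mul, Matrix.trace_smul, Matrix.trace_sub, smul_eq_mul]
    rw [hmx]
  rw [i1, i2]

/-- **(F01), exact form**: `P2 = 2 A - T` is the defect of the upper edge at the position `P3`,
`X` the touch of the weight. -/
theorem f01x_alg {A A3 H J K T X P v w x θ e0 : ℝ} (hv : 0 ≤ v) (hv1 : v ≤ 1) (hw : 0 ≤ w)
    (hx : 0 ≤ x) (hA : 0 ≤ A) (hJ : 0 ≤ J) (hθ : 0 ≤ θ) (he0 : 0 ≤ e0)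
    (hF0 : w * (H + x * A3 - J) + P ≤ (1 + θ) * A + e0)
    (hT : T = 2 * (w * v) * H + X + w * (x * v * (A3 - A) - K)) :
    w * (v * x * A3 - 2 * J + K) + 2 * v * P ≤ (2 * A - T) + X + 2 * θ * A + 2 * e0 := by
  have h1 := mul_le_mul_of_nonneg_left hF0 (show (0 : ℝ) ≤ 2 * v by linarith)
  have h2 : w * (v * J) ≤ w * J := mul_le_mul_of_nonneg_left (by nlinarith) hw
  have h3 : v * (θ * A) ≤ θ * A := by nlinarith [mul_nonneg hθ hA]
  have h4 : v * e0 ≤ e0 := by nlinarith
  have h5 : 0 ≤ (1 - v) * A := mul_nonneg (by linarith) hA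
  have h6 : 0 ≤ w * (x * v * A) := by positivity
  rw [hT]
  nlinarith [h1, h2, h3, h4, h5, h6]

end Vale.Agent.P146.H191
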