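import Vale.Agent.P146.H722.EBp
import Vale.Agent.P146.H191.FYG

/-!
Plan R2, row F1Y: the drift term of the touch of the weight, `E ∑_b <D_b, U_b (C V_b)'>`, at the
level of the conditional means.
-/

open MeasureTheory ProbabilityTheory Finset

namespace Vale.Agent.P146.H191

open Vale.Agent.P157.Lv Vale.Agent.P146.H425 Vale.Agent.P146.H325 Vale.Agent.P146.H332
  Vale.Agent.P146.H712 Vale.Agent.P146.R1 Vale.Agent.P146.R1C Vale.Agent.P146.H706
  Vale.Agent.P146.R1S Vale.Agent.P146.H722.FY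

set_option linter.unusedSectionVars false

section gen

variable {α β : Type} [Fintype α] [Fintype β] {φ : (α ⊕ β → ℝ) → ℝ}

/-- Cauchy-Schwarz for a sum of integrals. -/
lemma int_cs {ι : Type} (T : Finset ι) {f g : ι → (α → ℝ) → ℝ} (hf : ∀ i, EG (f i))
    (hg : ∀ i, EG (g i)) :
    |∫ y, ∑ i ∈ T, f i y * g i y ∂(gI α)| ≤
      √(∫ y, ∑ i ∈ T, f i y ^ 2 ∂(gI α)) * √(∫ y, ∑ i ∈ T, g i y ^ 2 ∂(gI α)) := by
  set P := ∫ y, ∑ i ∈ T, f i y ^ 2 ∂(gI α) with hP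
  set Q := ∫ y, ∑ i ∈ T, g i y ^ 2 ∂(gI α) with hQ
  set R := ∫ y, ∑ i ∈ T, f i y * g i y ∂(gI α) with hR
  have eP : EG fun y => ∑ i ∈ T, f i y ^ 2 := EG.sum _ fun i _ => (hf i).pow 2
  have eQ : EG fun y => ∑ i ∈ T, g i y ^ 2 := EG.sum _ fun i _ => (hg i).pow 2
  have eR : EG fun y => ∑ i ∈ T, f i y * g i y := EG.sum _ fun i _ => (hf i).mul (hg i)
  have hP0 : 0 ≤ P := integral_nonneg fun y => Finset.sum_nonneg fun i _ => sq_nonneg _
  have key : ∀ t : ℝ, 0 ≤ Q * (t * t) + (-2 * R) * t + P := by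
    intro t
    have h1 : 0 ≤ ∫ y, ∑ i ∈ T, (f i y - t * g i y) ^ 2 ∂(gI α) :=
      integral_nonneg fun y => Finset.sum_nonneg fun i _ => sq_nonneg _
    have e : ∫ y, ∑ i ∈ T, (f i y - t * g i y) ^ 2 ∂(gI α) = P - 2 * t * R + t ^ 2 * Q := by
      rw [hP, hQ, hR, ← integral_const_mul, ← integral_const_mul,
        ← integral_sub eP.integrable (eR.const_mul (2 * t)).integrable,
        ← integral_add (eP.sub (eR.const_mul (2 * t))).integrable
          (eQ.const_mul (t ^ 2)).integrable]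
      refine integral_congr_ae (Filter.Eventually.of_forall fun y => ?_)
      simp only
      rw [Finset.mul_sum, Finset.mul_sum, ← Finset.sum_sub_distrib, ← Finset.sum_add_distrib]
      exact Finset.sum_congr rfl fun i _ => by ring
    rw [e] at h1
    linarith [h1, show t ^ 2 * Q = Q * (t * t) by ring]
  have hd := discrim_le_zero key
  unfold discrim at hd
  have h2 : R ^ 2 ≤ P * Q := by nlinarith
  rw [← Real.sqrt_mul hP0]
  exact Real.abs_le_sqrt h2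

/-- Cauchy-Schwarz for square roots of integrals. -/
lemma int_sqrt_cs {f g : (α → ℝ) → ℝ} (hf : EG f) (hg : EG g) (f0 : ∀ y, 0 ≤ f y)
    (g0 : ∀ y, 0 ≤ g y) :
    ∫ y, √(f y) * √(g y) ∂(gI α) ≤ √(∫ y, f y ∂(gI α)) * √(∫ y, g y ∂(gI α)) := by
  have h := int_cs (Finset.univ : Finset Unit) (f := fun _ => fun y => √(f y))
    (g := fun _ => fun y => √(g y)) (fun _ => eg_sqrt hf) fun _ => eg_sqrt hg
  simp only [Finset.univ_unique, Finset.sum_singleton] at h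
  have e1 : ∀ y, √(f y) ^ 2 = f y := fun y => Real.sq_sqrt (f0 y)
  have e2 : ∀ y, √(g y) ^ 2 = g y := fun y => Real.sq_sqrt (g0 y)
  simp only [e1, e2] at h
  exact (le_abs_self _).trans h

lemma eg_in {H : (α → ℝ) → ℝ} (hH : EG H) :
    EG fun w : α ⊕ β → ℝ => H fun e => w (Sum.inl e) := by
  obtain ⟨C, c, hC, hc, hb⟩ := hH.bdd
  refine ⟨hH.meas.comp (measurable_pi_lambda _ fun e => measurable_pi_apply _), C, c, hC, hc,
    fun w => ?_⟩
  refine (hb _).trans (mul_le_mul_of_nonneg_left (Real.exp_le_exp.2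
    (mul_le_mul_of_nonneg_left ?_ hc)) hC)
  exact (pi_norm_le_iff_of_nonneg (norm_nonneg w)).2 fun e => norm_le_pi_norm w (Sum.inl e)

variable {n : ℕ}

/-- The mean of the outer product of a vector. -/
noncomputable def OG (φ : (α ⊕ β → ℝ) → ℝ) (g : Fin n → (α ⊕ β → ℝ) → ℝ) (y : α → ℝ) : ℝ :=
  ∑ i, ∑ i', E0 φ (fun w => g i w * g i' w) y ^ 2

lemma OG_nonneg (g : Fin n → (α ⊕ β → ℝ) → ℝ) (y : α → ℝ) : 0 ≤ OG φ g y :=
  Finset.sum_nonneg fun _ _ => Finset.sum_nonneg fun _ _ => sq_nonneg _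

lemma eg_OG (hφ : EG φ) {g : Fin n → (α ⊕ β → ℝ) → ℝ} (hg : ∀ i, EG (g i)) : EG (OG φ g) :=
  EG.sum _ fun i _ => EG.sum _ fun j _ => (eg_E0 hφ ((hg i).mul (hg j))).pow 2

/-- monotone in the form order -/
lemma OG_mono (h0 : ∀ w, 0 ≤ φ w) (hφ : EG φ) {g : Fin n → (α ⊕ β → ℝ) → ℝ} (hg : ∀ i, EG (g i))
    {M : Fin n → Fin n → (α ⊕ β → ℝ) → ℝ} (hM : ∀ i j, EG (M i j))
    (hs : ∀ i j w, M i j w = M j i w)
    (hle : ∀ w (v : Fin n → ℝ), (∑ i, v i * g i w) ^ 2 ≤ ∑ i, ∑ j, v i * M i j w * v j)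
    (y : α → ℝ) : OG φ g y ≤ ∑ i, ∑ j, E0 φ (M i j) y ^ 2 := by
  have e1 : ∀ v : Fin n → ℝ, ∑ i, ∑ j, v i * E0 φ (fun w => g i w * g j w) y * v j =
      E0 φ (fun w => (∑ i, v i * g i w) ^ 2) y := by
    intro v
    have e : ∀ w, (∑ i, v i * g i w) ^ 2 = ∑ i, ∑ j, (v i * v j) * (g i w * g j w) := by
      intro w
      rw [pow_two, Finset.sum_mul_sum]
      exact Finset.sum_congr rfl fun i _ => Finset.sum_congr rfl fun j _ => by ring
    rw [E0_congr e, E0_sum hφ _ fun i _ => EG.sum _ fun j _ => ((hg i).mul (hg j)).const_mul _]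
    refine Finset.sum_congr rfl fun i _ => ?_
    rw [E0_sum hφ _ fun j _ => ((hg i).mul (hg j)).const_mul _]
    exact Finset.sum_congr rfl fun j _ => by rw [E0_const_mul]; ring
  have e2 : ∀ v : Fin n → ℝ, ∑ i, ∑ j, v i * E0 φ (M i j) y * v j =
      E0 φ (fun w => ∑ i, ∑ j, v i * M i j w * v j) y := by
    intro v
    have e : ∀ w, ∑ i, ∑ j, v i * M i j w * v j = ∑ i, ∑ j, (v i * v j) * M i j w := fun w =>
      Finset.sum_congr rfl fun i _ => Finset.sum_congr rfl fun j _ => by ring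
    rw [E0_congr e, E0_sum hφ _ fun i _ => EG.sum _ fun j _ => (hM i j).const_mul _]
    refine Finset.sum_congr rfl fun i _ => ?_
    rw [E0_sum hφ _ fun j _ => (hM i j).const_mul _]
    exact Finset.sum_congr rfl fun j _ => by rw [E0_const_mul]; ring
  refine psd_sq_mono (A := fun i j => E0 φ (fun w => g i w * g j w) y)
    (B := fun i j => E0 φ (M i j) y) (fun i j => E0_congr (fun w => mul_comm _ _) y)
    (fun v => ?_) (fun i j => E0_congr (fun w => hs i j w) y) fun v => ?_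
  · rw [e1]
    exact E0_nonneg h0 (fun w => sq_nonneg _) y
  · rw [e1, e2]
    exact E0_mono h0 hφ ((EG.sum _ fun i _ => (hg i).const_mul _).pow 2)
      (EG.sum _ fun i _ => EG.sum _ fun j _ => ((hM i j).const_mul _).mul (EG.const _))
      (fun w => hle w v) y

/-- the pairing of the weight with outer products -/
theorem pair_le (h0 : ∀ w, 0 ≤ φ w) (hφ : EG φ) {D : Fin n → Fin n → Fin n → (α → ℝ) → ℝ}
    (hD : ∀ b i l, EG (D b i l)) {U g : Fin n → Fin n → (α ⊕ β → ℝ) → ℝ}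
    (hU : ∀ b i, EG (U b i)) (hg : ∀ b i, EG (g b i)) :
    |∫ w, φ w * ∑ b, ∑ i, ∑ l, D b i l (fun e => w (Sum.inl e)) * (U b i w * g b l w)
      ∂(gI (α ⊕ β))| ≤
      √(∫ y, ∑ b, ∑ i, ∑ l, D b i l y ^ 2 ∂(gI α)) *
        √(√(∫ y, ∑ b, OG φ (U b) y ∂(gI α)) * √(∫ y, ∑ b, OG φ (g b) y ∂(gI α))) := by
  have eD : ∀ b i l, EG fun w : α ⊕ β → ℝ => D b i l (fun e => w (Sum.inl e)) := fun b i l =>
    eg_in (hD b i l)
  have e1 : ∀ b i l, EG fun w => D b i l (fun e => w (Sum.inl e)) * (U b i w * g b l w) :=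
    fun b i l => (eD b i l).mul ((hU b i).mul (hg b l))
  have e2 : EG fun w => ∑ b, ∑ i, ∑ l, D b i l (fun e => w (Sum.inl e)) * (U b i w * g b l w) :=
    EG.sum _ fun b _ => EG.sum _ fun i _ => EG.sum _ fun l _ => e1 b i l
  have e3 : ∀ b i l, EG (E0 φ fun w => U b i w * g b l w) := fun b i l =>
    eg_E0 hφ ((hU b i).mul (hg b l))
  have h1 : ∫ w, φ w * ∑ b, ∑ i, ∑ l, D b i l (fun e => w (Sum.inl e)) * (U b i w * g b l w)
      ∂(gI (α ⊕ β)) = ∫ y, ∑ p ∈ (Finset.univ : Finset (Fin n × Fin n × Fin n)),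
        D p.1 p.2.1 p.2.2 y * E0 φ (fun w => U p.1 p.2.1 w * g p.1 p.2.2 w) y ∂(gI α) := by
    rw [int_E0 hφ e2]
    refine integral_congr_ae (Filter.Eventually.of_forall fun y => ?_)
    simp only
    rw [E0_sum hφ _ fun b _ => EG.sum _ fun i _ => EG.sum _ fun l _ => e1 b i l,
      Fintype.sum_prod_type]
    refine Finset.sum_congr rfl fun b _ => ?_
    rw [E0_sum hφ _ fun i _ => EG.sum _ fun l _ => e1 b i l, Fintype.sum_prod_type]
    refine Finset.sum_congr rfl fun i _ => ?_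
    rw [E0_sum hφ _ fun l _ => e1 b i l]
    exact Finset.sum_congr rfl fun l _ => E0_left (D b i l) y
  have h2 := int_cs (Finset.univ : Finset (Fin n × Fin n × Fin n))
    (f := fun p y => D p.1 p.2.1 p.2.2 y)
    (g := fun p y => E0 φ (fun w => U p.1 p.2.1 w * g p.1 p.2.2 w) y)
    (fun p => hD _ _ _) fun p => e3 _ _ _
  rw [h1]
  refine h2.trans ?_
  have h3 : ∀ y, ∑ p ∈ (Finset.univ : Finset (Fin n × Fin n × Fin n)),
      D p.1 p.2.1 p.2.2 y ^ 2 = ∑ b, ∑ i, ∑ l, D b i l y ^ 2 := by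
    intro y
    rw [Fintype.sum_prod_type]
    refine Finset.sum_congr rfl fun b _ => ?_
    rw [Fintype.sum_prod_type]
  have h4 : ∀ y, ∑ p ∈ (Finset.univ : Finset (Fin n × Fin n × Fin n)),
      E0 φ (fun w => U p.1 p.2.1 w * g p.1 p.2.2 w) y ^ 2 =
      ∑ b, ∑ i, ∑ l, E0 φ (fun w => U b i w * g b l w) y ^ 2 := by
    intro y
    rw [Fintype.sum_prod_type]
    refine Finset.sum_congr rfl fun b _ => ?_
    rw [Fintype.sum_prod_type]
  simp only [h3, h4]
  refine mul_le_mul_of_nonneg_left (Real.sqrt_le_sqrt ?_) (Real.sqrt_nonneg _)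
  -- the pointwise bound
  have eU2 : EG fun y => ∑ b, OG φ (U b) y := EG.sum _ fun b _ => eg_OG hφ (hU b)
  have eg2 : EG fun y => ∑ b, OG φ (g b) y := EG.sum _ fun b _ => eg_OG hφ (hg b)
  refine le_trans (integral_mono (EG.sum _ fun b _ => EG.sum _ fun i _ => EG.sum _ fun l _ =>
    (e3 b i l).pow 2).integrable ((eg_sqrt eU2).mul (eg_sqrt eg2)).integrable fun y => ?_)
    (int_sqrt_cs eU2 eg2 (fun y => Finset.sum_nonneg fun b _ => OG_nonneg _ y)
      fun y => Finset.sum_nonneg fun b _ => OG_nonneg _ y)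
  have h5 : ∀ b, ∑ i, ∑ l, E0 φ (fun w => U b i w * g b l w) y ^ 2 ≤
      √(OG φ (U b) y) * √(OG φ (g b) y) := by
    intro b
    have h := bp (M := Unit) h0 hφ (U := fun i _ => U b i) (W := fun i _ => g b i)
      (fun i _ => hU b i) (fun i _ => hg b i) y
    simp only [Finset.univ_unique, Finset.sum_singleton] at h
    exact h
  show ∑ b, ∑ i, ∑ l, E0 φ (fun w => U b i w * g b l w) y ^ 2 ≤
    √(∑ b, OG φ (U b) y) * √(∑ b, OG φ (g b) y)
  refine (Finset.sum_le_sum fun b _ => h5 b).trans ?_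
  have h6 := Finset.sum_mul_sq_le_sq_mul_sq Finset.univ (fun b => √(OG φ (U b) y))
    fun b => √(OG φ (g b) y)
  have e5 : ∀ b, √(OG φ (U b) y) ^ 2 = OG φ (U b) y := fun b => Real.sq_sqrt (OG_nonneg _ y)
  have e6 : ∀ b, √(OG φ (g b) y) ^ 2 = OG φ (g b) y := fun b => Real.sq_sqrt (OG_nonneg _ y)
  simp only [e5, e6] at h6
  rw [← Real.sqrt_mul (Finset.sum_nonneg fun b _ => OG_nonneg _ y)]
  exact Real.le_sqrt_of_sq_le h6

end gen

end Vale.Agent.P146.H191
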