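import Vale.Agent.P146.H191.T4
import Vale.Agent.P146.H693.YY

/-!
Plan R2, row F1Y: the drift term of the touch of the weight in the two level law.
-/

open MeasureTheory ProbabilityTheory Finset

namespace Vale.Agent.P146.H191

open Vale.Agent.P157.Lv Vale.Agent.P146.H425 Vale.Agent.P146.H325 Vale.Agent.P146.H332
  Vale.Agent.P146.H712 Vale.Agent.P146.R1 Vale.Agent.P146.R1C Vale.Agent.P146.H706
  Vale.Agent.P146.R1S Vale.Agent.P146.H722.FY
open Vale.Agent.P146.H693 (Tm Tl m3 s3 Db Yb Yd MM colA QR Cl nF nB EnD eg_sc pm3 EwG_deep eg_Db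
  TY_le sum_gam eg_colA eg_MM eg_QC n_le_nB Tl_lin Tl_const_mul eg_Tl)

set_option linter.unusedSectionVars false

section law

variable {n : ℕ} {k : ℝ} {q : Par} {S : CS n k q.x} {y l : ℝ}

lemma eg_phi (hT : Tm q y l) : EG (densG q (R1C.GTwo q y l S.F S.D) S.F) :=
  eg_densG S.c11 S.x0 (R1C.GTwo_ok S.c11 S.x0 hT.hy l)

/-- the conditional mean against a function of the deep position -/
lemma E0_deep (hT : Tm q y l) {α f : (Pair n → ℝ) → ℝ} (hα : EG α) (hf : EG f) :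
    ∫ z, α (√q.t0 • z) * E0 (densG q (R1C.GTwo q y l S.F S.D) S.F) (fun w => f (P3 q w)) z
      ∂(gI (Pair n)) =
    ∫ g, α (√q.t0 • g) * Tl S q.s2 (m3 q y) (s3 q l) f 3 (√q.t0 • g) ∂(gI (Pair n)) := by
  have h1 := EwG_deep (S := S) hT (Finset.univ : Finset Unit) (α := fun _ => α) (δ := fun _ => f)
    (fun _ _ => hα) fun _ _ => hf
  simp only [Finset.univ_unique, Finset.sum_singleton] at h1
  rw [← h1]
  have e1 : EG fun w : K4 (Pair n) → ℝ => α (P0 q w) * f (P3 q w) := (eg_P0 hα).mul (eg_P3 hf)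
  have h2 := int_E0 (eg_phi (S := S) hT) e1
  have h3 : EwG q (R1C.GTwo q y l S.F S.D) S.F (fun w => α (P0 q w) * f (P3 q w)) =
      ∫ w, densG q (R1C.GTwo q y l S.F S.D) S.F w * (α (P0 q w) * f (P3 q w))
        ∂(gI (K4 (Pair n))) := rfl
  rw [h3]
  refine Eq.trans ?_ h2.symm
  refine integral_congr_ae (Filter.Eventually.of_forall fun z => ?_)
  exact (E0_left (fun z => α (√q.t0 • z)) z).symm

/-- the second moments of the conditional means -/
lemma E0_Tl (hT : Tm q y l) (h0 : 0 < q.t0) {f f' : (Pair n → ℝ) → ℝ} (hf : EG f)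
    (hf' : EG f') :
    ∫ z, E0 (densG q (R1C.GTwo q y l S.F S.D) S.F) (fun w => f (P3 q w)) z *
      E0 (densG q (R1C.GTwo q y l S.F S.D) S.F) (fun w => f' (P3 q w)) z ∂(gI (Pair n)) =
    ∫ g, Tl S q.s2 (m3 q y) (s3 q l) f 3 (√q.t0 • g) *
      Tl S q.s2 (m3 q y) (s3 q l) f' 3 (√q.t0 • g) ∂(gI (Pair n)) := by
  have hm := pm3 (q := q) S.x0 hT.hy
  have hs : √q.t0 ≠ 0 := (Real.sqrt_pos.2 h0).ne'
  have e0 : EG (E0 (densG q (R1C.GTwo q y l S.F S.D) S.F) fun w => f (P3 q w)) :=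
    eg_E0 (eg_phi hT) (eg_P3 hf)
  have h1 := E0_deep (S := S) hT (α := fun z => E0 (densG q (R1C.GTwo q y l S.F S.D) S.F)
    (fun w => f (P3 q w)) ((√q.t0)⁻¹ • z)) (eg_sc e0 _) hf'
  have h2 := E0_deep (S := S) hT (α := Tl S q.s2 (m3 q y) (s3 q l) f' 3) (eg_Tl hf' 3 hm) hf
  simp only [smul_smul, inv_mul_cancel₀ hs, one_smul] at h1
  rw [h1]
  refine Eq.trans ?_ (h2.trans ?_)
  · exact integral_congr_ae (Filter.Eventually.of_forall fun z => mul_comm _ _)
  · exact integral_congr_ae (Filter.Eventually.of_forall fun z => mul_comm _ _)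

lemma int_E0_sq (hT : Tm q y l) (h0 : 0 < q.t0) {ι : Type} (T : Finset ι)
    {f : ι → (Pair n → ℝ) → ℝ} (hf : ∀ i ∈ T, EG (f i)) :
    ∫ z, ∑ i ∈ T, E0 (densG q (R1C.GTwo q y l S.F S.D) S.F) (fun w => f i (P3 q w)) z ^ 2
      ∂(gI (Pair n)) =
    ∫ g, ∑ i ∈ T, Tl S q.s2 (m3 q y) (s3 q l) (f i) 3 (√q.t0 • g) ^ 2 ∂(gI (Pair n)) := by
  have hm := pm3 (q := q) S.x0 hT.hy
  rw [integral_finsetSum _ fun i hi => ((eg_E0 (eg_phi hT) (eg_P3 (hf i hi))).pow 2).integrable,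
    integral_finsetSum _ fun i hi => ((eg_sc (eg_Tl (hf i hi) 3 hm) _).pow 2).integrable]
  refine Finset.sum_congr rfl fun i hi => ?_
  have h := E0_Tl (S := S) hT h0 (hf i hi) (hf i hi)
  simpa only [pow_two] using h

/-- the size of the outer product of `C V_b` -/
theorem OG_C (hT : Tm q y l) (h0 : 0 < q.t0) {V : Fin n → (K4 (Pair n) → ℝ) → ℝ}
    (hV : ∀ j, EG (V j)) {c : ℝ} (hc : ∀ w, ∑ j, V j w ^ 2 ≤ c) :
    ∫ z, OG (densG q (R1C.GTwo q y l S.F S.D) S.F)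
      (fun i w => ∑ j, S.A q.s2 (P3 q w) i j * V j w) z ∂(gI (Pair n)) ≤
      c ^ 2 * nF S q.s2 (m3 q y) (s3 q l) 3 (√q.t0) := by
  have hm := pm3 (q := q) S.x0 hT.hy
  have eφ := eg_phi (S := S) hT
  have e1 : ∀ i j, EG fun w : K4 (Pair n) → ℝ => c * H693.A2 S q.s2 i j (P3 q w) := fun i j =>
    (eg_P3 (H693.eg_A2 S q.s2 i j)).const_mul c
  have eg : ∀ i, EG fun w : K4 (Pair n) → ℝ => ∑ j, S.A q.s2 (P3 q w) i j * V j w := fun i =>
    EG.sum _ fun j _ => (eg_P3 (S.eg_A q.s2 i j)).mul (hV j)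
  have h1 : ∀ z, OG (densG q (R1C.GTwo q y l S.F S.D) S.F)
      (fun i w => ∑ j, S.A q.s2 (P3 q w) i j * V j w) z ≤
      ∑ i, ∑ j, E0 (densG q (R1C.GTwo q y l S.F S.D) S.F)
        (fun w => c * H693.A2 S q.s2 i j (P3 q w)) z ^ 2 := by
    intro z
    refine OG_mono (fun w => densG_nonneg w) eφ eg e1 (fun i j w => ?_) (fun w v => ?_) z
    · show c * _ = c * _
      congr 1
      unfold H693.A2
      exact Finset.sum_congr rfl fun m _ => by
        rw [S.A_comm q.s2 _ i m, S.A_comm q.s2 _ m j, mul_comm]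
    · have a1 : ∑ i, v i * ∑ j, S.A q.s2 (P3 q w) i j * V j w =
          ∑ j, (∑ i, v i * S.A q.s2 (P3 q w) i j) * V j w := by
        simp only [Finset.mul_sum, Finset.sum_mul]
        rw [Finset.sum_comm]
        exact Finset.sum_congr rfl fun j _ => Finset.sum_congr rfl fun i _ => by ring
      have a2 : ∑ i, ∑ j, v i * (c * H693.A2 S q.s2 i j (P3 q w)) * v j =
          (∑ m, (∑ i, v i * S.A q.s2 (P3 q w) i m) ^ 2) * c := by
        have a3 : ∀ m, (∑ i, v i * S.A q.s2 (P3 q w) i m) ^ 2 =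
            ∑ i, ∑ j, (v i * S.A q.s2 (P3 q w) i m) * (v j * S.A q.s2 (P3 q w) j m) := fun m => by
          rw [pow_two, Finset.sum_mul_sum]
        have a4 : ∑ m, (∑ i, v i * S.A q.s2 (P3 q w) i m) ^ 2 = ∑ i, ∑ j, ∑ m,
            (v i * S.A q.s2 (P3 q w) i m) * (v j * S.A q.s2 (P3 q w) j m) := by
          simp only [a3]
          rw [Finset.sum_comm]
          exact Finset.sum_congr rfl fun i _ => Finset.sum_comm
        rw [a4, Finset.sum_mul]
        refine Finset.sum_congr rfl fun i _ => ?_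
        rw [Finset.sum_mul]
        refine Finset.sum_congr rfl fun j _ => ?_
        unfold H693.A2
        simp only [Finset.mul_sum, Finset.sum_mul]
        exact Finset.sum_congr rfl fun m _ => by rw [S.A_comm q.s2 _ m j]; ring
      rw [a1, a2]
      refine (Finset.sum_mul_sq_le_sq_mul_sq _ _ _).trans ?_
      exact mul_le_mul_of_nonneg_left (hc w) (Finset.sum_nonneg fun m _ => sq_nonneg _)
  have h2 : ∫ z, OG (densG q (R1C.GTwo q y l S.F S.D) S.F)
      (fun i w => ∑ j, S.A q.s2 (P3 q w) i j * V j w) z ∂(gI (Pair n)) ≤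
      ∫ z, ∑ i, ∑ j, E0 (densG q (R1C.GTwo q y l S.F S.D) S.F)
        (fun w => c * H693.A2 S q.s2 i j (P3 q w)) z ^ 2 ∂(gI (Pair n)) :=
    integral_mono (eg_OG eφ eg).integrable
      (EG.sum _ fun i _ => EG.sum _ fun j _ => (eg_E0 eφ (e1 i j)).pow 2).integrable h1
  refine h2.trans (le_of_eq ?_)
  have h3 := int_E0_sq (S := S) hT h0 (Finset.univ : Finset (Fin n × Fin n))
    (f := fun r u => c * H693.A2 S q.s2 r.1 r.2 u)
    fun r _ => (H693.eg_A2 S q.s2 r.1 r.2).const_mul c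
  simp only [Fintype.sum_prod_type] at h3
  rw [h3]
  unfold nF
  rw [← integral_const_mul]
  refine integral_congr_ae (Filter.Eventually.of_forall fun g => ?_)
  show _ = c ^ 2 * H332.fr (QR S q.s2 (m3 q y) (s3 q l) 3 (√q.t0 • g))
  unfold H332.fr
  rw [Finset.mul_sum]
  refine Finset.sum_congr rfl fun i _ => ?_
  rw [Finset.mul_sum]
  refine Finset.sum_congr rfl fun j _ => ?_
  rw [Tl_const_mul, mul_pow]
  rfl

/-- the size of the outer product of the column `b` without the diagonal -/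
theorem OG_U (hT : Tm q y l) (h0 : 0 < q.t0) (b : Fin n) :
    ∫ z, OG (densG q (R1C.GTwo q y l S.F S.D) S.F)
      (fun i w => Uz S q.s2 b i (P3 q w)) z ∂(gI (Pair n)) ≤
      8 * (∫ g, ∑ i, ∑ j, MM S q.s2 (m3 q y) (s3 q l) 3 (√q.t0 • g) (colA S q.s2 b)
        (colA S q.s2 b) i j ^ 2 ∂(gI (Pair n))) + 8 := by
  have hm := pm3 (q := q) S.x0 hT.hy
  have eφ := eg_phi (S := S) hT
  set δ : Fin n → Fin n → ℝ := fun i j => if i = b then (if j = b then 1 else 0) else 0 with hδ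
  have ef : ∀ i j, EG fun u : Pair n → ℝ => 2 * (colA S q.s2 b i u * colA S q.s2 b j u) +
      2 * δ i j := fun i j =>
    (((eg_colA b i).mul (eg_colA b j)).const_mul 2).add (EG.const _)
  have eg : ∀ i, EG fun w : K4 (Pair n) → ℝ => Uz S q.s2 b i (P3 q w) := fun i =>
    eg_P3 (eg_Uz S q.s2 b i)
  have h1 : ∀ z, OG (densG q (R1C.GTwo q y l S.F S.D) S.F)
      (fun i w => Uz S q.s2 b i (P3 q w)) z ≤
      ∑ i, ∑ j, E0 (densG q (R1C.GTwo q y l S.F S.D) S.F)
        (fun w => 2 * (colA S q.s2 b i (P3 q w) * colA S q.s2 b j (P3 q w)) + 2 * δ i j) z ^ 2 := by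
    intro z
    refine OG_mono (M := fun i j w => 2 * (colA S q.s2 b i (P3 q w) * colA S q.s2 b j (P3 q w)) +
      2 * δ i j) (fun w => densG_nonneg w) eφ eg (fun i j => eg_P3 (ef i j))
      (fun i j w => ?_) (fun w v => ?_) z
    · have : δ i j = δ j i := by
        simp only [hδ]
        split_ifs <;> rfl
      rw [this, mul_comm (colA S q.s2 b i _)]
    · have a1 : ∑ i, v i * Uz S q.s2 b i (P3 q w) =
          (∑ i, v i * colA S q.s2 b i (P3 q w)) - v b := by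
        have a2 : ∀ i, v i * Uz S q.s2 b i (P3 q w) =
            v i * colA S q.s2 b i (P3 q w) - if i = b then v i else 0 := by
          intro i
          unfold Uz colA
          by_cases h : i = b
          · subst h
            rw [if_pos rfl, if_pos rfl, S.A_self]
            ring
          · rw [if_neg h, if_neg h]
            ring
        simp only [a2, Finset.sum_sub_distrib, Finset.sum_ite_eq', Finset.mem_univ, if_true]
      have a3 : ∑ i, ∑ j, v i * (2 * (colA S q.s2 b i (P3 q w) * colA S q.s2 b j (P3 q w)) +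
          2 * δ i j) * v j = 2 * (∑ i, v i * colA S q.s2 b i (P3 q w)) ^ 2 + 2 * v b ^ 2 := by
        have a4 : ∀ i j, v i * (2 * (colA S q.s2 b i (P3 q w) * colA S q.s2 b j (P3 q w)) +
            2 * δ i j) * v j = 2 * ((v i * colA S q.s2 b i (P3 q w)) *
              (v j * colA S q.s2 b j (P3 q w))) +
              if i = b then (if j = b then 2 * (v i * v j) else 0) else 0 := by
          intro i j
          simp only [hδ]
          split_ifs <;> ring
        simp only [a4, Finset.sum_add_distrib, ← Finset.mul_sum, ← Finset.sum_mul]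
        have a5 : ∑ i, ∑ j, (if i = b then (if j = b then 2 * (v i * v j) else 0) else 0) =
            2 * v b ^ 2 := by
          have a6 : ∀ i, ∑ j, (if i = b then (if j = b then 2 * (v i * v j) else 0) else 0) =
              if i = b then 2 * (v i * v b) else 0 := by
            intro i
            by_cases h : i = b
            · simp [h]
            · simp [h]
          simp only [a6, Finset.sum_ite_eq', Finset.mem_univ, if_true]
          ring
        rw [a5]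
        ring
      rw [a1, a3]
      nlinarith [sq_nonneg ((∑ i, v i * colA S q.s2 b i (P3 q w)) + v b)]
  have h2 : ∫ z, OG (densG q (R1C.GTwo q y l S.F S.D) S.F)
      (fun i w => Uz S q.s2 b i (P3 q w)) z ∂(gI (Pair n)) ≤
      ∫ z, ∑ i, ∑ j, E0 (densG q (R1C.GTwo q y l S.F S.D) S.F)
        (fun w => 2 * (colA S q.s2 b i (P3 q w) * colA S q.s2 b j (P3 q w)) + 2 * δ i j) z ^ 2
        ∂(gI (Pair n)) :=
    integral_mono (eg_OG eφ eg).integrable
      (EG.sum _ fun i _ => EG.sum _ fun j _ => (eg_E0 eφ (eg_P3 (ef i j))).pow 2).integrable h1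
  refine h2.trans ?_
  have h3 := int_E0_sq (S := S) hT h0 (Finset.univ : Finset (Fin n × Fin n))
    (f := fun r u => 2 * (colA S q.s2 b r.1 u * colA S q.s2 b r.2 u) + 2 * δ r.1 r.2)
    fun r _ => ef r.1 r.2
  simp only [Fintype.sum_prod_type] at h3
  rw [h3]
  have h4 : ∀ i j z, Tl S q.s2 (m3 q y) (s3 q l)
      (fun u => 2 * (colA S q.s2 b i u * colA S q.s2 b j u) + 2 * δ i j) 3 z =
      2 * MM S q.s2 (m3 q y) (s3 q l) 3 z (colA S q.s2 b) (colA S q.s2 b) i j + 2 * δ i j := by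
    intro i j z
    unfold H693.MM Tl
    rw [H693.TP_add H693.hU (((eg_colA b i).mul (eg_colA b j)).const_mul 2) (EG.const _) 3 hm,
      TD_const_mul, H693.TP_const H693.hU _ 3 hm]
  simp only [h4]
  have eM : ∀ i j, EG fun g : Pair n → ℝ => MM S q.s2 (m3 q y) (s3 q l) 3 (√q.t0 • g)
      (colA S q.s2 b) (colA S q.s2 b) i j := fun i j =>
    eg_sc (eg_MM (S := S) (σ := s3 q l) 3 hm b b i j) _
  have h5 : ∫ g, (8 * (∑ i, ∑ j, MM S q.s2 (m3 q y) (s3 q l) 3 (√q.t0 • g) (colA S q.s2 b)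
        (colA S q.s2 b) i j ^ 2) + 8) ∂(gI (Pair n)) =
      8 * (∫ g, ∑ i, ∑ j, MM S q.s2 (m3 q y) (s3 q l) 3 (√q.t0 • g) (colA S q.s2 b)
        (colA S q.s2 b) i j ^ 2 ∂(gI (Pair n))) + 8 := by
    have eS : EG fun g : Pair n → ℝ => ∑ i, ∑ j, MM S q.s2 (m3 q y) (s3 q l) 3 (√q.t0 • g)
        (colA S q.s2 b) (colA S q.s2 b) i j ^ 2 :=
      EG.sum _ fun i _ => EG.sum _ fun j _ => (eM i j).pow 2
    rw [integral_add (eS.const_mul 8).integrable (integrable_const _), integral_const_mul,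
      integral_const, probReal_univ, one_smul]
  rw [← h5]
  refine integral_mono (EG.sum _ fun i _ => EG.sum _ fun j _ =>
    (((eM i j).const_mul 2).add (EG.const _)).pow 2).integrable
    (((EG.sum _ fun i _ => EG.sum _ fun j _ => (eM i j).pow 2).const_mul 8).add
      (EG.const 8)).integrable fun g => ?_
  have h6 : ∑ i, ∑ j, (2 * δ i j) ^ 2 = 4 := by
    have a6 : ∀ i, ∑ j, (2 * δ i j) ^ 2 = if i = b then 4 else 0 := by
      intro i
      simp only [hδ]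
      by_cases h : i = b
      · simp [h]
        norm_num
      · simp [h]
    simp only [a6, Finset.sum_ite_eq', Finset.mem_univ, if_true]
  have h7 : ∑ i, ∑ j, (2 * MM S q.s2 (m3 q y) (s3 q l) 3 (√q.t0 • g) (colA S q.s2 b)
      (colA S q.s2 b) i j + 2 * δ i j) ^ 2 ≤
      ∑ i, ∑ j, (8 * MM S q.s2 (m3 q y) (s3 q l) 3 (√q.t0 • g) (colA S q.s2 b)
      (colA S q.s2 b) i j ^ 2 + 2 * (2 * δ i j) ^ 2) :=
    Finset.sum_le_sum fun i _ => Finset.sum_le_sum fun j _ => by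
      nlinarith [sq_nonneg (2 * MM S q.s2 (m3 q y) (s3 q l) 3 (√q.t0 • g) (colA S q.s2 b)
        (colA S q.s2 b) i j - 2 * δ i j)]
  refine h7.trans (le_of_eq ?_)
  simp only [Finset.sum_add_distrib, ← Finset.mul_sum]
  rw [h6]
  ring

/-- **[T4]** the drift term of the touch of the weight -/
theorem T4_gen (hT : Tm q y l) (h0 : 0 < q.t0) {V : Fin n → Fin n → (K4 (Pair n) → ℝ) → ℝ}
    (hV : ∀ b j, EG (V b j)) {c : ℝ} (hc : ∀ b w, ∑ j, V b j w ^ 2 ≤ c) :
    |EwG q (R1C.GTwo q y l S.F S.D) S.F (fun w => ∑ b, ∑ i, ∑ m, Db S y l b (P0 q w) i m *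
      (Uz S q.s2 b i (P3 q w) * ∑ j, S.A q.s2 (P3 q w) m j * V b j w))| ≤
      √(2 * q.t0 * EnD S q.s2 (m3 q y) (s3 q l) 3 (√q.t0)) *
        √(√(16 * nB S q.s2 (m3 q y) (s3 q l) 3 (√q.t0)) *
          √(n * (c ^ 2 * nF S q.s2 (m3 q y) (s3 q l) 3 (√q.t0)))) := by
  have hm := pm3 (q := q) S.x0 hT.hy
  have eφ := eg_phi (S := S) hT
  have key := pair_le (fun w => densG_nonneg w) eφ
    (D := fun b i m z => Db S y l b (√q.t0 • z) i m)
    (fun b i m => eg_sc (eg_Db (S := S) hT b i m) _)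
    (U := fun b i w => Uz S q.s2 b i (P3 q w))
    (g := fun b i w => ∑ j, S.A q.s2 (P3 q w) i j * V b j w)
    (fun b i => eg_P3 (eg_Uz S q.s2 b i))
    fun b i => EG.sum _ fun j _ => (eg_P3 (S.eg_A q.s2 i j)).mul (hV b j)
  refine (le_of_eq ?_).trans (key.trans ?_)
  · rfl
  refine mul_le_mul (Real.sqrt_le_sqrt ?_) (Real.sqrt_le_sqrt (mul_le_mul (Real.sqrt_le_sqrt ?_)
    (Real.sqrt_le_sqrt ?_) (Real.sqrt_nonneg _) (Real.sqrt_nonneg _))) (Real.sqrt_nonneg _)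
    (Real.sqrt_nonneg _)
  · refine le_trans (le_of_eq ?_) (TY_le (S := S) hT)
    rw [integral_finsetSum _ fun b _ => (EG.sum _ fun i _ => EG.sum _ fun j _ =>
      (eg_sc (eg_Db hT b i j) (√q.t0)).pow 2).integrable]
  · rw [integral_finsetSum _ fun b _ => (eg_OG eφ fun i => eg_P3 (eg_Uz S q.s2 b i)).integrable]
    have h1 := Finset.sum_le_sum fun (b : Fin n) (_ : b ∈ Finset.univ) =>
      OG_U (S := S) hT h0 b
    refine h1.trans ?_
    rw [Finset.sum_add_distrib, ← Finset.mul_sum, Finset.sum_const, Finset.card_univ,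
      Fintype.card_fin, nsmul_eq_mul]
    have h2 : ∑ b, ∫ g, ∑ i, ∑ j, MM S q.s2 (m3 q y) (s3 q l) 3 (√q.t0 • g) (colA S q.s2 b)
        (colA S q.s2 b) i j ^ 2 ∂(gI (Pair n)) ≤ nB S q.s2 (m3 q y) (s3 q l) 3 (√q.t0) := by
      have eM : ∀ b, EG fun g : Pair n → ℝ => ∑ i, ∑ j, MM S q.s2 (m3 q y) (s3 q l) 3
          (√q.t0 • g) (colA S q.s2 b) (colA S q.s2 b) i j ^ 2 := fun b =>
        EG.sum _ fun i _ => EG.sum _ fun j _ =>
          (eg_sc (eg_MM (S := S) (σ := s3 q l) 3 hm b b i j) _).pow 2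
      rw [← integral_finsetSum _ fun b _ => (eM b).integrable]
      unfold nB
      exact integral_mono (EG.sum _ fun b _ => eM b).integrable
        (eg_sc (eg_QC (S := S) (t2 := q.s2) (σ := s3 q l) 3 hm) _).integrable
        fun g => sum_gam (S := S) (σ := s3 q l) 3 hm (√q.t0 • g)
    have h3 := n_le_nB (S := S) (t2 := q.s2) (σ := s3 q l) 3 hm (√q.t0)
    linarith
  · rw [integral_finsetSum _ fun b _ => (eg_OG eφ fun i => EG.sum _ fun j _ =>
      (eg_P3 (S.eg_A q.s2 i j)).mul (hV b j)).integrable]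
    have h1 := Finset.sum_le_sum fun (b : Fin n) (_ : b ∈ Finset.univ) =>
      OG_C (S := S) hT h0 (hV b) (hc b)
    refine h1.trans (le_of_eq ?_)
    rw [Finset.sum_const, Finset.card_univ, Fintype.card_fin, nsmul_eq_mul]

/-- `mrow` without the drift -/
noncomputable def mro (S : CS n k q.x) (s : ℝ) (a : Fin 4 → ℝ) (b : Fin n) (Y L : MF n)
    (w : K4 (Pair n) → ℝ) : ℝ :=
  (∑ i, ∑ l, Y w i l * (Uv S s a b w i * Uv S s a b w l)) -
    2 * (k ^ 2 * vr a) * (∑ i, ∑ l, Y w i l * ∑ j, L w l j * S.H s b (H712.lp a w) i j) +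
    k ^ 2 * vr a * (∑ i, ∑ l, Y w i l * ∑ j, L w l j * L w i j)

/-- the drift of `mrow` -/
noncomputable def mrd (S : CS n k q.x) (s : ℝ) (a : Fin 4 → ℝ)
    (ψ' : K4 (Pair n) → (K4 (Pair n) → ℝ) → ℝ) (b : Fin n) (Y L : MF n)
    (w : K4 (Pair n) → ℝ) : ℝ :=
  k * ∑ i, ∑ l, Y w i l * (Uv S s a b w i * ∑ j, L w l j * dv a ψ' b w j)

lemma mrow_split {s : ℝ} {a : Fin 4 → ℝ} {ψ' : K4 (Pair n) → (K4 (Pair n) → ℝ) → ℝ} {b : Fin n}
    {Y L : MF n} (w : K4 (Pair n) → ℝ) :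
    mrow S s a ψ' b Y L w = mro S s a b Y L w - mrd S s a ψ' b Y L w := rfl

/-- **[T4]** in the letters of `mrow` -/
theorem T4_le (hT : Tm q y l) (h0 : 0 < q.t0) (hk : 0 ≤ k) {lc c : ℝ} (hl0 : 0 ≤ lc)
    (hc0 : 0 ≤ c) {ψ' : K4 (Pair n) → (K4 (Pair n) → ℝ) → ℝ}
    (h : Den (densG q (R1C.GTwo q y l S.F S.D) S.F) ψ')
    (hc : ∀ b w, ven (dv (k3 q) ψ' b w) ^ 2 ≤ c) :
    |EwG q (R1C.GTwo q y l S.F S.D) S.F (fun w => ∑ b, mrd S q.s2 (k3 q) ψ' b
      (fun w i j => Yb S y l b (P0 q w) i j - Yd S y l (P0 q w) i j)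
      (fun w i j => lc * S.A q.s2 (H712.lp (k3 q) w) i j) w)| ≤
      2 * (k * lc) * (√(2 * q.t0 * EnD S q.s2 (m3 q y) (s3 q l) 3 (√q.t0)) *
        √(c * √(nB S q.s2 (m3 q y) (s3 q l) 3 (√q.t0) *
          (n * nF S q.s2 (m3 q y) (s3 q l) 3 (√q.t0))))) := by
  have hm := pm3 (q := q) S.x0 hT.hy
  have key := T4_gen (S := S) hT h0 (V := fun b j w => dv (k3 q) ψ' b w j)
    (fun b j => eg_dv h b j) (c := c) fun b w => by
      have h1 := hc b w
      rwa [ven_sq] at h1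
  have e1 : ∀ w : K4 (Pair n) → ℝ, ∑ b, mrd S q.s2 (k3 q) ψ' b
      (fun w i j => Yb S y l b (P0 q w) i j - Yd S y l (P0 q w) i j)
      (fun w i j => lc * S.A q.s2 (H712.lp (k3 q) w) i j) w =
      (k * lc) * ∑ b, ∑ i, ∑ m, Db S y l b (P0 q w) i m *
      (Uz S q.s2 b i (P3 q w) * ∑ j, S.A q.s2 (P3 q w) m j * dv (k3 q) ψ' b w j) := by
    intro w
    rw [Finset.mul_sum]
    refine Finset.sum_congr rfl fun b _ => ?_
    unfold mrd
    rw [mul_assoc]
    congr 1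
    rw [Finset.mul_sum]
    refine Finset.sum_congr rfl fun i _ => ?_
    rw [Finset.mul_sum]
    refine Finset.sum_congr rfl fun m _ => ?_
    have e2 : ∑ j, lc * S.A q.s2 (H712.lp (k3 q) w) m j * dv (k3 q) ψ' b w j =
        lc * ∑ j, S.A q.s2 (P3 q w) m j * dv (k3 q) ψ' b w j := by
      rw [Finset.mul_sum]
      exact Finset.sum_congr rfl fun j _ => by rw [P3_lp]; ring
    have e3 : Uv S q.s2 (k3 q) b w i = Uz S q.s2 b i (P3 q w) := by
      unfold Uv
      rw [P3_lp]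
    have e4 : Db S y l b (P0 q w) i m = Yb S y l b (P0 q w) i m - Yd S y l (P0 q w) i m := rfl
    show (Yb S y l b (P0 q w) i m - Yd S y l (P0 q w) i m) * (Uv S q.s2 (k3 q) b w i *
      ∑ j, lc * S.A q.s2 (H712.lp (k3 q) w) m j * dv (k3 q) ψ' b w j) = _
    rw [e2, e3, e4]
    ring
  have e5 : EwG q (R1C.GTwo q y l S.F S.D) S.F (fun w => ∑ b, mrd S q.s2 (k3 q) ψ' b
      (fun w i j => Yb S y l b (P0 q w) i j - Yd S y l (P0 q w) i j)
      (fun w i j => lc * S.A q.s2 (H712.lp (k3 q) w) i j) w) =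
      (k * lc) * EwG q (R1C.GTwo q y l S.F S.D) S.F (fun w => ∑ b, ∑ i, ∑ m,
        Db S y l b (P0 q w) i m * (Uz S q.s2 b i (P3 q w) *
          ∑ j, S.A q.s2 (P3 q w) m j * dv (k3 q) ψ' b w j)) := by
    unfold EwG
    rw [← integral_const_mul]
    refine integral_congr_ae (Filter.Eventually.of_forall fun w => ?_)
    simp only
    rw [e1 w]
    ring
  rw [e5, abs_mul, abs_of_nonneg (mul_nonneg hk hl0)]
  have e6 : √(√(16 * nB S q.s2 (m3 q y) (s3 q l) 3 (√q.t0)) *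
      √(n * (c ^ 2 * nF S q.s2 (m3 q y) (s3 q l) 3 (√q.t0)))) =
      2 * √(c * √(nB S q.s2 (m3 q y) (s3 q l) 3 (√q.t0) *
          (n * nF S q.s2 (m3 q y) (s3 q l) 3 (√q.t0)))) := by
    have hB : 0 ≤ nB S q.s2 (m3 q y) (s3 q l) 3 (√q.t0) :=
      le_trans (Nat.cast_nonneg n) (n_le_nB 3 hm _)
    have f1 : √(16 * nB S q.s2 (m3 q y) (s3 q l) 3 (√q.t0)) =
        4 * √(nB S q.s2 (m3 q y) (s3 q l) 3 (√q.t0)) := by
      rw [Real.sqrt_mul (by norm_num)]
      congr 1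
      rw [show (16 : ℝ) = 4 ^ 2 by norm_num]
      exact Real.sqrt_sq (by norm_num)
    have f2 : √(n * (c ^ 2 * nF S q.s2 (m3 q y) (s3 q l) 3 (√q.t0))) =
        c * √(n * nF S q.s2 (m3 q y) (s3 q l) 3 (√q.t0)) := by
      rw [show (n : ℝ) * (c ^ 2 * nF S q.s2 (m3 q y) (s3 q l) 3 (√q.t0)) =
        c ^ 2 * (n * nF S q.s2 (m3 q y) (s3 q l) 3 (√q.t0)) by ring,
        Real.sqrt_mul (sq_nonneg c), Real.sqrt_sq hc0]
    rw [f1, f2, Real.sqrt_mul hB]
    rw [show 4 * √(nB S q.s2 (m3 q y) (s3 q l) 3 (√q.t0)) *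
      (c * √(n * nF S q.s2 (m3 q y) (s3 q l) 3 (√q.t0))) =
      4 * (c * (√(nB S q.s2 (m3 q y) (s3 q l) 3 (√q.t0)) *
      √(n * nF S q.s2 (m3 q y) (s3 q l) 3 (√q.t0)))) by ring, Real.sqrt_mul (by norm_num)]
    congr 1
    rw [show (4 : ℝ) = 2 ^ 2 by norm_num]
    exact Real.sqrt_sq (by norm_num)
  rw [e6] at key
  refine (mul_le_mul_of_nonneg_left key (mul_nonneg hk hl0)).trans (le_of_eq ?_)
  ring

/-- `E tr (Y C²) = E |Y|²` -/
theorem nF_EwG (hT : Tm q y l) : EwG q (R1C.GTwo q y l S.F S.D) S.F (H693.nA S y l) =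
    nF S q.s2 (m3 q y) (s3 q l) 3 (√q.t0) := by
  have h := EwG_deep (S := S) hT (Finset.univ : Finset (Fin n × Fin n))
    (α := fun r z => Yd S y l z r.1 r.2) (δ := fun r => H693.A2 S q.s2 r.1 r.2)
    (fun r _ => H693.eg_Yd hT r.1 r.2) fun r _ => H693.eg_A2 S q.s2 r.1 r.2
  simp only [Fintype.sum_prod_type] at h
  refine Eq.trans ?_ (h.trans ?_)
  · rfl
  · unfold nF
    refine integral_congr_ae (Filter.Eventually.of_forall fun g => ?_)
    show _ = H332.fr (QR S q.s2 (m3 q y) (s3 q l) 3 (√q.t0 • g))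
    unfold H332.fr
    refine Finset.sum_congr rfl fun i _ => Finset.sum_congr rfl fun j _ => ?_
    rw [pow_two]
    rfl

end law

end Vale.Agent.P146.H191
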